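import Mathlib

/-! Translational tilings of `ℤ^d`. -/

namespace Vale.Agent.P043

open scoped BigOperators

/-- The lattice `ℤ^d`. -/
abbrev Grid (d : ℕ) := Fin d → ℤ

/-- The rational vector of a lattice point. -/
def toRat {d : ℕ} (z : Grid d) : Fin d → ℚ := fun i => (z i : ℚ)

/-- `A ⊕ F = ℤ^d`: every point is `a + f` for exactly one `a ∈ A`, `f ∈ F`. -/
def Tiles {d : ℕ} (F : Finset (Grid d)) (A : Set (Grid d)) : Prop :=
  ∀ x : Grid d, ∃! f : Grid d, f ∈ F ∧ x - f ∈ A

/-- `A` is invariant under the sublattice `L ℤ^d` for some `L ≥ 1`. -/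
def IsPeriodic {d : ℕ} (A : Set (Grid d)) : Prop :=
  ∃ L : ℕ, 0 < L ∧ ∀ a z : Grid d, a + (L : ℤ) • z ∈ A ↔ a ∈ A

/-- No subspace of codimension at least two pairs every point of `F` with another one: for every
such subspace `U`, some point of `F` is alone in its translate of `U`. -/
def NoPairingSubspace {d : ℕ} (F : Finset (Grid d)) : Prop :=
  ∀ U : Submodule ℚ (Fin d → ℚ), Module.finrank ℚ U + 2 ≤ d →
    ∃ f ∈ F, ∀ g ∈ F, toRat (g - f) ∈ U → g = f

end Vale.Agent.P043
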