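import Vale.Agent.P043.Defs

/-! Lattices of rational subspaces, their multiples, and the hyperplanes attached to a tile. -/

namespace Vale.Agent.P043

open scoped BigOperators

variable {d : ℕ}

/-- `toRat` as a homomorphism. -/
def toRatHom : Grid d →+ (Fin d → ℚ) where
  toFun := toRat
  map_zero' := by funext i; simp [toRat]
  map_add' a b := by funext i; simp [toRat]

@[simp] lemma toRatHom_apply (z : Grid d) : toRatHom z = toRat z := rfl

lemma toRat_zsmul (n : ℤ) (z : Grid d) : toRat (n • z) = (n : ℚ) • toRat z := by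
  funext i; simp [toRat]

/-- The lattice points of a subspace. -/
def lat (H : Submodule ℚ (Fin d → ℚ)) : AddSubgroup (Grid d) :=
  H.toAddSubgroup.comap toRatHom

lemma mem_lat {H : Submodule ℚ (Fin d → ℚ)} {z : Grid d} : z ∈ lat H ↔ toRat z ∈ H := Iff.rfl

/-- `M` times the lattice points of a subspace. -/
def gam (M : ℕ) (H : Submodule ℚ (Fin d → ℚ)) : AddSubgroup (Grid d) :=
  (lat H).map (zsmulAddGroupHom (M : ℤ))

lemma mem_gam {M : ℕ} {H : Submodule ℚ (Fin d → ℚ)} {z : Grid d} :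
    z ∈ gam M H ↔ ∃ y, toRat y ∈ H ∧ (M : ℤ) • y = z := by
  simp [gam, mem_lat]

lemma smul_mem_gam {M : ℕ} {H : Submodule ℚ (Fin d → ℚ)} {y : Grid d} (h : toRat y ∈ H) :
    (M : ℤ) • y ∈ gam M H := mem_gam.2 ⟨y, h, rfl⟩

lemma smul_mem_gam_top {M : ℕ} (y : Grid d) : (M : ℤ) • y ∈ gam M ⊤ := smul_mem_gam trivial

lemma gam_mono {M : ℕ} {H J : Submodule ℚ (Fin d → ℚ)} (h : H ≤ J) : gam M H ≤ gam M J :=
  AddSubgroup.map_mono fun _ hz => h hz

lemma gam_anti_dvd {M M' : ℕ} (h : M ∣ M') (H : Submodule ℚ (Fin d → ℚ)) :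
    gam M' H ≤ gam M H := by
  obtain ⟨k, rfl⟩ := h
  intro z hz
  obtain ⟨y, hy, rfl⟩ := mem_gam.1 hz
  refine mem_gam.2 ⟨(k : ℤ) • y, ?_, by rw [smul_smul]; push_cast; rfl⟩
  rw [toRat_zsmul]
  exact H.smul_mem _ hy

lemma zmultiples_smul_le_gam {M : ℕ} {H : Submodule ℚ (Fin d → ℚ)} {w : Grid d} (h : toRat w ∈ H) :
    AddSubgroup.zmultiples ((M : ℤ) • w) ≤ gam M H :=
  AddSubgroup.zmultiples_le_of_mem (smul_mem_gam h)

/-- Scaling an inclusion of lattices. -/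
lemma gam_le_scaled {M K : ℕ} {H : Submodule ℚ (Fin d → ℚ)} {v : Grid d}
    (h : gam K ⊤ ≤ AddSubgroup.zmultiples v ⊔ lat H) :
    gam (M * K) ⊤ ≤ AddSubgroup.zmultiples ((M : ℤ) • v) ⊔ gam M H := by
  intro z hz
  obtain ⟨y, -, rfl⟩ := mem_gam.1 hz
  obtain ⟨a, ha, b, hb, hab⟩ := AddSubgroup.mem_sup.1 (h (smul_mem_gam_top y))
  obtain ⟨c, rfl⟩ := AddSubgroup.mem_zmultiples_iff.1 ha
  refine AddSubgroup.mem_sup.2 ⟨c • ((M : ℤ) • v), AddSubgroup.zsmul_mem _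
    (AddSubgroup.mem_zmultiples _) c, (M : ℤ) • b, smul_mem_gam hb, ?_⟩
  rw [smul_comm c, ← smul_add, hab, smul_smul]
  push_cast; rfl

lemma exists_nat_mul_toRat (w : Fin d → ℚ) :
    ∃ (z : Grid d) (n : ℕ), 0 < n ∧ toRat z = (n : ℚ) • w := by
  classical
  refine ⟨fun i => (w i).num * ((∏ j, (w j).den) / (w i).den : ℕ), ∏ j, (w j).den,
    Finset.prod_pos fun j _ => (w j).pos, ?_⟩
  funext i
  obtain ⟨c, hc⟩ : (w i).den ∣ ∏ j, (w j).den := Finset.dvd_prod_of_mem _ (Finset.mem_univ i)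
  show (((w i).num * ((∏ j, (w j).den) / (w i).den : ℕ) : ℤ) : ℚ) =
    ((∏ j, (w j).den : ℕ) : ℚ) * w i
  rw [hc, Nat.mul_div_cancel_left _ (w i).pos]
  push_cast
  rw [← Rat.mul_den_eq_num (w i)]
  ring

lemma span_lat (H : Submodule ℚ (Fin d → ℚ)) :
    Submodule.span ℚ (toRat '' (lat H : Set (Grid d))) = H := by
  refine le_antisymm (Submodule.span_le.2 ?_) fun w hw => ?_
  · rintro _ ⟨z, hz, rfl⟩
    exact hz
  · obtain ⟨z, n, hn, hz⟩ := exists_nat_mul_toRat w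
    have hzH : z ∈ lat H := by rw [mem_lat, hz]; exact H.smul_mem _ hw
    have h := Submodule.subset_span (R := ℚ) (Set.mem_image_of_mem toRat hzH)
    rw [hz] at h
    simpa [hn.ne'] using Submodule.smul_mem _ ((n : ℚ)⁻¹) h

lemma exists_smul_mem {Γ : AddSubgroup (Grid d)} {w : Fin d → ℚ}
    (hw : w ∈ Submodule.span ℚ (toRat '' (Γ : Set (Grid d)))) :
    ∃ n : ℕ, 0 < n ∧ ∃ γ ∈ Γ, toRat γ = (n : ℚ) • w := by
  induction hw using Submodule.span_induction with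
  | mem x hx =>
    obtain ⟨γ, hγ, rfl⟩ := hx
    exact ⟨1, one_pos, γ, hγ, by simp⟩
  | zero => exact ⟨1, one_pos, 0, Γ.zero_mem, by simp [show toRat (0 : Grid d) = 0 from toRatHom.map_zero]⟩
  | add x y _ _ hx hy =>
    obtain ⟨m, hm, a, ha, ea⟩ := hx
    obtain ⟨n, hn, b, hb, eb⟩ := hy
    refine ⟨m * n, Nat.mul_pos hm hn, (n : ℤ) • a + (m : ℤ) • b,
      Γ.add_mem (Γ.zsmul_mem ha _) (Γ.zsmul_mem hb _), ?_⟩
    rw [show toRat ((n : ℤ) • a + (m : ℤ) • b) = _ from toRatHom.map_add _ _]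
    simp only [toRatHom_apply, toRat_zsmul, ea, eb, Int.cast_natCast, smul_smul, smul_add]
    push_cast
    rw [mul_comm (n : ℚ)]
  | smul a x _ hx =>
    obtain ⟨m, hm, γ, hγ, e⟩ := hx
    refine ⟨m * a.den, Nat.mul_pos hm a.pos, a.num • γ, Γ.zsmul_mem hγ _, ?_⟩
    rw [toRat_zsmul, e, smul_smul, smul_smul]
    push_cast
    rw [← Rat.mul_den_eq_num a]
    congr 1
    ring

/-- If `Γ` spans `H` over `ℚ`, a multiple of the lattice of `H` lies in `Γ`. -/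
lemma exists_scale {H : Submodule ℚ (Fin d → ℚ)} {Γ : AddSubgroup (Grid d)}
    (h : H ≤ Submodule.span ℚ (toRat '' (Γ : Set (Grid d)))) :
    ∃ K : ℕ, 0 < K ∧ gam K H ≤ Γ := by
  classical
  obtain ⟨s, hs⟩ : (AddSubgroup.toIntSubmodule (lat H)).FG := IsNoetherian.noetherian _
  have hmem : ∀ z ∈ s, ∃ n : ℕ, 0 < n ∧ (n : ℤ) • z ∈ Γ := by
    intro z hz
    have hzl : z ∈ lat H := by
      have := Submodule.subset_span (R := ℤ) hz
      rw [hs] at this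
      exact this
    obtain ⟨n, hn, γ, hγ, e⟩ := exists_smul_mem (h (mem_lat.1 hzl))
    refine ⟨n, hn, ?_⟩
    have : (n : ℤ) • z = γ := funext fun i => by
      have := congrFun e i
      simp [toRat] at this ⊢
      exact_mod_cast this.symm
    rwa [this]
  choose! n hn hnΓ using hmem
  refine ⟨∏ z ∈ s, n z, Finset.prod_pos hn, fun z hz => ?_⟩
  obtain ⟨y, hy, rfl⟩ := mem_gam.1 hz
  have hy' : y ∈ Submodule.span ℤ (s : Set (Grid d)) := by rw [hs]; exact hy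
  clear hy hz
  induction hy' using Submodule.span_induction with
  | mem x hx =>
    obtain ⟨c, hc⟩ : n x ∣ ∏ z ∈ s, n z := Finset.dvd_prod_of_mem _ hx
    rw [hc, Nat.cast_mul, mul_comm, mul_smul]
    exact Γ.zsmul_mem (hnΓ x hx) _
  | zero => simp [Γ.zero_mem]
  | add a b _ _ ha hb => rw [smul_add]; exact Γ.add_mem ha hb
  | smul a x _ hx => rw [smul_comm]; exact Γ.zsmul_mem hx _

/-- A proper subspace lies in a hyperplane. -/
lemma exists_hyperplane {W : Submodule ℚ (Fin d → ℚ)} (hW : W ≠ ⊤) :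
    ∃ H : Submodule ℚ (Fin d → ℚ), W ≤ H ∧ Module.finrank ℚ H + 1 = d := by
  obtain ⟨φ, hφ, hle⟩ := W.exists_le_ker_of_lt_top (lt_top_iff_ne_top.2 hW)
  refine ⟨LinearMap.ker φ, hle, ?_⟩
  rw [Module.Dual.finrank_ker_add_one_of_ne_zero hφ, Module.finrank_fin_fun]

/-- The hyperplanes and scales attached to a tile. -/
structure Geometry (F : Finset (Grid d)) where
  hyps : Finset (Submodule ℚ (Fin d → ℚ))
  M₀ : ℕ
  K : ℕ
  M₀_pos : 0 < M₀
  K_pos : 0 < K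
  fact_dvd : F.card.factorial ∣ M₀
  nonempty : hyps.Nonempty
  hyper : ∀ H ∈ hyps, Module.finrank ℚ H + 1 = d
  cross : ∀ H ∈ hyps, ∀ J ∈ hyps, J ≠ H →
    ∃ v, toRat v ∈ J ∧ gam K ⊤ ≤ AddSubgroup.zmultiples v ⊔ lat H
  crossF : ∀ H ∈ hyps, ∀ f ∈ F, ∀ g ∈ F, toRat (f - g) ∉ H →
    gam K ⊤ ≤ AddSubgroup.zmultiples (f - g) ⊔ lat H

/-- Every way of pairing the points of `F` generates a lattice containing one of the hyperplanes. -/
def Geometry.Covers {F : Finset (Grid d)} (G : Geometry F) : Prop :=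
  ∀ π : Grid d → Grid d, (∀ f ∈ F, π f ∈ F ∧ π f ≠ f) → ∃ H ∈ G.hyps, gam G.M₀ H ≤
    AddSubgroup.closure {u | ∃ f ∈ F, u = (F.card.factorial : ℤ) • (f - π f)}

lemma sup_span_eq_top {H : Submodule ℚ (Fin d → ℚ)} (hH : Module.finrank ℚ H + 1 = d)
    {v : Fin d → ℚ} (hv : v ∉ H) : H ⊔ Submodule.span ℚ {v} = ⊤ := by
  refine Submodule.eq_top_of_finrank_eq (le_antisymm (Submodule.finrank_le _) ?_)
  have hlt : H < H ⊔ Submodule.span ℚ {v} := lt_of_le_of_ne le_sup_left fun he =>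
    hv (he ▸ Submodule.mem_sup_right (Submodule.mem_span_singleton_self v))
  have := Submodule.finrank_lt_finrank_of_lt hlt
  rw [Module.finrank_fin_fun]
  omega

lemma exists_cross {H : Submodule ℚ (Fin d → ℚ)} (hH : Module.finrank ℚ H + 1 = d)
    {v : Grid d} (hv : toRat v ∉ H) :
    ∃ K : ℕ, 0 < K ∧ gam K ⊤ ≤ AddSubgroup.zmultiples v ⊔ lat H := by
  refine exists_scale ?_
  rw [← sup_span_eq_top hH hv, sup_le_iff]
  refine ⟨?_, Submodule.span_le.2 ?_⟩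
  · conv_lhs => rw [← span_lat H]
    exact Submodule.span_mono (Set.image_mono fun z hz => AddSubgroup.mem_sup_right hz)
  · rintro _ rfl
    exact Submodule.subset_span ⟨v, AddSubgroup.mem_sup_left (AddSubgroup.mem_zmultiples v), rfl⟩

/-- Any finite family of hyperplanes and any scale make a geometry. -/
theorem exists_geometry_of_hyps {F : Finset (Grid d)} (hyps : Finset (Submodule ℚ (Fin d → ℚ)))
    (hne : hyps.Nonempty) (hhyper : ∀ H ∈ hyps, Module.finrank ℚ H + 1 = d) {M₀ : ℕ}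
    (hM₀ : 0 < M₀) (hdvd : F.card.factorial ∣ M₀) :
    ∃ G : Geometry F, G.hyps = hyps ∧ G.M₀ = M₀ := by
  classical
  have hc1 : ∀ p : Submodule ℚ (Fin d → ℚ) × Submodule ℚ (Fin d → ℚ), ∃ (v : Grid d) (K : ℕ),
      0 < K ∧ (p.1 ∈ hyps → p.2 ∈ hyps → p.2 ≠ p.1 →
        toRat v ∈ p.2 ∧ gam K ⊤ ≤ AddSubgroup.zmultiples v ⊔ lat p.1) := by
    rintro ⟨H, J⟩
    by_cases h : H ∈ hyps ∧ J ∈ hyps ∧ J ≠ H
    swap
    · exact ⟨0, 1, one_pos, fun a b c => absurd ⟨a, b, c⟩ h⟩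
    obtain ⟨hH, hJ, hne'⟩ := h
    have hnle : ¬J ≤ H := fun hle => hne'
      (Submodule.eq_of_le_of_finrank_le hle (by have := hhyper H hH; have := hhyper J hJ; omega))
    obtain ⟨w, hwJ, hwH⟩ := SetLike.not_le_iff_exists.1 hnle
    obtain ⟨v, n, hn, hv⟩ := exists_nat_mul_toRat w
    have hvH : toRat v ∉ H := fun h => hwH (by
      rw [hv] at h
      simpa [hn.ne'] using H.smul_mem ((n : ℚ)⁻¹) h)
    obtain ⟨K, hK, hle⟩ := exists_cross (hhyper H hH) hvH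
    exact ⟨v, K, hK, fun _ _ _ => ⟨hv ▸ J.smul_mem _ hwJ, hle⟩⟩
  have hc2 : ∀ p : Submodule ℚ (Fin d → ℚ) × (Grid d), ∃ K : ℕ,
      0 < K ∧ (p.1 ∈ hyps → toRat p.2 ∉ p.1 → gam K ⊤ ≤ AddSubgroup.zmultiples p.2 ⊔ lat p.1) := by
    rintro ⟨H, w⟩
    by_cases h : H ∈ hyps ∧ toRat w ∉ H
    · obtain ⟨K, hK, hle⟩ := exists_cross (hhyper H h.1) h.2
      exact ⟨K, hK, fun _ _ => hle⟩
    · exact ⟨1, one_pos, fun a b => absurd ⟨a, b⟩ h⟩
  choose v K₁ hK₁ hv₁ using hc1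
  choose K₂ hK₂ hv₂ using hc2
  set P₁ := (hyps ×ˢ hyps) with hP₁
  set P₂ := (hyps ×ˢ ((F ×ˢ F).image fun p => p.1 - p.2)) with hP₂
  refine ⟨⟨hyps, M₀, (∏ p ∈ P₁, K₁ p) * ∏ p ∈ P₂, K₂ p, hM₀,
    Nat.mul_pos (Finset.prod_pos fun p _ => hK₁ p) (Finset.prod_pos fun p _ => hK₂ p),
    hdvd, hne, hhyper, ?_, ?_⟩, rfl, rfl⟩
  · intro H hH J hJ hne'
    refine ⟨v (H, J), (hv₁ (H, J) hH hJ hne').1, ?_⟩
    exact (gam_anti_dvd ((Finset.dvd_prod_of_mem K₁ (Finset.mem_product.2 ⟨hH, hJ⟩ :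
      (H, J) ∈ P₁)).mul_right _) _).trans (hv₁ (H, J) hH hJ hne').2
  · intro H hH f hf g hg hfg
    have hmem : (H, f - g) ∈ P₂ := Finset.mem_product.2
      ⟨hH, Finset.mem_image.2 ⟨(f, g), Finset.mem_product.2 ⟨hf, hg⟩, rfl⟩⟩
    exact (gam_anti_dvd ((Finset.dvd_prod_of_mem K₂ hmem).mul_left _) _).trans
      (hv₂ (H, f - g) hH hfg)

theorem exists_geometry {F : Finset (Grid d)} (hd : 0 < d) (hne : F.Nonempty)
    (hF : NoPairingSubspace F) : ∃ G : Geometry F, G.Covers := by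
  classical
  have hbot : (⊥ : Submodule ℚ (Fin d → ℚ)) ≠ ⊤ := fun h => by
    have := congrArg (fun W : Submodule ℚ (Fin d → ℚ) => Module.finrank ℚ W) h
    simp [finrank_bot, finrank_top] at this
    omega
  obtain ⟨H₀, -, hH₀⟩ := exists_hyperplane hbot
  set q := F.card.factorial with hq
  have hq0 : 0 < q := Nat.factorial_pos _
  set Γ : (F → F) → AddSubgroup (Grid d) := fun π =>
    AddSubgroup.closure {u | ∃ f : F, u = (q : ℤ) • ((f : Grid d) - ((π f : F) : Grid d))} with hΓ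
  have key : ∀ π : F → F, ∃ (H : Submodule ℚ (Fin d → ℚ)) (K : ℕ), 0 < K ∧
      Module.finrank ℚ H + 1 = d ∧ ((∀ f, π f ≠ f) → gam K H ≤ Γ π) := by
    intro π
    by_cases hπ : ∀ f, π f ≠ f
    swap
    · exact ⟨H₀, 1, one_pos, hH₀, fun h => absurd h hπ⟩
    set W := Submodule.span ℚ (toRat '' (Γ π : Set (Grid d)))
    have hWmem : ∀ f : F, toRat ((f : Grid d) - ((π f : F) : Grid d)) ∈ W := fun f => by
      have h := Submodule.subset_span (R := ℚ) (Set.mem_image_of_mem toRat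
        (show (q : ℤ) • ((f : Grid d) - ((π f : F) : Grid d)) ∈ (Γ π : Set (Grid d)) from
          AddSubgroup.subset_closure ⟨f, rfl⟩))
      rw [toRat_zsmul] at h
      have hq1 : ((q : ℤ) : ℚ) ≠ 0 := by exact_mod_cast hq0.ne'
      have h2 := Submodule.smul_mem _ ((q : ℤ) : ℚ)⁻¹ h
      rwa [inv_smul_smul₀ hq1] at h2
    have hdim : ¬Module.finrank ℚ W + 2 ≤ d := fun h => by
      obtain ⟨f, hf, halone⟩ := hF W h
      refine hπ ⟨f, hf⟩ (Subtype.ext (halone _ (π ⟨f, hf⟩).2 ?_))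
      have hn := W.neg_mem (hWmem ⟨f, hf⟩)
      rwa [show -toRat (f - (π ⟨f, hf⟩ : Grid d)) = toRat ((π ⟨f, hf⟩ : Grid d) - f) by
        funext i; simp [toRat]] at hn
    by_cases htop : W = ⊤
    · obtain ⟨K, hK, hle⟩ := exists_scale (H := H₀) (Γ := Γ π) (le_top.trans_eq htop.symm)
      exact ⟨H₀, K, hK, hH₀, fun _ => hle⟩
    · obtain ⟨H, hWH, hH⟩ := exists_hyperplane htop
      have heq : W = H := Submodule.eq_of_le_of_finrank_le hWH (by omega)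
      obtain ⟨K, hK, hle⟩ := exists_scale (H := H) (Γ := Γ π) heq.ge
      exact ⟨H, K, hK, hH, fun _ => hle⟩
  choose Hπ Kπ hKπ hHπ hleπ using key
  set hyps : Finset (Submodule ℚ (Fin d → ℚ)) := insert H₀ (Finset.univ.image Hπ) with hhyps
  have hhyper : ∀ H ∈ hyps, Module.finrank ℚ H + 1 = d := by
    intro H hH
    rcases Finset.mem_insert.1 hH with rfl | hH
    · exact hH₀
    · obtain ⟨π, -, rfl⟩ := Finset.mem_image.1 hH
      exact hHπ π
  obtain ⟨G, hGh, hGM⟩ := exists_geometry_of_hyps (F := F) hyps ⟨H₀, Finset.mem_insert_self _ _⟩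
    hhyper (M₀ := q * ∏ π, Kπ π) (Nat.mul_pos hq0 (Finset.prod_pos fun π _ => hKπ π))
    (dvd_mul_right _ _)
  refine ⟨G, ?_⟩
  rw [Geometry.Covers, hGh, hGM]
  · intro π hπ
    set π' : F → F := fun f => ⟨π f, (hπ f f.2).1⟩
    refine ⟨Hπ π', Finset.mem_insert_of_mem (Finset.mem_image_of_mem _ (Finset.mem_univ _)), ?_⟩
    refine (gam_anti_dvd ((Finset.dvd_prod_of_mem Kπ (Finset.mem_univ π')).mul_left q) _).trans
      ((hleπ π' fun f h => (hπ f f.2).2 (congrArg Subtype.val h)).trans ?_)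
    refine AddSubgroup.closure_mono ?_
    rintro u ⟨f, rfl⟩
    exact ⟨f, f.2, rfl⟩

end Vale.Agent.P043
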