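import Vale.Agent.P043.Defs

/-! The dilation lemma. -/

namespace Vale.Agent.P043

open scoped BigOperators

variable {d : ℕ}

/-- Translations act on functions. -/
noncomputable def shiftHom (p : ℕ) (d : ℕ) :
    Multiplicative (Grid d) →* Module.End (ZMod p) (Grid d → ZMod p) where
  toFun g := LinearMap.funLeft (ZMod p) (ZMod p) fun z => z - g.toAdd
  map_one' := by ext h z; simp [LinearMap.funLeft_apply]
  map_mul' a b := by
    refine LinearMap.ext fun h => funext fun z => ?_
    show h (z - (a * b).toAdd) = h (z - a.toAdd - b.toAdd)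
    rw [toAdd_mul, sub_sub]

/-- Indexed tiles: `c` is covered exactly once by the translates `v i`. -/
def CoversOnce {ι : Type*} [Fintype ι] (v : ι → Grid d) (c : Grid d → ℕ) : Prop :=
  ∀ z, ∑ i, c (z - v i) = 1

lemma CoversOnce.le_one {ι : Type*} [Fintype ι] {v : ι → Grid d} {c : Grid d → ℕ}
    (h : CoversOnce v c) (i : ι) (z : Grid d) : c z ≤ 1 := by
  have := h (z + v i)
  rw [← this]
  exact le_trans (by simp) (Finset.single_le_sum (fun j _ => Nat.zero_le (c (z + v i - v j)))
    (Finset.mem_univ i))

lemma coversOnce_prime_mod {ι : Type*} [Fintype ι] {v : ι → Grid d} {c : Grid d → ℕ}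
    (h : CoversOnce v c) {p : ℕ} (hp : p.Prime) (hn : ¬p ∣ Fintype.card ι) :
    ∀ z, 1 ≤ ∑ i, c (z - p • v i) := by
  classical
  have := Fact.mk hp
  have : CharP (AddMonoidAlgebra (ZMod p) (Grid d)) p :=
    charP_of_injective_algebraMap
      (RingHom.injective (algebraMap (ZMod p) (AddMonoidAlgebra (ZMod p) (Grid d)))) p
  set φ := AddMonoidAlgebra.lift (ZMod p) (Module.End (ZMod p) (Grid d → ZMod p)) (Grid d)
    (shiftHom p d) with hφ
  set cp : Grid d → ZMod p := fun z => (c z : ZMod p) with hcp
  set P : AddMonoidAlgebra (ZMod p) (Grid d) := ∑ i, AddMonoidAlgebra.single (v i) 1 with hP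
  have hsingle : ∀ (g : Grid d) (f : Grid d → ZMod p) (z : Grid d),
      φ (AddMonoidAlgebra.single g 1) f z = f (z - g) := by
    intro g f z
    rw [hφ, AddMonoidAlgebra.lift_single, one_smul]
    rfl
  have hPf : ∀ (f : Grid d → ZMod p) (z : Grid d), φ P f z = ∑ i, f (z - v i) := by
    intro f z
    simp [hP, hsingle, LinearMap.sum_apply, Finset.sum_apply]
  have h1 : φ P cp = fun _ => 1 := funext fun z => by
    rw [hPf]
    simp only [hcp, ← Nat.cast_sum, h z, Nat.cast_one]
  have h2 : ∀ a : ZMod p, φ P (fun _ => a) = fun _ => (Fintype.card ι : ZMod p) * a := fun a =>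
    funext fun z => by rw [hPf]; simp
  have hn0 : Fintype.card ι ≠ 0 := fun h0 => by
    have := Fintype.card_eq_zero_iff.1 h0
    have hz := h 0
    simp at hz
  have h3 : ∀ k : ℕ, φ (P ^ (k + 1)) cp = fun _ => (Fintype.card ι : ZMod p) ^ k := by
    intro k
    induction k with
    | zero => simpa using h1
    | succ k ih =>
      rw [pow_succ' P (k + 1), map_mul, Module.End.mul_apply, ih, h2]
      simp [pow_succ']
  have h4 : (Fintype.card ι : ZMod p) ^ (p - 1) = 1 := by
    refine ZMod.pow_card_sub_one_eq_one fun h0 => ?_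
    rw [ZMod.natCast_eq_zero_iff] at h0
    exact hn h0
  intro z
  have h5 : φ (P ^ p) cp z = ∑ i, cp (z - p • v i) := by
    rw [hP, sum_pow_char]
    simp [AddMonoidAlgebra.single_pow, hsingle, LinearMap.sum_apply, Finset.sum_apply]
  have h6 : ((∑ i, c (z - p • v i) : ℕ) : ZMod p) = ((1 : ℕ) : ZMod p) := by
    rw [Nat.cast_one, ← h4, Nat.cast_sum]
    have := congrFun (h3 (p - 1)) z
    rw [Nat.sub_add_cancel hp.one_le, h5] at this
    exact this
  by_contra hlt
  rw [show ∑ i, c (z - p • v i) = 0 by omega] at h6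
  simp at h6

lemma nonempty_of_cover {ι : Type*} [Fintype ι] {v : ι → Grid d} {c : Grid d → ℕ}
    (h : CoversOnce v c) : Nonempty ι := by
  by_contra hne
  rw [not_nonempty_iff] at hne
  simpa using h 0

/-- Dilation by a prime not dividing the number of translates preserves tilings. -/
lemma coversOnce_prime_coprime {ι : Type*} [Fintype ι] {v : ι → Grid d} {c : Grid d → ℕ}
    (h : CoversOnce v c) {p : ℕ} (hp : p.Prime) (hn : ¬p ∣ Fintype.card ι) :
    CoversOnce (fun i => p • v i) c := by
  classical
  have hge := coversOnce_prime_mod h hp hn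
  intro z
  have hsum : ∑ j, ∑ i, c (z + v (Classical.choice (nonempty_of_cover h)) - v j - p • v i) =
      ∑ _j : ι, 1 := by
    rw [Finset.sum_comm]
    refine Finset.sum_congr rfl fun i _ => ?_
    rw [← h (z + v (Classical.choice (nonempty_of_cover h)) - p • v i)]
    exact Finset.sum_congr rfl fun j _ => by rw [sub_right_comm]
  have := (Finset.sum_eq_sum_iff_of_le fun j _ => hge _).1 hsum.symm
    (Classical.choice (nonempty_of_cover h)) (Finset.mem_univ _)
  simpa using this.symm

/-- Dilation by a number coprime to the number of translates preserves tilings. -/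
theorem coversOnce_coprime {ι : Type*} [Fintype ι] {v : ι → Grid d} {c : Grid d → ℕ}
    (h : CoversOnce v c) (r : ℕ) (hr0 : r ≠ 0) (hr : Nat.Coprime r (Fintype.card ι)) :
    CoversOnce (fun i => r • v i) c := by
  induction r using Nat.recOnPrimePow with
  | zero => exact absurd rfl hr0
  | one => simpa using h
  | prime_pow_mul a p n hp hpa hn ih =>
    have ha : a ≠ 0 := fun h0 => hr0 (by simp [h0])
    have h1 := ih ha (hr.coprime_mul_left)
    have hpn : ¬p ∣ Fintype.card ι := fun hd => hp.ne_one
      (Nat.eq_one_of_dvd_coprimes hr ((dvd_pow_self p hn.ne').mul_right _) hd)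
    have key : ∀ j : ℕ, CoversOnce (fun i => (p ^ j * a) • v i) c := by
      intro j
      induction j with
      | zero => simpa using h1
      | succ j ihj =>
        have := coversOnce_prime_coprime ihj hp hpn
        simpa [pow_succ, mul_comm, mul_left_comm, mul_assoc, mul_nsmul', ← mul_smul] using this
    exact key n

/-- Numbers congruent to one modulo `n!` are free of primes up to `n`. -/
lemma lt_of_dvd_one_add {n p k : ℕ} (hp : p.Prime) (h : p ∣ 1 + k * n.factorial) : n < p := by
  by_contra hle
  have h2 : p ∣ k * n.factorial := (hp.dvd_factorial.2 (not_lt.1 hle)).mul_left _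
  exact hp.ne_one (Nat.dvd_one.1 ((Nat.dvd_add_left h2).1 h))

end Vale.Agent.P043
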