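import Vale.Agent.P043.Meas
import Vale.Agent.P043.Dilation

/-! The space of tilings and a translation-invariant probability measure on it. -/

open MeasureTheory Filter
open scoped Topology BigOperators ENNReal BoundedContinuousFunction

noncomputable section

namespace Vale.Agent.P043

variable {d : ℕ}

/-- The indicator of a Boolean. -/
def bnat (b : Bool) : ℕ := if b then 1 else 0

/-- The space of tilings by `F`, as indicator configurations. -/
abbrev TilingSpace (F : Finset (Grid d)) : Type :=
  {c : Grid d → Bool // CoversOnce (fun g : F => (g : Grid d)) fun z => bnat (c z)}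

namespace TilingSpace

variable {F : Finset (Grid d)}

instance : SecondCountableTopology (TilingSpace F) :=
  Topology.IsInducing.subtypeVal.secondCountableTopology

instance : CompactSpace (TilingSpace F) := by
  have h : IsClosed {c : Grid d → Bool | CoversOnce (fun g : F => (g : Grid d)) fun z => bnat (c z)} := by
    have e : {c : Grid d → Bool | CoversOnce (fun g : F => (g : Grid d)) fun z => bnat (c z)} =
        ⋂ z, {c : Grid d → Bool | ∑ g : F, bnat (c (z - (g : Grid d))) = 1} := by
      ext c; simp [CoversOnce]
    rw [e]
    refine isClosed_iInter fun z => isClosed_eq (continuous_finsetSum _ fun g _ => ?_) continuous_const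
    exact (continuous_of_discreteTopology (f := bnat)).comp (continuous_apply _)
  exact isCompact_iff_compactSpace.1 h.isCompact

/-- Translation of a tiling. -/
def shift (t : Grid d) (c : TilingSpace F) : TilingSpace F :=
  ⟨fun z => c.1 (z + t), fun z => by simpa [add_sub_right_comm] using c.2 (z + t)⟩

lemma shift_zero (c : TilingSpace F) : shift 0 c = c :=
  Subtype.ext (funext fun z => by simp [shift])

lemma shift_add (a b : Grid d) (c : TilingSpace F) : shift (a + b) c = shift a (shift b c) :=
  Subtype.ext (funext fun z => by simp [shift, add_assoc])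

lemma continuous_shift (t : Grid d) : Continuous (shift (F := F) t) :=
  Continuous.subtype_mk (continuous_pi fun z => (continuous_apply (z + t)).comp continuous_subtype_val) fun c => (shift t c).2

end TilingSpace

/-- A continuous map of a compact space preserving nothing a priori: some limit of averaged
push-forwards is invariant under it and under whatever commutes with it and fixed the start. -/
lemma exists_invariant_step {Ω : Type} [TopologicalSpace Ω] [MeasurableSpace Ω] [T2Space Ω]
    [SecondCountableTopology Ω] [CompactSpace Ω] [BorelSpace Ω] (f : Ω → Ω) (hf : Continuous f)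
    (ν : ProbabilityMeasure Ω) :
    ∃ ν' : ProbabilityMeasure Ω, (ν' : Measure Ω).map f = ν' ∧
      ∀ g : Ω → Ω, Continuous g → (∀ x, g (f x) = f (g x)) → (ν : Measure Ω).map g = ν →
        (ν' : Measure Ω).map g = ν' := by
  classical
  set w : ℕ → Measure Ω := fun N =>
    ((N + 1 : ℕ) : ℝ≥0∞)⁻¹ • ∑ k ∈ Finset.range (N + 1), (ν : Measure Ω).map f^[k] with hw
  have hprob : ∀ N, IsProbabilityMeasure (w N) := fun N => ⟨by
    have : ∀ k, ((ν : Measure Ω).map f^[k]) Set.univ = 1 := fun k => by
      rw [Measure.map_apply (hf.iterate k).measurable MeasurableSet.univ, Set.preimage_univ,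
        measure_univ]
    simp only [hw, Measure.smul_apply, Measure.coe_finsetSum, Finset.sum_apply, smul_eq_mul, this,
      Finset.sum_const, Finset.card_range, nsmul_eq_mul, mul_one]
    exact ENNReal.inv_mul_cancel (by simp) (ENNReal.natCast_ne_top _)⟩
  set W : ℕ → ProbabilityMeasure Ω := fun N => ⟨w N, hprob N⟩ with hWdef
  set U : Ultrafilter ℕ := Ultrafilter.of atTop
  obtain ⟨ν', -, hlim⟩ := isCompact_univ.ultrafilter_le_nhds (U.map W) (by simp)
  have hlim' : Tendsto W (U : Filter ℕ) (𝓝 ν') := hlim
  have hint : ∀ (N : ℕ) (φ : Ω →ᵇ ℝ), ∫ x, φ x ∂w N =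
      ((N + 1 : ℕ) : ℝ)⁻¹ * ∑ k ∈ Finset.range (N + 1), ∫ x, φ (f^[k] x) ∂(ν : Measure Ω) := by
    intro N φ
    simp only [hw]
    rw [integral_smul_measure, integral_finsetSum_measure fun k _ => φ.integrable _]
    simp only [ENNReal.toReal_inv, ENNReal.toReal_natCast, smul_eq_mul]
    congr 1
    exact Finset.sum_congr rfl fun k _ =>
      integral_map (hf.iterate k).measurable.aemeasurable φ.continuous.aestronglyMeasurable
  refine ⟨ν', ?_, fun g hg hcomm hgν => ?_⟩
  · have h : ν'.map hf.measurable.aemeasurable = ν' := by
      refine tendsto_nhds_unique ((ProbabilityMeasure.continuous_map hf).continuousAt.tendsto.comp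
        hlim') ?_
      rw [ProbabilityMeasure.tendsto_iff_forall_integral_tendsto]
      intro φ
      have h1 := (ProbabilityMeasure.tendsto_iff_forall_integral_tendsto.1 hlim') φ
      have h2 : Tendsto (fun N => ∫ x, φ (f x) ∂w N - ∫ x, φ x ∂w N) (U : Filter ℕ) (𝓝 0) := by
        refine Tendsto.mono_left ?_ (Ultrafilter.of_le atTop)
        have hb : ∀ N, |∫ x, φ (f x) ∂w N - ∫ x, φ x ∂w N| ≤
            ((N + 1 : ℕ) : ℝ)⁻¹ * (2 * ‖φ‖) := by
          intro N
          have e : ∫ x, φ (f x) ∂w N = ((N + 1 : ℕ) : ℝ)⁻¹ *
              ∑ k ∈ Finset.range (N + 1), ∫ x, φ (f^[k + 1] x) ∂(ν : Measure Ω) := by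
            simp only [Function.iterate_succ_apply']
            exact hint N (φ.compContinuous ⟨f, hf⟩)
          rw [e, hint, ← mul_sub, ← Finset.sum_sub_distrib, abs_mul, Finset.sum_range_sub
            (fun k => ∫ x, φ (f^[k] x) ∂(ν : Measure Ω)), abs_of_nonneg (by positivity)]
          refine mul_le_mul_of_nonneg_left ((abs_sub _ _).trans ?_) (by positivity)
          have hk : ∀ k, |∫ x, φ (f^[k] x) ∂(ν : Measure Ω)| ≤ ‖φ‖ := fun k => by
            have := (φ.compContinuous ⟨f^[k], hf.iterate k⟩).norm_integral_le_norm (ν : Measure Ω)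
            exact this.trans (φ.norm_compContinuous_le _)
          linarith [hk (N + 1), hk 0]
        refine squeeze_zero_norm (fun N => hb N) ?_
        simpa using (tendsto_inv_atTop_zero.comp
          (tendsto_natCast_atTop_atTop.comp (tendsto_add_atTop_nat 1))).mul_const (2 * ‖φ‖)
      have h3 := h2.add h1
      rw [zero_add] at h3
      refine h3.congr fun N => ?_
      show ∫ x, φ (f x) ∂w N - ∫ x, φ x ∂w N + ∫ x, φ x ∂w N = ∫ x, φ x ∂(w N).map f
      rw [integral_map hf.measurable.aemeasurable φ.continuous.aestronglyMeasurable]
      ring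
    exact congrArg Subtype.val h
  · have h : ν'.map hg.measurable.aemeasurable = ν' := by
      refine tendsto_nhds_unique ((ProbabilityMeasure.continuous_map hg).continuousAt.tendsto.comp
        hlim') (hlim'.congr fun N => Subtype.ext ?_)
      simp only [Function.comp_apply, ProbabilityMeasure.toMeasure_map, hWdef,
        ProbabilityMeasure.coe_mk]
      show w N = (w N).map g
      simp only [hw]
      rw [Measure.map_smul, ← Measure.mapₗ_apply_of_measurable hg.measurable, map_sum]
      congr 1
      refine Finset.sum_congr rfl fun k _ => ?_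
      rw [Measure.mapₗ_apply_of_measurable hg.measurable, Measure.map_map hg.measurable
        (hf.iterate k).measurable]
      conv_lhs => rw [← hgν, Measure.map_map (hf.iterate k).measurable hg.measurable]
      congr 1
      funext x
      exact ((Function.Commute.iterate_right (fun y => hcomm y) k) x).symm
    exact congrArg Subtype.val h

theorem exists_invariant_measure {F : Finset (Grid d)} [Nonempty (TilingSpace F)] :
    ∃ μ : Measure (TilingSpace F), IsProbabilityMeasure μ ∧
      ∀ t, MeasurePreserving (TilingSpace.shift t) μ μ := by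
  classical
  have key : ∀ l : List (Grid d), ∃ ν : ProbabilityMeasure (TilingSpace F),
      ∀ t ∈ l, (ν : Measure (TilingSpace F)).map (TilingSpace.shift t) = ν := by
    intro l
    induction l with
    | nil =>
      exact ⟨⟨Measure.dirac (Classical.arbitrary _), Measure.dirac.isProbabilityMeasure⟩, by simp⟩
    | cons a l ih =>
      obtain ⟨ν, hν⟩ := ih
      obtain ⟨ν', h1, h2⟩ := exists_invariant_step _ (TilingSpace.continuous_shift a) ν
      refine ⟨ν', fun t ht => ?_⟩
      rcases List.mem_cons.1 ht with rfl | ht
      · exact h1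
      · refine h2 _ (TilingSpace.continuous_shift t) (fun x => ?_) (hν t ht)
        rw [← TilingSpace.shift_add, add_comm, TilingSpace.shift_add]
  obtain ⟨ν, hν⟩ := key (List.ofFn fun i : Fin d => Pi.single i (1 : ℤ))
  set μ : Measure (TilingSpace F) := (ν : Measure (TilingSpace F))
  refine ⟨μ, inferInstance, ?_⟩
  let G : AddSubgroup (Grid d) :=
    { carrier := {t | μ.map (TilingSpace.shift t) = μ}
      zero_mem' := by
        show μ.map _ = μ
        rw [show TilingSpace.shift (F := F) 0 = id from funext TilingSpace.shift_zero, Measure.map_id]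
      add_mem' := fun {a b} ha hb => by
        show μ.map _ = μ
        rw [show TilingSpace.shift (F := F) (a + b) = TilingSpace.shift a ∘ TilingSpace.shift b from
          funext (TilingSpace.shift_add a b), ← Measure.map_map
          (TilingSpace.continuous_shift a).measurable (TilingSpace.continuous_shift b).measurable,
          hb, ha]
      neg_mem' := fun {a} ha => by
        show μ.map _ = μ
        conv_lhs => rw [← (show μ.map (TilingSpace.shift a) = μ from ha),
          Measure.map_map (TilingSpace.continuous_shift (-a)).measurable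
            (TilingSpace.continuous_shift a).measurable]
        rw [show TilingSpace.shift (F := F) (-a) ∘ TilingSpace.shift a = id from funext fun x => by
          simp [← TilingSpace.shift_add, TilingSpace.shift_zero], Measure.map_id] }
  intro t
  refine ⟨(TilingSpace.continuous_shift t).measurable, ?_⟩
  have : t ∈ G := by
    rw [← Finset.univ_sum_single t]
    refine G.sum_mem fun i _ => ?_
    have e : Pi.single i (t i) = t i • (Pi.single i (1 : ℤ) : Grid d) := by
      funext j; simp [Pi.single_apply]
    rw [e]
    exact G.zsmul_mem (hν _ (List.mem_ofFn.2 ⟨i, rfl⟩)) _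
  exact this

/-- The system of tilings by `F`. -/
theorem exists_system {F : Finset (Grid d)} {A : Set (Grid d)} (hA : Tiles F A) :
    ∃ S : Sys d (TilingSpace F), S.T = TilingSpace.shift := by
  classical
  have : Nonempty (TilingSpace F) := ⟨⟨fun z => decide (z ∈ A), fun z => by
    obtain ⟨f, ⟨hf, hfA⟩, huniq⟩ := hA z
    rw [Finset.sum_eq_single (⟨f, hf⟩ : F)]
    · simp [bnat, hfA]
    · intro g _ hg
      have : z - (g : Grid d) ∉ A := fun h => hg (Subtype.ext (huniq g ⟨g.2, h⟩))
      simp [bnat, this]
    · simp⟩⟩
  obtain ⟨μ, hμ, hmp⟩ := exists_invariant_measure (F := F)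
  exact ⟨⟨μ, TilingSpace.shift, hμ, TilingSpace.shift_zero, TilingSpace.shift_add, hmp⟩, rfl⟩

end Vale.Agent.P043
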