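import Vale.Agent.P043.Ergodic
import Vale.Agent.P043.Space
import Vale.Agent.P043.Lattice

/-!
The identity of a tiling and the decomposition of its indicator into averages over hyperplane
lattices, up to periodic functions.
-/

open MeasureTheory Filter
open scoped Topology BigOperators

noncomputable section

namespace Vale.Agent.P043

variable {d : ℕ} {X : Type} [MeasurableSpace X] {S : Sys d X}

/-- Almost everywhere `B ℤ^d`-periodic functions. -/
def Per (S : Sys d X) (B : ℕ) (φ : X → ℝ) : Prop :=
  ∀ᵐ x ∂S.μ, ∀ z : Grid d, φ (S.T ((B : ℤ) • z) x) = φ x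

lemma Per.congr {B : ℕ} {φ ψ : X → ℝ} (h : Per S B φ) (e : φ =ᵐ[S.μ] ψ) : Per S B ψ := by
  filter_upwards [h, e, ae_all_shift e] with x h1 h2 h3 z
  rw [← h3, h1, h2]

lemma Per.add {B : ℕ} {φ ψ : X → ℝ} (h : Per S B φ) (h' : Per S B ψ) :
    Per S B fun x => φ x + ψ x := by
  filter_upwards [h, h'] with x a b z; rw [a, b]

lemma Per.neg {B : ℕ} {φ : X → ℝ} (h : Per S B φ) : Per S B fun x => -φ x := by
  filter_upwards [h] with x a z; rw [a]

lemma Per.sub {B : ℕ} {φ ψ : X → ℝ} (h : Per S B φ) (h' : Per S B ψ) :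
    Per S B fun x => φ x - ψ x := by
  filter_upwards [h, h'] with x a b z; rw [a, b]

lemma Per.const {B : ℕ} (c : ℝ) : Per S B fun _ => c := ae_of_all _ fun _ _ => rfl

lemma Per.sum {B : ℕ} {ι : Type*} (s : Finset ι) {φ : ι → X → ℝ} (h : ∀ i ∈ s, Per S B (φ i)) :
    Per S B fun x => ∑ i ∈ s, φ i x := by
  classical
  induction s using Finset.induction_on with
  | empty => simpa using Per.const (S := S) (B := B) 0
  | insert a s ha ih =>
    simp only [Finset.sum_insert ha]
    exact (h _ (Finset.mem_insert_self _ _)).add (ih fun i hi => h i (Finset.mem_insert_of_mem hi))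

lemma Per.dvd {B B' : ℕ} (hB : B ∣ B') {φ : X → ℝ} (h : Per S B φ) : Per S B' φ := by
  obtain ⟨k, rfl⟩ := hB
  filter_upwards [h] with x a z
  rw [Nat.cast_mul, ← smul_smul]
  exact a _

lemma Per.comp {B : ℕ} {φ : X → ℝ} (h : Per S B φ) (t : Grid d) :
    Per S B fun x => φ (S.T t x) := by
  filter_upwards [ae_all_shift h] with x a z
  rw [T_comm]
  exact a t z

lemma per_avg {B : ℕ} {Γ : AddSubgroup (Grid d)} (h : gam B ⊤ ≤ Γ) (φ : X → ℝ) :
    Per S B (S.avg Γ φ) :=
  ae_of_all _ fun _ z => invariant_avg Γ φ _ (h (smul_mem_gam_top z)) _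

lemma per_avg_avg {B : ℕ} {Γ Δ : AddSubgroup (Grid d)} (h : gam B ⊤ ≤ Γ ⊔ Δ) (φ : X → ℝ) :
    Per S B (S.avg Γ (S.avg Δ φ)) :=
  (per_avg h φ).congr (avg_avg Γ Δ).symm

lemma Per.avg {B : ℕ} {Γ : AddSubgroup (Grid d)} {φ : X → ℝ} (h : Per S B φ)
    (hi : Integrable φ S.μ) : Per S B (S.avg Γ φ) := by
  refine ae_all_iff.2 fun z => ?_
  exact (avg_comp Γ hi _).trans (avg_congr (h.mono fun x hx => hx z))

lemma avg_const {Γ : AddSubgroup (Grid d)} (c : ℝ) : S.avg Γ (fun _ => c) = fun _ => c :=
  condExp_const (S.inv_le Γ) c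

lemma avg_finsetSum {Γ : AddSubgroup (Grid d)} {ι : Type*} (s : Finset ι) {φ : ι → X → ℝ}
    (h : ∀ i ∈ s, Integrable (φ i) S.μ) :
    S.avg Γ (fun x => ∑ i ∈ s, φ i x) =ᵐ[S.μ] fun x => ∑ i ∈ s, S.avg Γ (φ i) x := by
  have e : (fun x => ∑ i ∈ s, φ i x) = ∑ i ∈ s, φ i := by funext x; simp
  rw [e]
  refine (condExp_finsetSum h _).trans (ae_of_all _ fun x => ?_)
  simp [Sys.avg]

/-- An event of a system that behaves like a tiling by `F`. -/
structure Marked (S : Sys d X) (F : Finset (Grid d)) where
  e : X → ℝ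
  meas : Measurable e
  binary : ∀ x, e x = 0 ∨ e x = 1
  cover : ∀ n : ℕ, Nat.Coprime n F.card → ∀ f ∈ F, ∀ x,
    ∑ g ∈ F, e (S.T (n • (f - g)) x) = 1

/-- The tilings themselves form such a system. -/
theorem exists_marked {F : Finset (Grid d)} {A : Set (Grid d)} (hA : Tiles F A) :
    ∃ (S : Sys d (TilingSpace F)) (E : Marked S F),
      ∀ (t : Grid d) c, E.e (S.T t c) = (bnat (c.1 t) : ℝ) := by
  obtain ⟨S, hS⟩ := exists_system hA
  have hm : Measurable fun c : TilingSpace F => (bnat (c.1 0) : ℝ) :=
    (measurable_of_finite fun b => (bnat b : ℝ)).comp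
      ((measurable_pi_apply (0 : Grid d)).comp measurable_subtype_coe)
  refine ⟨S, ⟨fun c => (bnat (c.1 0) : ℝ), hm, fun c => ?_, fun n hn f hf c => ?_⟩, fun t c => ?_⟩
  · cases c.1 0 <;> simp [bnat]
  · rcases Nat.eq_zero_or_pos n with rfl | hn0
    · have h1 : F.card = 1 := by simpa using hn
      obtain ⟨a, rfl⟩ := Finset.card_eq_one.1 h1
      rw [Finset.mem_singleton] at hf
      subst hf
      have h : ∑ g : ({f} : Finset (Grid d)), bnat (c.1 (f - (g : Grid d))) = 1 := c.2 f
      rw [Finset.sum_coe_sort ({f} : Finset (Grid d)) (fun g => bnat (c.1 (f - g))),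
        Finset.sum_singleton, sub_self] at h
      rw [Finset.sum_singleton, zero_smul, S.T_zero, h, Nat.cast_one]
    have hcov := coversOnce_coprime c.2 n hn0.ne' (by rwa [Fintype.card_coe])
    have := hcov (n • f)
    rw [hS]
    show ∑ g ∈ F, ((bnat (c.1 (0 + n • (f - g))) : ℕ) : ℝ) = 1
    rw [← Nat.cast_sum, Nat.cast_eq_one, ← Finset.sum_coe_sort]
    refine Eq.trans (Finset.sum_congr rfl fun g _ => ?_) this
    rw [zero_add, smul_sub]
  · show (bnat ((S.T t c).1 0) : ℝ) = _
    rw [hS]
    show (bnat (c.1 (0 + t)) : ℝ) = _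
    rw [zero_add]

namespace Marked

variable {F : Finset (Grid d)} (E : Marked S F)

lemma abs_le (x : X) : |E.e x| ≤ 1 := by rcases E.binary x with h | h <;> simp [h]

lemma nonneg (x : X) : 0 ≤ E.e x := by rcases E.binary x with h | h <;> simp [h]

lemma le_one (x : X) : E.e x ≤ 1 := by rcases E.binary x with h | h <;> simp [h]

lemma integrable : Integrable E.e S.μ :=
  Integrable.of_bound E.meas.aestronglyMeasurable 1 (ae_of_all _ fun x => E.abs_le x)

/-- The mean of the translate by `f - g` along the multiples of `M (f - g)`. -/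
def psi (M : ℕ) (f g : Grid d) : X → ℝ :=
  S.avg (AddSubgroup.zmultiples ((M : ℤ) • (f - g))) fun x => E.e (S.T (f - g) x)

lemma psi_range (M : ℕ) (f g : Grid d) :
    ∀ᵐ x ∂S.μ, 0 ≤ E.psi M f g x ∧ E.psi M f g x ≤ 1 := by
  filter_upwards [avg_nonneg (Γ := AddSubgroup.zmultiples ((M : ℤ) • (f - g)))
      (f := fun x => E.e (S.T (f - g) x)) (ae_of_all _ fun x => E.nonneg _),
    avg_le_one (Γ := AddSubgroup.zmultiples ((M : ℤ) • (f - g))) (integrable_comp E.integrable _)
      (ae_of_all _ fun x => E.le_one _)] with x h1 h2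
  exact ⟨h1, h2⟩

lemma integrable_psi (M : ℕ) (f g : Grid d) : Integrable (E.psi M f g) S.μ := integrable_avg _ _

/-- The identity: `e + ∑ ψ = 1`. -/
theorem identity {M : ℕ} (hM : F.card.factorial ∣ M) {f : Grid d} (hf : f ∈ F) :
    ∀ᵐ x ∂S.μ, E.e x + ∑ g ∈ F.erase f, E.psi M f g x = 1 := by
  classical
  set u : Grid d → Grid d := fun g => (M : ℤ) • (f - g)
  set a : Grid d → X → ℝ := fun g x => E.e (S.T (f - g) x)
  set P : X → ℝ := fun x => E.e x + ∑ g ∈ F.erase f, E.psi M f g x - 1 with hP
  have hsum : ∀ N : ℕ, 0 < N → ∀ x,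
      P x = ∑ g ∈ F.erase f, (E.psi M f g x - orbitAvg S (u g) (a g) N x) := by
    intro N hN x
    have h1 : ∀ k : ℕ, ∑ g ∈ F.erase f, a g (S.T (k • u g) x) = 1 - E.e x := by
      intro k
      have h := E.cover (1 + k * M) ((Nat.coprime_add_mul_right_left 1 F.card (k * (M / F.card))).2
        (Nat.coprime_one_left _) |> fun h => by
          rwa [mul_assoc, Nat.div_mul_cancel ((Nat.dvd_factorial (Finset.card_pos.2 ⟨f, hf⟩)
            le_rfl).trans hM)] at h) f hf x
      rw [← Finset.add_sum_erase _ _ hf] at h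
      simp only [sub_self, smul_zero, S.T_zero] at h
      rw [eq_sub_iff_add_eq, add_comm]
      refine Eq.trans ?_ h
      congr 1
      refine Finset.sum_congr rfl fun g _ => ?_
      simp only [a, u]
      rw [← S.T_add]
      congr 2
      rw [add_smul, one_smul, mul_smul, natCast_zsmul]
    have hN' : (N : ℝ) ≠ 0 := by exact_mod_cast hN.ne'
    rw [Finset.sum_sub_distrib]
    simp only [orbitAvg, ← Finset.mul_sum]
    rw [Finset.sum_comm, Finset.sum_congr rfl fun k _ => h1 k]
    simp only [Finset.sum_const, Finset.card_range, nsmul_eq_mul, hP]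
    field_simp
    ring
  have hPi : Integrable P S.μ := ((E.integrable.add
    (integrable_finsetSum _ fun g _ => E.integrable_psi M f g)).sub (integrable_const 1))
  have h0 : ∫ x, |P x| ∂S.μ = 0 := by
    have htend : Tendsto (fun N => ∑ g ∈ F.erase f,
        ∫ x, |orbitAvg S (u g) (a g) N x - E.psi M f g x| ∂S.μ) atTop (𝓝 0) := by
      rw [← Finset.sum_const_zero (s := F.erase f)]
      exact tendsto_finsetSum _ fun g _ => tendsto_orbitAvg (u g)
        (E.meas.comp (measurable_T _)) (C := 1) fun x => E.abs_le _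
    refine le_antisymm (ge_of_tendsto htend ((eventually_gt_atTop 0).mono fun N hN => ?_))
      (integral_nonneg fun x => abs_nonneg _)
    have hI : ∀ g ∈ F.erase f,
        Integrable (fun x => |orbitAvg S (u g) (a g) N x - E.psi M f g x|) S.μ := fun g _ =>
      ((integrable_orbitAvg _ (integrable_comp E.integrable _) N).sub (E.integrable_psi M f g)).abs
    rw [← integral_finsetSum _ hI]
    refine integral_mono hPi.abs (integrable_finsetSum _ hI) fun x => ?_
    show |P x| ≤ _
    rw [hsum N hN x]
    refine (Finset.abs_sum_le_sum_abs _ _).trans (le_of_eq (Finset.sum_congr rfl fun g _ => ?_))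
    exact abs_sub_comm _ _
  filter_upwards [(integral_eq_zero_iff_of_nonneg (fun x => abs_nonneg _) hPi.abs).1 h0] with x hx
  have := sub_eq_zero.1 (abs_eq_zero.1 hx : P x = 0)
  exact this

/-- Where a `ψ` is nonzero, `e` vanishes. -/
theorem e_eq_zero {M : ℕ} (hM : F.card.factorial ∣ M) {f g : Grid d} (hf : f ∈ F) (hg : g ∈ F)
    (hgf : g ≠ f) : ∀ᵐ x ∂S.μ, E.psi M f g x ≠ 0 → E.e x = 0 := by
  classical
  filter_upwards [E.identity hM hf, ae_all_iff.2 fun g' : F => E.psi_range M f g'] with x hi hr hne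
  have h1 : E.psi M f g x ≤ ∑ g' ∈ F.erase f, E.psi M f g' x :=
    Finset.single_le_sum (f := fun g' => E.psi M f g' x) (fun g' hg' => (hr ⟨g', Finset.mem_of_mem_erase hg'⟩).1)
      (Finset.mem_erase.2 ⟨hgf, hg⟩)
  rcases E.binary x with h | h
  · exact h
  · exact absurd (le_antisymm (by linarith) (hr ⟨g, hg⟩).1) hne

end Marked

/-- A difference along `u`. -/
def diff (S : Sys d X) (u : Grid d) (φ : X → ℝ) : X → ℝ := fun x => φ (S.T u x) - φ x

/-- Iterated differences. -/
def diffs (S : Sys d X) : List (Grid d) → (X → ℝ) → X → ℝ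
  | [], φ => φ
  | u :: l, φ => diffs S l (diff S u φ)

lemma diff_congr {φ ψ : X → ℝ} (u : Grid d) (h : φ =ᵐ[S.μ] ψ) :
    diff S u φ =ᵐ[S.μ] diff S u ψ := by
  filter_upwards [h, ae_all_shift h] with x a b
  simp [diff, a, b u]

lemma diffs_congr : ∀ (l : List (Grid d)) {φ ψ : X → ℝ}, φ =ᵐ[S.μ] ψ →
    diffs S l φ =ᵐ[S.μ] diffs S l ψ
  | [], _, _, h => h
  | u :: l, _, _, h => diffs_congr l (diff_congr u h)

lemma diff_comm (u v : Grid d) (φ : X → ℝ) : diff S u (diff S v φ) = diff S v (diff S u φ) := by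
  funext x
  simp only [diff]
  rw [T_comm v u]
  ring

lemma diff_diffs : ∀ (l : List (Grid d)) (u : Grid d) (φ : X → ℝ),
    diff S u (diffs S l φ) = diffs S l (diff S u φ)
  | [], _, _ => rfl
  | v :: l, u, φ => by
    show diff S u (diffs S l (diff S v φ)) = diffs S l (diff S v (diff S u φ))
    rw [diff_diffs l u, diff_comm]

lemma diff_zero (u : Grid d) : diff S u (fun _ => (0 : ℝ)) = fun _ => 0 := by
  funext x; simp [diff]

lemma diffs_zero : ∀ l : List (Grid d), diffs S l (fun _ => (0 : ℝ)) = fun _ => 0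
  | [] => rfl
  | u :: l => by
    show diffs S l (diff S u fun _ => 0) = _
    rw [diff_zero]; exact diffs_zero l

lemma integrable_diff (u : Grid d) {φ : X → ℝ} (h : Integrable φ S.μ) :
    Integrable (diff S u φ) S.μ := (integrable_comp h u).sub h

lemma measurable_diff (u : Grid d) {φ : X → ℝ} (h : Measurable φ) : Measurable (diff S u φ) :=
  (h.comp (measurable_T u)).sub h

/-- Removing the averages over the subgroups in a list. -/
def resid (S : Sys d X) : List (AddSubgroup (Grid d)) → (X → ℝ) → X → ℝ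
  | [], φ => φ
  | Γ :: l, φ => fun x => resid S l φ x - S.avg Γ (resid S l φ) x

lemma integrable_resid : ∀ (l : List (AddSubgroup (Grid d))) {φ : X → ℝ}, Integrable φ S.μ →
    Integrable (resid S l φ) S.μ
  | [], _, h => h
  | _ :: l, _, h => (integrable_resid l h).sub (integrable_avg _ _)

lemma measurable_resid : ∀ (l : List (AddSubgroup (Grid d))) {φ : X → ℝ}, Measurable φ →
    Measurable (resid S l φ)
  | [], _, h => h
  | _ :: l, _, h => (measurable_resid l h).sub (measurable_avg _ _)

lemma resid_congr : ∀ (l : List (AddSubgroup (Grid d))) {φ ψ : X → ℝ}, φ =ᵐ[S.μ] ψ →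
    resid S l φ =ᵐ[S.μ] resid S l ψ
  | [], _, _, h => h
  | Γ :: l, _, _, h => by
    filter_upwards [resid_congr l h, avg_congr (Γ := Γ) (resid_congr l h)] with x a b
    simp [resid, a, b]

lemma resid_diff : ∀ (l : List (AddSubgroup (Grid d))) (u : Grid d) {φ : X → ℝ},
    Integrable φ S.μ → resid S l (diff S u φ) =ᵐ[S.μ] diff S u (resid S l φ)
  | [], _, _, _ => EventuallyEq.rfl
  | Γ :: l, u, φ, h => by
    have h1 := resid_diff l u h
    have hr := integrable_resid l h
    have h2 := avg_congr (Γ := Γ) h1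
    have h3 : S.avg Γ (diff S u (resid S l φ)) =ᵐ[S.μ] diff S u (S.avg Γ (resid S l φ)) := by
      refine (avg_sub (integrable_comp hr u) hr).trans ?_
      filter_upwards [avg_comp Γ hr u] with x a
      simp [diff, a]
    filter_upwards [h1, h2, h3] with x a b c
    simp only [resid, diff] at *
    rw [a, b, c]
    ring

lemma avg_resid : ∀ (l : List (AddSubgroup (Grid d))) {φ : X → ℝ}, Integrable φ S.μ →
    ∀ Γ ∈ l, S.avg Γ (resid S l φ) =ᵐ[S.μ] fun _ => 0
  | [], _, _, _, hΓ => absurd hΓ List.not_mem_nil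
  | Δ :: l, φ, h, Γ, hΓ => by
    have hr := integrable_resid l h
    show S.avg Γ (fun x => resid S l φ x - S.avg Δ (resid S l φ) x) =ᵐ[S.μ] _
    have h1 := avg_sub (Γ := Γ) hr (integrable_avg Δ (resid S l φ))
    rcases List.mem_cons.1 hΓ with rfl | hmem
    · filter_upwards [h1, avg_avg_of_le (le_refl Γ) (resid S l φ)] with x a b
      refine a.trans ?_
      rw [Pi.sub_apply, b, sub_self]
    · have h0 := avg_resid l h Γ hmem
      have h2 : S.avg Γ (S.avg Δ (resid S l φ)) =ᵐ[S.μ] fun _ => 0 :=
        (avg_comm Γ Δ _).trans ((avg_congr h0).trans (by rw [avg_const]))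
      filter_upwards [h1, h0, h2] with x a b c
      refine a.trans ?_
      rw [Pi.sub_apply, b, c, sub_zero]

lemma resid_fixed (L : List (AddSubgroup (Grid d))) {φ : X → ℝ} (hi : Integrable φ S.μ) :
    ∀ l : List (AddSubgroup (Grid d)), (∀ Γ ∈ l, Γ ∈ L) →
      resid S l (resid S L φ) =ᵐ[S.μ] resid S L φ
  | [], _ => EventuallyEq.rfl
  | Γ :: l, h => by
    have h1 := resid_fixed L hi l fun Δ hΔ => h Δ (List.mem_cons_of_mem _ hΔ)
    filter_upwards [h1, (avg_congr h1).trans (avg_resid L hi Γ (h Γ (List.mem_cons_self ..)))]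
      with x a b
    simp [resid, a, b]

lemma resid_zero (L : List (AddSubgroup (Grid d))) :
    resid S L (fun _ => (0 : ℝ)) =ᵐ[S.μ] fun _ => 0 := by
  induction L with
  | nil => exact EventuallyEq.rfl
  | cons Γ L ih =>
    filter_upwards [ih, (avg_congr (Γ := Γ) ih).trans (by rw [avg_const])] with x a b
    simp [resid, a, b]

/-- If every choice of one step from each list generates a subgroup containing one of `L`, then
what all the products of differences kill is killed by removing the averages over `L`. -/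
theorem resid_eq_zero (L : List (AddSubgroup (Grid d))) : ∀ (Ls : List (List (Grid d)))
    (C : Set (Grid d)) (φ : X → ℝ), Measurable φ → Integrable φ S.μ →
    (∀ c ∈ C, diff S c φ =ᵐ[S.μ] fun _ => 0) →
    (∀ l ∈ Ls, diffs S l φ =ᵐ[S.μ] fun _ => 0) →
    (∀ C' : Set (Grid d), C ⊆ C' → (∀ l ∈ Ls, ∃ u ∈ l, u ∈ C') →
      ∃ Γ ∈ L, Γ ≤ AddSubgroup.closure C') →
    resid S L φ =ᵐ[S.μ] fun _ => 0 := by
  intro Ls
  induction Ls with
  | nil =>
    intro C φ hm hi hC _ hcov
    obtain ⟨Γ, hΓL, hΓ⟩ := hcov C subset_rfl (by simp)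
    have hfix : S.avg Γ φ =ᵐ[S.μ] φ := by
      refine avg_of_ae_invariant hm hi fun γ hγ => ?_
      have hγ' := hΓ hγ
      clear hγ
      induction hγ' using AddSubgroup.closure_induction with
      | mem c hc => exact (hC c hc).mono fun x hx => sub_eq_zero.1 hx
      | zero => exact ae_of_all _ fun x => by simp [S.T_zero]
      | add a b _ _ ha hb =>
        filter_upwards [(S.mp b).quasiMeasurePreserving.ae ha, hb] with x h1 h2
        simp [S.T_add, h1, h2]
      | neg a _ ha =>
        filter_upwards [(S.mp (-a)).quasiMeasurePreserving.ae ha] with x h1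
        rw [← S.T_add, add_neg_cancel, S.T_zero] at h1
        exact h1.symm
    -- `φ` is its own average, so every product containing that factor vanishes
    have key : ∀ l : List (AddSubgroup (Grid d)), Γ ∈ l → resid S l φ =ᵐ[S.μ] fun _ => 0 := by
      intro l
      induction l with
      | nil => exact fun h => absurd h List.not_mem_nil
      | cons Δ l ih =>
        intro hmem
        by_cases hl : Γ ∈ l
        · filter_upwards [ih hl, (avg_congr (Γ := Δ) (ih hl)).trans (by rw [avg_const])] with x a b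
          simp [resid, a, b]
        · obtain rfl : Γ = Δ := (List.mem_cons.1 hmem).resolve_right hl
          have hcomm : ∀ l : List (AddSubgroup (Grid d)),
              S.avg Γ (resid S l φ) =ᵐ[S.μ] resid S l φ := by
            intro l
            induction l with
            | nil => exact hfix
            | cons Δ l ih =>
              have hr := integrable_resid l hi
              show S.avg Γ (fun x => resid S l φ x - S.avg Δ (resid S l φ) x) =ᵐ[S.μ] _
              filter_upwards [avg_sub (Γ := Γ) hr (integrable_avg Δ (resid S l φ)), ih,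
                (avg_comm Γ Δ (resid S l φ)).trans (avg_congr ih)] with x a b c
              refine a.trans ?_
              rw [Pi.sub_apply, b, c]
              rfl
          filter_upwards [hcomm l] with x a
          simp [resid, a]
    exact key L hΓL
  | cons l Ls ih =>
    intro C φ hm hi hC hLs hcov
    have key : ∀ (l' : List (Grid d)), l' ⊆ l → ∀ φ : X → ℝ, Measurable φ → Integrable φ S.μ →
        (∀ c ∈ C, diff S c φ =ᵐ[S.μ] fun _ => 0) → diffs S l' φ =ᵐ[S.μ] (fun _ => 0) →
        (∀ m ∈ Ls, diffs S m φ =ᵐ[S.μ] fun _ => 0) → resid S L φ =ᵐ[S.μ] fun _ => 0 := by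
      intro l'
      induction l' with
      | nil => intro _ φ _ _ _ h _; exact (resid_congr L h).trans (resid_zero L)
      | cons u l' ih' =>
        intro hsub φ hm hi hC hl' hm'
        have hu : resid S L (diff S u φ) =ᵐ[S.μ] fun _ => 0 := by
          refine ih' (fun a ha => hsub (List.mem_cons_of_mem _ ha)) _ (measurable_diff u hm)
            (integrable_diff u hi) (fun c hc => ?_) hl' (fun m hm2 => ?_)
          · rw [diff_comm]
            exact (diff_congr u (hC c hc)).trans (by rw [diff_zero])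
          · rw [← diff_diffs]
            exact (diff_congr u (hm' m hm2)).trans (by rw [diff_zero])
        have hres : diff S u (resid S L φ) =ᵐ[S.μ] fun _ => 0 :=
          (resid_diff L u hi).symm.trans hu
        refine ((resid_fixed L hi L fun Γ hΓ => hΓ).symm).trans ?_
        refine ih (insert u C) (resid S L φ) (measurable_resid L hm) (integrable_resid L hi)
          (fun c hc => ?_) (fun m hm2 => ?_) fun C' hC' hch => ?_
        · rcases Set.mem_insert_iff.1 hc with rfl | hc
          · exact hres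
          · exact (resid_diff L c hi).symm.trans ((resid_congr L (hC c hc)).trans (resid_zero L))
        · have h3 : ∀ (m : List (Grid d)) (φ : X → ℝ), Integrable φ S.μ →
              diffs S m (resid S L φ) =ᵐ[S.μ] resid S L (diffs S m φ) := by
            intro m
            induction m with
            | nil => exact fun φ _ => EventuallyEq.rfl
            | cons v m ihm =>
              intro φ hφ
              exact (diffs_congr m (resid_diff L v hφ).symm).trans (ihm _ (integrable_diff v hφ))
          exact (h3 m φ hi).trans ((resid_congr L (hm' m hm2)).trans (resid_zero L))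
        · refine hcov C' ((Set.subset_insert u C).trans hC') fun m hm2 => ?_
          rcases List.mem_cons.1 hm2 with rfl | hm2
          · exact ⟨u, hsub (List.mem_cons_self ..), hC' (Set.mem_insert _ _)⟩
          · exact hch m hm2
    exact key l (List.Subset.refl l) φ hm hi hC (hLs l (List.mem_cons_self ..))
      fun m hm2 => hLs m (List.mem_cons_of_mem _ hm2)

end Vale.Agent.P043
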