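import Vale.Agent.P043.Defs

/-! Slices of a tile along a vector, and their sums of roots of unity. -/

namespace Vale.Agent.P043

open scoped BigOperators

variable {d : ℕ}

/-- The integers `k` with `f + k v` in `F`. -/
def slice (F : Finset (Grid d)) (v f : Grid d) : Set ℤ := {k | f + k • v ∈ F}

/-- For no nonzero vector `v` and root of unity `ζ` do the polynomials of all slices along `v`
vanish at all the powers `ζ^r` with `r` coprime to the size of the tile. -/
def RootFree (F : Finset (Grid d)) : Prop :=
  ∀ v : Grid d, v ≠ 0 → ∀ (ζ : ℂ) (n : ℕ), 0 < n → ζ ^ n = 1 →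
    ∃ r : ℕ, Nat.Coprime r F.card ∧ ∃ f ∈ F, (∑ᶠ k ∈ slice F v f, ζ ^ ((r : ℤ) * k)) ≠ 0

/-- The tile dilated by `r`. -/
def dilTile (r : ℕ) (F : Finset (Grid d)) : Finset (Grid d) := F.image fun f => r • f

lemma dil_injective {r : ℕ} (hr : 0 < r) : Function.Injective fun f : Grid d => r • f :=
  fun a b h => funext fun i => by
    have := congrFun h i
    simp only [Pi.smul_apply, nsmul_eq_mul] at this
    exact mul_left_cancel₀ (by exact_mod_cast hr.ne') this

lemma card_dilTile {r : ℕ} (hr : 0 < r) (F : Finset (Grid d)) : (dilTile r F).card = F.card :=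
  Finset.card_image_of_injective F (dil_injective hr)

end Vale.Agent.P043
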