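import Vale.Agent.P043.Decomp
import Vale.Agent.P043.Slice

/-!
The same system seen as tiled by a dilated tile, and the matching geometry.
-/

open MeasureTheory Filter
open scoped BigOperators

noncomputable section

namespace Vale.Agent.P043

variable {d : ℕ} {X : Type} [MeasurableSpace X] {S : Sys d X} {F : Finset (Grid d)}

/-- The event is also one of a tiling by the dilates of the tile. -/
def Marked.dilate (E : Marked S F) {r : ℕ} (hr0 : 0 < r) (hr : Nat.Coprime r F.card) :
    Marked S (dilTile r F) where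
  e := E.e
  meas := E.meas
  binary := E.binary
  cover := fun n hn f' hf' x => by
    obtain ⟨f, hf, rfl⟩ := Finset.mem_image.1 hf'
    rw [dilTile, Finset.sum_image fun a _ b _ h => dil_injective hr0 h]
    rw [card_dilTile hr0] at hn
    refine Eq.trans (Finset.sum_congr rfl fun g _ => ?_) (E.cover (n * r) (hn.mul_left hr) f hf x)
    rw [← smul_sub, mul_smul]

/-- The geometry with a larger second scale. -/
def Geometry.rescale (G : Geometry F) {c : ℕ} (hc : 0 < c) : Geometry F where
  hyps := G.hyps
  M₀ := G.M₀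
  K := G.K * c
  M₀_pos := G.M₀_pos
  K_pos := Nat.mul_pos G.K_pos hc
  fact_dvd := G.fact_dvd
  nonempty := G.nonempty
  hyper := G.hyper
  cross := fun H hH J hJ hne => by
    obtain ⟨v, hv, hle⟩ := G.cross H hH J hJ hne
    exact ⟨v, hv, (gam_anti_dvd (dvd_mul_right _ _) _).trans hle⟩
  crossF := fun H hH f hf g hg h =>
    (gam_anti_dvd (dvd_mul_right _ _) _).trans (G.crossF H hH f hf g hg h)

/-- The geometry of the dilated tile, with a second scale divisible by the factor. -/
def Geometry.dilate (G : Geometry F) {r c : ℕ} (hr0 : 0 < r) (hc : 0 < c) (hrc : r ∣ c) :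
    Geometry (dilTile r F) where
  hyps := G.hyps
  M₀ := G.M₀
  K := G.K * c
  M₀_pos := G.M₀_pos
  K_pos := Nat.mul_pos G.K_pos hc
  fact_dvd := by rw [card_dilTile hr0]; exact G.fact_dvd
  nonempty := G.nonempty
  hyper := G.hyper
  cross := fun H hH J hJ hne => by
    obtain ⟨v, hv, hle⟩ := G.cross H hH J hJ hne
    exact ⟨v, hv, (gam_anti_dvd (dvd_mul_right _ _) _).trans hle⟩
  crossF := fun H hH f' hf' g' hg' h => by
    obtain ⟨f, hf, rfl⟩ := Finset.mem_image.1 hf'
    obtain ⟨g, hg, rfl⟩ := Finset.mem_image.1 hg'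
    have hw : r • f - r • g = (r : ℤ) • (f - g) := by rw [← smul_sub, natCast_zsmul]
    rw [hw] at h ⊢
    have hn : toRat (f - g) ∉ H := fun hm => h (by rw [toRat_zsmul]; exact H.smul_mem _ hm)
    refine (gam_anti_dvd (show r * G.K ∣ G.K * c by
      rw [mul_comm G.K c]; exact Nat.mul_dvd_mul_right hrc _) _).trans
      ((gam_le_scaled (M := r) (G.crossF H hH f hf g hg hn)).trans (sup_le_sup_left ?_ _))
    intro z hz
    obtain ⟨y, hy, rfl⟩ := mem_gam.1 hz
    exact (lat H).zsmul_mem hy _

end Vale.Agent.P043
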