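import Vale.Agent.P043.Meas

/-! The mean ergodic theorem in `L¹` for one translation. -/

open MeasureTheory Filter
open scoped Topology BigOperators ENNReal

noncomputable section

namespace Vale.Agent.P043

variable {d : ℕ} {X : Type} [MeasurableSpace X] {S : Sys d X}

lemma iterate_T (u : Grid d) (k : ℕ) : (S.T u)^[k] = S.T (k • u) := by
  funext x
  induction k with
  | zero => simp [S.T_zero]
  | succ k ih => rw [Function.iterate_succ_apply', ih, ← S.T_add, succ_nsmul, add_comm u]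

/-- The average of `f` along `0, u, …, (N-1) u`. -/
def orbitAvg (S : Sys d X) (u : Grid d) (f : X → ℝ) (N : ℕ) (x : X) : ℝ :=
  (N : ℝ)⁻¹ * ∑ k ∈ Finset.range N, f (S.T (k • u) x)

lemma integrable_orbitAvg (u : Grid d) {f : X → ℝ} (hf : Integrable f S.μ) (N : ℕ) :
    Integrable (orbitAvg S u f N) S.μ :=
  (integrable_finsetSum _ fun _ _ => integrable_comp hf _).const_mul _

lemma avg_orbitAvg {Γ : AddSubgroup (Grid d)} {u : Grid d} (hu : u ∈ Γ) {f : X → ℝ}
    (hf : Integrable f S.μ) {N : ℕ} (hN : 0 < N) :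
    S.avg Γ (orbitAvg S u f N) =ᵐ[S.μ] S.avg Γ f := by
  have h1 : ∀ k : ℕ, S.avg Γ (fun x => f (S.T (k • u) x)) =ᵐ[S.μ] S.avg Γ f := fun k =>
    (avg_comp Γ hf _).symm.trans
      (ae_of_all _ fun x => invariant_avg Γ f _ (Γ.nsmul_mem hu k) x)
  have h2 : S.avg Γ (∑ k ∈ Finset.range N, fun x => f (S.T (k • u) x)) =ᵐ[S.μ]
      ∑ k ∈ Finset.range N, S.avg Γ fun x => f (S.T (k • u) x) :=
    condExp_finsetSum (fun k _ => integrable_comp hf _) _
  have e : orbitAvg S u f N = (N : ℝ)⁻¹ • ∑ k ∈ Finset.range N, fun x => f (S.T (k • u) x) := by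
    funext x
    simp [orbitAvg, Finset.sum_apply]
  rw [e]
  refine (condExp_smul (N : ℝ)⁻¹ _ _).trans ?_
  filter_upwards [h2, ae_all_iff.2 h1] with x e2 e1
  have hN' : (N : ℝ) ≠ 0 := by exact_mod_cast hN.ne'
  show (N : ℝ)⁻¹ * S.avg Γ _ x = S.avg Γ f x
  rw [e2, Finset.sum_apply, Finset.sum_congr rfl fun k _ => e1 k]
  simp [hN']

lemma integral_abs_le_norm (h : Lp ℝ 2 S.μ) : ∫ x, |h x| ∂S.μ ≤ ‖h‖ := by
  have h1 : ∫ x, |h x| ∂S.μ = (eLpNorm h 1 S.μ).toReal := by
    rw [eLpNorm_one_eq_lintegral_enorm, ← integral_norm_eq_lintegral_enorm (Lp.aestronglyMeasurable h)]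
    simp [Real.norm_eq_abs]
  rw [h1, Lp.norm_def]
  exact ENNReal.toReal_mono (Lp.eLpNorm_ne_top h)
    (eLpNorm_le_eLpNorm_of_exponent_le one_le_two (Lp.aestronglyMeasurable h))

/-- Von Neumann's theorem, in `L¹`, for bounded functions. -/
theorem tendsto_orbitAvg (u : Grid d) {f : X → ℝ} (hm : Measurable f) {C : ℝ}
    (hC : ∀ x, |f x| ≤ C) :
    Tendsto (fun N => ∫ x, |orbitAvg S u f N x - S.avg (AddSubgroup.zmultiples u) f x| ∂S.μ)
      atTop (𝓝 0) := by
  have hfL : MemLp f 2 S.μ := MemLp.of_bound hm.aestronglyMeasurable C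
    (ae_of_all _ fun x => (Real.norm_eq_abs _).trans_le (hC x))
  have hf : Integrable f S.μ := hfL.integrable one_le_two
  set U : Lp ℝ 2 S.μ →L[ℝ] Lp ℝ 2 S.μ :=
    (Lp.compMeasurePreservingₗᵢ ℝ (S.T u) (S.mp u)).toContinuousLinearMap with hU
  have hnorm : ‖U‖ ≤ 1 := LinearIsometry.norm_toContinuousLinearMap_le _
  have htend := U.tendsto_birkhoffAverage_orthogonalProjection hnorm (hfL.toLp f)
  set P := (U.eqLocus (1 : Lp ℝ 2 S.μ →L[ℝ] Lp ℝ 2 S.μ)).orthogonalProjectionOnto (hfL.toLp f)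
  set p : Lp ℝ 2 S.μ := ↑P with hp
  set A : ℕ → Lp ℝ 2 S.μ := fun N => birkhoffAverage ℝ U _root_.id N (hfL.toLp f) with hA
  have hcoe : ∀ N, (A N : X → ℝ) =ᵐ[S.μ] orbitAvg S u f N := by
    intro N
    have hit : ∀ k : ℕ, ((U^[k] (hfL.toLp f) : Lp ℝ 2 S.μ) : X → ℝ) =ᵐ[S.μ]
        fun x => f (S.T (k • u) x) := by
      intro k
      have e1 : U^[k] (hfL.toLp f) = Lp.compMeasurePreserving (S.T u)^[k] ((S.mp u).iterate k)
          (hfL.toLp f) := congrFun (Lp.compMeasurePreserving_iterate (S.mp u) k) _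
      rw [e1]
      refine (Lp.coeFn_compMeasurePreserving _ _).trans ?_
      refine (((S.mp u).iterate k).quasiMeasurePreserving.ae hfL.coeFn_toLp).mono fun x hx => ?_
      simp only [Function.comp_apply]
      rw [hx, iterate_T]
    have e2 : A N = (N : ℝ)⁻¹ • ∑ k ∈ Finset.range N, U^[k] (hfL.toLp f) := by
      simp [hA, birkhoffAverage, birkhoffSum]
    rw [e2]
    filter_upwards [Lp.coeFn_smul ((N : ℝ)⁻¹) (∑ k ∈ Finset.range N, U^[k] (hfL.toLp f)),
      Lp.coeFn_finsetSum (Finset.range N) (fun k => U^[k] (hfL.toLp f)), ae_all_iff.2 hit]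
      with x e3 e4 e5
    rw [e3, Pi.smul_apply, smul_eq_mul, e4, Finset.sum_apply, orbitAvg]
    simp only [e5]
  have hdiff : Tendsto (fun N => ∫ x, |orbitAvg S u f N x - p x| ∂S.μ) atTop (𝓝 0) := by
    refine squeeze_zero (fun N => integral_nonneg fun x => abs_nonneg _) (fun N => ?_)
      (tendsto_iff_norm_sub_tendsto_zero.1 htend)
    refine le_of_eq_of_le (integral_congr_ae ?_) (integral_abs_le_norm (A N - p))
    filter_upwards [hcoe N, Lp.coeFn_sub (A N) p] with x e1 e2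
    rw [e2, Pi.sub_apply, e1]
  -- the limit is invariant
  have hfix : U p = p := P.2
  have hinv1 : (fun x => p (S.T u x)) =ᵐ[S.μ] p := by
    have h := (Lp.coeFn_compMeasurePreserving p (S.mp u)).symm
    have e : Lp.compMeasurePreserving (S.T u) (S.mp u) p = p := hfix
    rw [e] at h
    exact h
  have hinv : ∀ γ ∈ AddSubgroup.zmultiples u, (fun x => p (S.T γ x)) =ᵐ[S.μ] p := by
    intro γ hγ
    rw [AddSubgroup.zmultiples_eq_closure] at hγ
    refine AddSubgroup.closure_induction (fun y hy => ?_) ?_ (fun a b _ _ ha hb => ?_)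
      (fun a _ ha => ?_) hγ
    · rw [Set.mem_singleton_iff.1 hy]; exact hinv1
    · exact ae_of_all _ fun x => by simp [S.T_zero]
    · filter_upwards [(S.mp b).quasiMeasurePreserving.ae ha, hb] with x h1 h2
      simp [S.T_add, h1, h2]
    · filter_upwards [(S.mp (-a)).quasiMeasurePreserving.ae ha] with x h1
      rw [← S.T_add, add_neg_cancel, S.T_zero] at h1
      exact h1.symm
  have hpm : Measurable p := (Lp.stronglyMeasurable p).measurable
  have hpi : Integrable p S.μ := (Lp.memLp p).integrable one_le_two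
  set Γ := AddSubgroup.zmultiples u with hΓ
  have hlim : S.avg Γ f =ᵐ[S.μ] (p : X → ℝ) := by
    have h0 : ∫ x, |S.avg Γ f x - p x| ∂S.μ = 0 := by
      refine le_antisymm (ge_of_tendsto hdiff ((eventually_gt_atTop 0).mono fun N hN => ?_))
        (integral_nonneg fun x => abs_nonneg _)
      refine le_of_eq_of_le (integral_congr_ae ?_)
        (integral_abs_condExp_le (m := S.inv Γ) (fun x => orbitAvg S u f N x - p x))
      have h1 := avg_sub (Γ := Γ) (integrable_orbitAvg u hf N) hpi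
      filter_upwards [h1, avg_orbitAvg (AddSubgroup.mem_zmultiples u) hf hN,
        avg_of_ae_invariant hpm hpi hinv] with x e1 e2 e3
      rw [Pi.sub_apply, e2, e3] at e1
      rw [← e1]
      rfl
    have hI : Integrable (fun x => |S.avg Γ f x - p x|) S.μ := ((integrable_avg Γ f).sub hpi).abs
    filter_upwards [(integral_eq_zero_iff_of_nonneg (fun x => abs_nonneg _) hI).1 h0] with x hx
    exact sub_eq_zero.1 (abs_eq_zero.1 hx)
  refine hdiff.congr fun N => integral_congr_ae ?_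
  filter_upwards [hlim] with x hx
  rw [hx]

end Vale.Agent.P043
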