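import Vale.Agent.P043.Meas

/-!
Functions on the lattice that are polynomial modulo `ℤ` along every line: rational differences,
bounded denominators, periods. And the consequence of recurrence for such functions on a system.
-/

open MeasureTheory Filter
open scoped BigOperators

noncomputable section

namespace Vale.Agent.P043

variable {d : ℕ}

/-- An integer real number. -/
def IsInt (r : ℝ) : Prop := ∃ n : ℤ, r = n

/-- A rational real number. -/
def IsRat (r : ℝ) : Prop := ∃ q : ℚ, r = q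

lemma IsInt.zero : IsInt 0 := ⟨0, by simp⟩
lemma IsInt.intCast (n : ℤ) : IsInt (n : ℝ) := ⟨n, rfl⟩
lemma IsInt.add {a b : ℝ} (ha : IsInt a) (hb : IsInt b) : IsInt (a + b) := by
  obtain ⟨m, rfl⟩ := ha; obtain ⟨n, rfl⟩ := hb; exact ⟨m + n, by push_cast; rfl⟩
lemma IsInt.neg {a : ℝ} (ha : IsInt a) : IsInt (-a) := by
  obtain ⟨m, rfl⟩ := ha; exact ⟨-m, by push_cast; rfl⟩
lemma IsInt.sub {a b : ℝ} (ha : IsInt a) (hb : IsInt b) : IsInt (a - b) := by
  rw [sub_eq_add_neg]; exact ha.add hb.neg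
lemma IsInt.mul {a b : ℝ} (ha : IsInt a) (hb : IsInt b) : IsInt (a * b) := by
  obtain ⟨m, rfl⟩ := ha; obtain ⟨n, rfl⟩ := hb; exact ⟨m * n, by push_cast; rfl⟩
lemma IsInt.natCast (n : ℕ) : IsInt (n : ℝ) := ⟨n, by simp⟩
lemma IsInt.sum {ι : Type*} (s : Finset ι) {f : ι → ℝ} (h : ∀ i ∈ s, IsInt (f i)) :
    IsInt (∑ i ∈ s, f i) :=
  Finset.sum_induction f IsInt (fun _ _ => IsInt.add) IsInt.zero h

lemma IsInt.isRat {a : ℝ} (ha : IsInt a) : IsRat a := by
  obtain ⟨m, rfl⟩ := ha; exact ⟨m, by simp⟩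
lemma IsRat.add {a b : ℝ} (ha : IsRat a) (hb : IsRat b) : IsRat (a + b) := by
  obtain ⟨m, rfl⟩ := ha; obtain ⟨n, rfl⟩ := hb; exact ⟨m + n, by push_cast; rfl⟩
lemma IsRat.sub {a b : ℝ} (ha : IsRat a) (hb : IsRat b) : IsRat (a - b) := by
  obtain ⟨m, rfl⟩ := ha; obtain ⟨n, rfl⟩ := hb; exact ⟨m - n, by push_cast; rfl⟩
lemma IsRat.neg {a : ℝ} (ha : IsRat a) : IsRat (-a) := by
  obtain ⟨m, rfl⟩ := ha; exact ⟨-m, by push_cast; rfl⟩
lemma IsRat.zero : IsRat 0 := IsInt.zero.isRat

lemma IsRat.exists_den {a : ℝ} (ha : IsRat a) : ∃ N : ℕ, 0 < N ∧ IsInt (N * a) := by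
  obtain ⟨q, rfl⟩ := ha
  refine ⟨q.den, q.pos, q.num, ?_⟩
  rw [Rat.cast_def q]
  field_simp

lemma IsInt.of_dvd {N N' : ℕ} (h : N ∣ N') {a : ℝ} (ha : IsInt (N * a)) : IsInt (N' * a) := by
  obtain ⟨k, rfl⟩ := h
  rw [Nat.cast_mul, mul_comm (N : ℝ) (k : ℝ), mul_assoc]
  exact (IsInt.natCast k).mul ha

/-- A rational sequence with vanishing `D`th difference is determined by `D` of its values. -/
lemma eq_zero_of_fwdDiff {D : ℕ} {h : ℕ → ℚ} (hD : ∀ k, (fwdDiff 1)^[D] h k = 0)
    {K : Finset ℕ} (hK : D < K.card) (h0 : ∀ k ∈ K, h k = 0) : ∀ k, h k = 0 := by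
  have hrep : ∀ k, h k = ∑ i ∈ Finset.range D, (k.choose i : ℚ) * (fwdDiff 1)^[i] h 0 := by
    intro k
    have e := shift_eq_sum_fwdDiff_iter (1 : ℕ) h k 0
    simp only [nsmul_eq_mul, Nat.cast_id, zero_add, mul_one] at e
    rw [e]
    have hv : ∀ i, D ≤ i → (fwdDiff 1)^[i] h 0 = 0 := by
      intro i hi
      obtain ⟨j, rfl⟩ := Nat.exists_eq_add_of_le hi
      rw [add_comm, Function.iterate_add_apply]
      have : (fwdDiff 1)^[D] h = fun _ => 0 := funext hD
      rw [this]
      rcases j with _ | j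
      · rfl
      · rw [Function.iterate_succ_apply]
        have e0 : fwdDiff 1 (fun _ : ℕ => (0 : ℚ)) = fun _ => 0 := by funext y; simp [fwdDiff]
        rw [e0]
        clear hi
        induction j with
        | zero => rfl
        | succ j ih => rw [Function.iterate_succ_apply, e0]; exact ih
    rcases le_or_gt D (k + 1) with hle | hlt
    · refine (Finset.sum_subset (Finset.range_subset_range.2 hle) fun i _ hi => ?_).symm
      rw [hv i (by simpa using hi), mul_zero]
    · refine Finset.sum_subset (Finset.range_subset_range.2 hlt.le) fun i _ hi => ?_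
      rw [Nat.choose_eq_zero_of_lt (by simpa [Nat.lt_succ_iff] using hi : k < i), Nat.cast_zero,
        zero_mul]
  set P : Polynomial ℚ := ∑ i ∈ Finset.range D,
    Polynomial.C ((fwdDiff 1)^[i] h 0 / (i.factorial : ℚ)) * descPochhammer ℚ i with hP
  have heval : ∀ k : ℕ, P.eval (k : ℚ) = h k := fun k => by
    rw [hrep k, hP, Polynomial.eval_finsetSum]
    refine Finset.sum_congr rfl fun i _ => ?_
    rw [Polynomial.eval_mul, Polynomial.eval_C, Nat.cast_choose_eq_descPochhammer_div]
    ring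
  have hdeg : P.natDegree < K.card := by
    refine lt_of_le_of_lt (Polynomial.natDegree_sum_le_of_forall_le _ _ fun i hi => ?_) hK
    refine (Polynomial.natDegree_C_mul_le _ _).trans ?_
    rw [descPochhammer_natDegree]
    exact (Finset.mem_range.1 hi).le
  have hz : P = 0 := by
    refine Polynomial.eq_zero_of_natDegree_lt_card_of_eval_eq_zero' P
      (K.map ⟨fun k : ℕ => (k : ℚ), Nat.cast_injective⟩) ?_ (by rwa [Finset.card_map])
    intro a ha
    obtain ⟨k, hk, rfl⟩ := Finset.mem_map.1 ha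
    exact (heval k).trans (h0 k hk)
  intro k
  rw [← heval, hz, Polynomial.eval_zero]

/-- Real sequences with integer `D`th differences: rational at enough points, rational everywhere. -/
lemma isRat_of_fwdDiff {D : ℕ} {g : ℕ → ℝ} (hD : ∀ k, IsInt ((fwdDiff 1)^[D] g k))
    {K : Finset ℕ} (hK : D < K.card) (h0 : ∀ k ∈ K, IsRat (g k)) : ∀ k, IsRat (g k) := by
  set W : Submodule ℚ ℝ := LinearMap.range (Algebra.linearMap ℚ ℝ) with hW
  have hWmem : ∀ r : ℝ, r ∈ W ↔ IsRat r := fun r => by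
    simp [hW, IsRat, LinearMap.mem_range, eq_comm]
  intro k
  rw [← hWmem, ← Submodule.Quotient.mk_eq_zero W]
  rw [← Module.forall_dual_apply_eq_zero_iff ℚ]
  intro φ
  set ψ : ℝ →+ ℚ := ((φ.comp W.mkQ).toAddMonoidHom) with hψ
  have hψ0 : ∀ r, IsRat r → ψ r = 0 := fun r hr => by
    have : W.mkQ r = 0 := (Submodule.Quotient.mk_eq_zero W).2 ((hWmem r).2 hr)
    simp [hψ, this]
  have hcomm : ∀ (n : ℕ) (m : ℕ), (fwdDiff 1)^[n] (ψ ∘ g) m = ψ ((fwdDiff 1)^[n] g m) := by
    intro n m
    simp only [fwdDiff_iter_eq_sum_shift, map_sum, map_zsmul, Function.comp_apply]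
  exact eq_zero_of_fwdDiff (h := ψ ∘ g) (D := D)
    (fun m => (hcomm D m).trans (hψ0 _ (hD m).isRat)) hK (fun m hm => hψ0 _ (h0 m hm)) k

/-- `F` is polynomial of degree below `D` modulo `ℤ` along all lines in steps from `Mℤ^d`. -/
def PolyMod (M D : ℕ) (F : Grid d → ℝ) : Prop :=
  ∀ z t : Grid d, IsInt ((fwdDiff ((M : ℤ) • z))^[D] F t)

/-- All differences from `t` along `Mℤ^d` are rational. -/
def RatDiff (M : ℕ) (F : Grid d → ℝ) (t : Grid d) : Prop :=
  ∀ z : Grid d, IsRat (F (t + (M : ℤ) • z) - F t)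

lemma RatDiff.shift {M : ℕ} {F : Grid d → ℝ} {t : Grid d} (h : RatDiff M F t) (s : Grid d) :
    RatDiff M F (t + (M : ℤ) • s) := fun z => by
  have := (h (s + z)).sub (h s)
  rw [smul_add, ← add_assoc, sub_sub_sub_cancel_right] at this
  exact this

lemma fwdDiff_line {M : ℕ} (F : Grid d → ℝ) (z t : Grid d) (n k : ℕ) :
    (fwdDiff 1)^[n] (fun j : ℕ => F (t + j • ((M : ℤ) • z))) k =
      (fwdDiff ((M : ℤ) • z))^[n] F (t + k • ((M : ℤ) • z)) := by
  rw [fwdDiff_iter_eq_sum_shift, fwdDiff_iter_eq_sum_shift]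
  refine Finset.sum_congr rfl fun i _ => ?_
  simp [add_smul, add_assoc]

lemma fwdDiff_intLine (F : Grid d → ℝ) (w p : Grid d) (n : ℕ) :
    ∀ k : ℤ, (fwdDiff 1)^[n] (fun j : ℤ => F (p + j • w)) k = (fwdDiff w)^[n] F (p + k • w) := by
  induction n with
  | zero => intro k; rfl
  | succ n ih =>
    intro k
    rw [Function.iterate_succ_apply', Function.iterate_succ_apply', fwdDiff, fwdDiff, ih, ih,
      add_smul, one_smul, ← add_assoc]

lemma fwdDiff_affine (T c : ℝ) (G : ℤ → ℝ) (n : ℕ) :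
    ∀ k : ℤ, (fwdDiff 1)^[n + 1] (fun j => T * (G j - c)) k = T * (fwdDiff 1)^[n + 1] G k := by
  induction n with
  | zero => intro k; simp [fwdDiff]; ring
  | succ n ih =>
    intro k
    rw [Function.iterate_succ_apply' _ (n + 1), Function.iterate_succ_apply' _ (n + 1), fwdDiff,
      fwdDiff, ih, ih]
    ring

/-- Rational values at enough points of a line give rational values on it. -/
lemma PolyMod.isRat_line {M D : ℕ} {F : Grid d → ℝ} (hF : PolyMod M D F) (z t : Grid d) {c : ℝ}
    {K : Finset ℕ} (hK : D + 1 < K.card)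
    (h0 : ∀ k ∈ K, IsRat (F (t + k • ((M : ℤ) • z)) - c)) :
    ∀ k : ℕ, IsRat (F (t + k • ((M : ℤ) • z)) - c) := by
  refine isRat_of_fwdDiff (D := D + 1) (fun k => ?_) hK h0
  rw [Function.iterate_succ_apply]
  have e : fwdDiff 1 (fun j : ℕ => F (t + j • ((M : ℤ) • z)) - c) =
      fwdDiff 1 (fun j : ℕ => F (t + j • ((M : ℤ) • z))) := by
    funext j; simp [fwdDiff]
  rw [e, ← Function.iterate_succ_apply, Function.iterate_succ_apply']
  simp only [fwdDiff]
  rw [fwdDiff_line, fwdDiff_line]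
  exact (hF z _).sub (hF z _)

/-- Rational differences on a sublattice give rational differences. -/
lemma PolyMod.ratDiff_of_sub {M D : ℕ} {F : Grid d → ℝ} (hF : PolyMod M D F) {L : ℕ} (hL : 0 < L)
    {t : Grid d} (h : ∀ z : Grid d, IsRat (F (t + ((L * M : ℕ) : ℤ) • z) - F t)) :
    RatDiff M F t := by
  intro z
  have h' := hF.isRat_line z t (c := F t)
    (K := (Finset.range (D + 2)).map ⟨fun j => L * j, fun a b hab =>
      Nat.eq_of_mul_eq_mul_left hL hab⟩) (by simp) (fun k hk => ?_) 1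
  · simpa using h'
  · obtain ⟨j, -, rfl⟩ := Finset.mem_map.1 hk
    have := h (j • z)
    rw [show ((L * M : ℕ) : ℤ) • (j • z) = (L * j) • ((M : ℤ) • z) by funext i; simp; ring] at this
    exact this

/-- Integer-valuedness of a combination propagates both ways along a line. -/
lemma IsInt.line {D : ℕ} (g : ℤ → ℝ) (hD : ∀ k, IsInt ((fwdDiff 1)^[D] g k))
    (h0 : ∀ i : ℕ, i < D → IsInt (g i)) : ∀ k, IsInt (g k) := by
  have hrec : ∀ k, (fwdDiff 1)^[D] g k =
      ∑ i ∈ Finset.range (D + 1), ((-1 : ℤ) ^ (D - i) * D.choose i : ℤ) * g (k + i) := by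
    intro k
    rw [fwdDiff_iter_eq_sum_shift]
    refine Finset.sum_congr rfl fun i _ => ?_
    rw [zsmul_eq_mul, nsmul_one]
  suffices H : ∀ k, ∀ i : ℕ, i < D → IsInt (g (k + i)) by
    intro k
    rcases Nat.eq_zero_or_pos D with rfl | hD0
    · simpa using hD k
    · simpa using H k 0 hD0
  intro k
  induction k using Int.induction_on with
  | zero => simpa using h0
  | succ j ih =>
    intro i hi
    rcases Nat.lt_or_ge (i + 1) D with h | h
    · have := ih (i + 1) h
      push_cast at this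
      rwa [add_comm (i : ℤ) 1, ← add_assoc] at this
    · have hi' : i + 1 = D := by omega
      have e := hD (j : ℤ)
      rw [hrec, Finset.sum_range_succ] at e
      have hs : IsInt (∑ i ∈ Finset.range D,
          (((-1 : ℤ) ^ (D - i) * D.choose i : ℤ) : ℝ) * g ((j : ℤ) + i)) :=
        IsInt.sum _ fun l hl => (IsInt.intCast _).mul (ih l (Finset.mem_range.1 hl))
      have := e.sub hs
      simp only [add_sub_cancel_left, Nat.sub_self, pow_zero, Nat.choose_self, one_mul,
        Nat.cast_one, Int.cast_one] at this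
      convert this using 2
      rw [← hi']; push_cast; ring
  | pred j ih =>
    intro i hi
    rcases Nat.eq_zero_or_pos i with rfl | h
    · have e := hD (-(j : ℤ) - 1)
      rw [hrec, Finset.sum_range_succ'] at e
      have hs : IsInt (∑ l ∈ Finset.range D, (((-1 : ℤ) ^ (D - (l + 1)) * D.choose (l + 1) : ℤ) : ℝ) *
          g (-(j : ℤ) - 1 + ((l + 1 : ℕ) : ℤ))) := IsInt.sum _ fun l hl => by
        refine (IsInt.intCast _).mul ?_
        have := ih l (Finset.mem_range.1 hl)
        convert this using 2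
        push_cast; ring
      have h2 := e.sub hs
      simp only [add_sub_cancel_left, Nat.choose_zero_right, Nat.sub_zero, Nat.cast_one, mul_one,
        CharP.cast_eq_zero, add_zero] at h2
      have h3 := (IsInt.intCast ((-1 : ℤ) ^ D)).mul h2
      rw [← mul_assoc, ← Int.cast_mul, ← mul_pow] at h3
      simp only [neg_mul_neg, one_mul, one_pow, Int.cast_one] at h3
      simpa using h3
    · have := ih (i - 1) (by omega)
      convert this using 2
      omega

/-- Rational differences have bounded denominators. -/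
lemma PolyMod.exists_den {M D : ℕ} {F : Grid d → ℝ} (hF : PolyMod M D F) :
    ∀ j : ℕ, ∀ t : Grid d, RatDiff M F t → ∃ N : ℕ, 0 < N ∧
      ∀ z : Grid d, (∀ i : Fin d, j ≤ i → z i = 0) → IsInt (N * (F (t + (M : ℤ) • z) - F t)) := by
  classical
  intro j
  induction j with
  | zero =>
    intro t _
    refine ⟨1, one_pos, fun z hz => ?_⟩
    have : z = 0 := funext fun i => hz i (Nat.zero_le _)
    simp [this, IsInt.zero]
  | succ j ih =>
    intro t ht
    by_cases hj : j < d
    swap
    · obtain ⟨N, hN, h⟩ := ih t ht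
      exact ⟨N, hN, fun z _ => h z fun i hi => absurd i.isLt (by omega)⟩
    set e : Grid d := Pi.single ⟨j, hj⟩ 1 with he
    choose N hN h using fun i : ℕ => ih (t + (M : ℤ) • ((i : ℤ) • e)) (ht.shift _)
    choose N' hN' h' using fun i : ℕ => (ht ((i : ℤ) • e)).exists_den
    refine ⟨∏ i ∈ Finset.range (D + 1), N i * N' i,
      Finset.prod_pos fun i _ => Nat.mul_pos (hN i) (hN' i), fun z hz => ?_⟩
    set T := ((∏ i ∈ Finset.range (D + 1), N i * N' i : ℕ) : ℝ)
    set z' : Grid d := Function.update z ⟨j, hj⟩ 0 with hz'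
    have hz'0 : ∀ i : Fin d, j ≤ i → z' i = 0 := fun i hi => by
      by_cases hij : i = ⟨j, hj⟩
      · simp [hz', hij]
      · rw [hz', Function.update_of_ne hij]
        exact hz i (by have : (i : ℕ) ≠ j := fun h => hij (Fin.ext h); omega)
    have hsplit : z = z' + z ⟨j, hj⟩ • e := by
      funext i
      by_cases hij : i = ⟨j, hj⟩
      · subst hij; simp [hz', he]
      · simp [hz', he, Function.update_of_ne hij, Pi.single_eq_of_ne hij]
    set g : ℤ → ℝ := fun k => T * (F (t + (M : ℤ) • z' + k • ((M : ℤ) • e)) - F t)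
    have hg : ∀ k, IsInt (g k) := by
      refine IsInt.line g (D := D + 1) (fun k => ?_) fun i hi => ?_
      · have hF' : IsInt ((fwdDiff ((M : ℤ) • e))^[D + 1] F (t + (M : ℤ) • z' + k • ((M : ℤ) • e))) := by
          rw [Function.iterate_succ_apply']
          exact (hF e _).sub (hF e _)
        rw [fwdDiff_affine T (F t) (fun j : ℤ => F (t + (M : ℤ) • z' + j • ((M : ℤ) • e))) D k,
          fwdDiff_intLine]
        exact (IsInt.natCast _).mul hF'
      · have hdvd : N i * N' i ∣ ∏ i ∈ Finset.range (D + 1), N i * N' i :=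
          Finset.dvd_prod_of_mem _ (Finset.mem_range.2 hi)
        have h1 := IsInt.of_dvd ((Nat.dvd_mul_right _ _).trans hdvd) (h i z' hz'0)
        have h2 := IsInt.of_dvd ((Nat.dvd_mul_left _ _).trans hdvd) (h' i)
        have h3 := h1.add h2
        rw [← mul_add, sub_add_sub_cancel] at h3
        have e : t + (M : ℤ) • z' + (i : ℤ) • ((M : ℤ) • e) =
            t + (M : ℤ) • ((i : ℤ) • e) + (M : ℤ) • z' := by
          rw [smul_comm (M : ℤ) (i : ℤ) e]; abel
        simp only [g, e]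
        exact h3
    have := hg (z ⟨j, hj⟩)
    simp only [g] at this
    rw [hsplit, smul_add, ← add_assoc, smul_comm]
    exact this

/-- Bounded denominators give periods modulo `ℤ`. -/
lemma PolyMod.periodic {M D N : ℕ} {F : Grid d → ℝ} (hF : PolyMod M D F) {t : Grid d}
    (hN : ∀ z : Grid d, IsInt (N * (F (t + (M : ℤ) • z) - F t))) (z : Grid d) :
    IsInt (F (t + ((N * D.factorial * M : ℕ) : ℤ) • z) - F t) := by
  have e : t + ((N * D.factorial * M : ℕ) : ℤ) • z = t + (N * D.factorial) • ((M : ℤ) • z) := by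
    rw [← natCast_zsmul, smul_smul]; push_cast; rfl
  rw [e, shift_eq_sum_fwdDiff_iter ((M : ℤ) • z) F (N * D.factorial) t, Finset.sum_range_succ']
  simp only [Nat.choose_zero_right, Function.iterate_zero, id_eq, one_smul, add_sub_cancel_right]
  refine IsInt.sum _ fun i _ => ?_
  rw [nsmul_eq_mul]
  rcases Nat.lt_or_ge i D with hi | hi
  · have hd : N ∣ (N * D.factorial).choose (i + 1) := by
      rcases Nat.eq_zero_or_pos (N * D.factorial) with h0 | h0
      · rw [h0]; simp
      obtain ⟨m, hm⟩ := Nat.exists_eq_succ_of_ne_zero h0.ne'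
      have h1 := Nat.add_one_mul_choose_eq m i
      obtain ⟨c, hc⟩ := Nat.dvd_factorial (Nat.succ_pos i) (Nat.succ_le_of_lt hi)
      refine ⟨c * m.choose i, Nat.eq_of_mul_eq_mul_right (Nat.succ_pos i) ?_⟩
      have hm' : N * D.factorial = m + 1 := hm
      rw [hm', Nat.succ_eq_add_one, ← h1, ← hm', hc, Nat.succ_eq_add_one]
      ring
    obtain ⟨c, hc⟩ := hd
    rw [hc, Nat.cast_mul, mul_comm (N : ℝ) (c : ℝ), mul_assoc]
    refine (IsInt.natCast c).mul ?_
    rw [Function.iterate_succ_apply', fwdDiff]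
    rw [fwdDiff_iter_eq_sum_shift, fwdDiff_iter_eq_sum_shift, ← Finset.sum_sub_distrib,
      Finset.mul_sum]
    refine IsInt.sum _ fun l _ => ?_
    rw [← smul_sub, zsmul_eq_mul, ← mul_assoc, mul_comm (N : ℝ), mul_assoc]
    refine (IsInt.intCast _).mul ?_
    have h1 := (hN ((l + 1 : ℕ) • z)).sub (hN (l • z))
    rw [← mul_sub, sub_sub_sub_cancel_right] at h1
    convert h1 using 4 <;> · funext m; simp; ring
  · obtain ⟨k, hk⟩ := Nat.exists_eq_add_of_le (Nat.le_succ_of_le hi)
    refine (IsInt.natCast _).mul ?_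
    rw [show i + 1 = k + D by omega, Function.iterate_add_apply, fwdDiff_iter_eq_sum_shift]
    exact IsInt.sum _ fun l _ => by rw [zsmul_eq_mul]; exact (IsInt.intCast _).mul (hF z _)

variable {X : Type} [MeasurableSpace X] {S : Sys d X}

/-- The values of `f` along the orbit of `x`. -/
def orb (S : Sys d X) (f : X → ℝ) (x : X) : Grid d → ℝ := fun t => f (S.T t x)

/-- By recurrence, a rational value spreads along `Mℤ^d`. -/
theorem ae_isRat_spread {M D : ℕ} {f : X → ℝ} (hm : Measurable f)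
    (hp : ∀ᵐ x ∂S.μ, PolyMod M D (orb S f x)) :
    ∀ᵐ x ∂S.μ, IsRat (f x) → RatDiff M (orb S f x) 0 := by
  have hit : ∀ (u : Grid d) (n : ℕ) (x : X), (S.T u)^[n] x = S.T (n • u) x := fun u n x => by
    induction n with
    | zero => simp [S.T_zero]
    | succ n ih => rw [Function.iterate_succ_apply', ih, ← S.T_add, succ_nsmul, add_comm u]
  have hrec : ∀ᵐ x ∂S.μ, ∀ (z : Grid d) (q : ℚ), f x = q →
      ∃ᶠ n in atTop, f ((S.T ((M : ℤ) • z))^[n] x) = q := by
    refine ae_all_iff.2 fun z => ae_all_iff.2 fun q => ?_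
    exact (S.mp ((M : ℤ) • z)).conservative.ae_mem_imp_frequently_image_mem
      (hm (measurableSet_singleton _)).nullMeasurableSet
  filter_upwards [hp, hrec] with x hx hr hq z
  obtain ⟨q, hq⟩ := hq
  have hinf := Nat.frequently_atTop_iff_infinite.1 (hr z q hq)
  obtain ⟨K, hK, hKc⟩ := hinf.exists_subset_card_eq (D + 2)
  have h := hx.isRat_line z 0 (c := orb S f x 0) (K := K) (by omega) (fun k hk => ?_) 1
  · simpa using h
  · have hk' := hK hk
    simp only [Set.mem_ofPred_eq, hit] at hk'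
    show IsRat (f (S.T (0 + k • ((M : ℤ) • z)) x) - f (S.T 0 x))
    rw [zero_add, S.T_zero, hk', hq, sub_self]
    exact IsRat.zero

end Vale.Agent.P043
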