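import Vale.Agent.P043.Decomp
import Vale.Agent.P043.Phase

/-!
The components at a level `M`: averages of the indicator over hyperplane lattices, their phases,
and the relations with the `ψ`.
-/

open MeasureTheory Filter
open scoped Topology BigOperators

noncomputable section

namespace Vale.Agent.P043

variable {d : ℕ} {X : Type} [MeasurableSpace X] {S : Sys d X}

lemma diff_sum {ι : Type*} (s : Finset ι) (u : Grid d) (φ : ι → X → ℝ) :
    diff S u (fun x => ∑ i ∈ s, φ i x) = fun x => ∑ i ∈ s, diff S u (φ i) x := by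
  funext x
  simp [diff, Finset.sum_sub_distrib]

lemma diffs_sum {ι : Type*} (s : Finset ι) : ∀ (l : List (Grid d)) (φ : ι → X → ℝ),
    diffs S l (fun x => ∑ i ∈ s, φ i x) = fun x => ∑ i ∈ s, diffs S l (φ i) x
  | [], _ => rfl
  | u :: l, φ => by
    show diffs S l (diff S u fun x => ∑ i ∈ s, φ i x) = _
    rw [diff_sum, diffs_sum s l]
    rfl

lemma diffs_sub : ∀ (l : List (Grid d)) (φ ψ : X → ℝ),
    diffs S l (fun x => φ x - ψ x) = fun x => diffs S l φ x - diffs S l ψ x
  | [], _, _ => rfl
  | u :: l, φ, ψ => by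
    show diffs S l (diff S u fun x => φ x - ψ x) = _
    rw [show diff S u (fun x => φ x - ψ x) = fun x => diff S u φ x - diff S u ψ x from by
      funext x; simp [diff]; ring, diffs_sub l]
    rfl

lemma diffs_eq_zero : ∀ (l : List (Grid d)) {u : Grid d} {φ : X → ℝ}, u ∈ l →
    (∀ x, φ (S.T u x) = φ x) → diffs S l φ = fun _ => 0
  | [], _, _, h, _ => absurd h List.not_mem_nil
  | v :: l, u, φ, h, hφ => by
    show diffs S l (diff S v φ) = _
    have h0 : diff S u φ = fun _ => 0 := by funext x; simp [diff, hφ x]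
    rcases List.mem_cons.1 h with rfl | h
    · rw [h0, diffs_zero]
    · refine diffs_eq_zero l h fun x => ?_
      simp only [diff]
      rw [hφ, T_comm, hφ]

lemma diffs_eq_zero_ae : ∀ (l : List (Grid d)) {u : Grid d} {φ : X → ℝ}, u ∈ l →
    diff S u φ =ᵐ[S.μ] (fun _ => 0) → diffs S l φ =ᵐ[S.μ] fun _ => 0
  | [], _, _, h, _ => absurd h List.not_mem_nil
  | v :: l, u, φ, h, hφ => by
    show diffs S l (diff S v φ) =ᵐ[S.μ] _
    rcases List.mem_cons.1 h with rfl | h
    · exact (diffs_congr l hφ).trans (by rw [diffs_zero])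
    · refine diffs_eq_zero_ae l h ?_
      rw [diff_comm]
      exact (diff_congr v hφ).trans (by rw [diff_zero])

lemma isInt_diffs : ∀ (l : List (Grid d)) {φ : X → ℝ}, (∀ x, IsInt (φ x)) →
    ∀ x, IsInt (diffs S l φ x)
  | [], _, h => h
  | u :: l, _, h => isInt_diffs l fun x => (h _).sub (h _)

lemma fwdDiff_orb (u : Grid d) (x : X) : ∀ (n : ℕ) (φ : X → ℝ) (t : Grid d),
    (fwdDiff u)^[n] (orb S φ x) t = ((diff S u)^[n] φ) (S.T t x)
  | 0, _, _ => rfl
  | n + 1, φ, t => by
    rw [Function.iterate_succ_apply, Function.iterate_succ_apply, ← fwdDiff_orb u x n (diff S u φ) t]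
    refine congrArg (fun G => (fwdDiff u)^[n] G t) (funext fun s => ?_)
    simp only [fwdDiff, orb, diff]
    rw [← S.T_add, add_comm s u]

namespace Marked

variable {F : Finset (Grid d)} (E : Marked S F)

/-- The average over the lattice of a hyperplane at level `M`. -/
def comp (M : ℕ) (H : Submodule ℚ (Fin d → ℚ)) : X → ℝ := S.avg (gam M H) E.e

lemma integrable_comp' (M : ℕ) (H : Submodule ℚ (Fin d → ℚ)) : Integrable (E.comp M H) S.μ :=
  integrable_avg _ _

lemma comp_range (M : ℕ) (H : Submodule ℚ (Fin d → ℚ)) :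
    ∀ᵐ x ∂S.μ, 0 ≤ E.comp M H x ∧ E.comp M H x ≤ 1 := by
  filter_upwards [avg_nonneg (Γ := gam M H) (f := E.e) (ae_of_all _ fun x => E.nonneg x),
    avg_le_one (Γ := gam M H) E.integrable (ae_of_all _ fun x => E.le_one x)] with x h1 h2
  exact ⟨h1, h2⟩

/-- The components through `f - g`, moved to `f - g`. -/
def pencil (G : Geometry F) (M : ℕ) (f g : Grid d) : X → ℝ := by
  classical
  exact fun x => ∑ H ∈ G.hyps,
    if toRat (f - g) ∈ H then E.comp M H (S.T (f - g) x) else 0

/-- The components through both `f - g` and `f - g'`, moved to `f - g`. -/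
def pencil₂ (G : Geometry F) (M : ℕ) (f g g' : Grid d) : X → ℝ := by
  classical
  exact fun x => ∑ H ∈ G.hyps,
    if toRat (f - g) ∈ H ∧ toRat (f - g') ∈ H then E.comp M H (S.T (f - g) x) else 0

/-- `ψ_{f,g}` averaged along the multiples of `M (f - g')`. -/
def mean₂ (M : ℕ) (f g g' : Grid d) : X → ℝ :=
  S.avg (AddSubgroup.zmultiples ((M : ℤ) • (f - g'))) (E.psi M f g)

variable (G : Geometry F)

lemma gam_le_cross {M : ℕ} {H J : Submodule ℚ (Fin d → ℚ)} (hH : H ∈ G.hyps) (hJ : J ∈ G.hyps)
    (hne : J ≠ H) : gam (M * G.K) ⊤ ≤ gam M H ⊔ gam M J := by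
  obtain ⟨v, hv, hle⟩ := G.cross H hH J hJ hne
  exact (gam_le_scaled hle).trans (sup_le ((zmultiples_smul_le_gam hv).trans le_sup_right)
    le_sup_left)

lemma gam_le_crossF {M : ℕ} {H : Submodule ℚ (Fin d → ℚ)} (hH : H ∈ G.hyps) {f g : Grid d}
    (hf : f ∈ F) (hg : g ∈ F) (hnot : toRat (f - g) ∉ H) :
    gam (M * G.K) ⊤ ≤ AddSubgroup.zmultiples ((M : ℤ) • (f - g)) ⊔ gam M H :=
  gam_le_scaled (G.crossF H hH f hf g hg hnot)

variable {G}

/-- The components of all hyperplanes account for `e`, at every level. -/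
def Killed (G : Geometry F) : Prop :=
  ∀ M : ℕ, G.M₀ ∣ M → resid S (G.hyps.toList.map (gam M)) E.e =ᵐ[S.μ] fun _ => 0

/-- If every pairing of the points generates a lattice above one of `L`, removing the averages
over `L` leaves nothing of `e`. -/
lemma resid_pairings (hn : 2 ≤ F.card) (L : List (AddSubgroup (Grid d)))
    (hL : ∀ π : Grid d → Grid d, (∀ f ∈ F, π f ∈ F ∧ π f ≠ f) → ∃ Γ ∈ L, Γ ≤
      AddSubgroup.closure {u | ∃ f ∈ F, u = (F.card.factorial : ℤ) • (f - π f)}) :
    resid S L E.e =ᵐ[S.μ] fun _ => 0 := by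
  classical
  set q := F.card.factorial
  set Ls : List (List (Grid d)) :=
    F.toList.map fun f => (F.erase f).toList.map fun g => (q : ℤ) • (f - g) with hLs
  have hkill : ∀ l ∈ Ls, diffs S l E.e =ᵐ[S.μ] fun _ => 0 := by
    intro l hl
    obtain ⟨f, hf, rfl⟩ := List.mem_map.1 hl
    rw [Finset.mem_toList] at hf
    have he : E.e =ᵐ[S.μ] fun x => 1 - ∑ g ∈ F.erase f, E.psi q f g x :=
      (E.identity (dvd_refl _) hf).mono fun x hx => by linarith
    refine (diffs_congr _ he).trans (ae_of_all _ fun x => ?_)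
    obtain ⟨g₀, hg₀⟩ : (F.erase f).Nonempty :=
      Finset.card_pos.1 (by rw [Finset.card_erase_of_mem hf]; omega)
    rw [diffs_sub, diffs_sum]
    show diffs S _ (fun _ => (1 : ℝ)) x - _ = 0
    rw [diffs_eq_zero _ (List.mem_map.2 ⟨g₀, Finset.mem_toList.2 hg₀, rfl⟩) fun _ => rfl]
    dsimp only
    rw [Finset.sum_eq_zero fun g hg => ?_]
    · simp
    · exact congrFun (diffs_eq_zero (S := S) _ (List.mem_map.2 ⟨g, Finset.mem_toList.2 hg, rfl⟩)
        fun y => invariant_avg _ _ _ (AddSubgroup.mem_zmultiples _) y) x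
  have hres : resid S L E.e =ᵐ[S.μ] fun _ => 0 := by
    refine resid_eq_zero L Ls ∅ E.e E.meas E.integrable (by simp) hkill fun C' _ hch => ?_
    have hc : ∀ f ∈ F, ∃ g ∈ F.erase f, (q : ℤ) • (f - g) ∈ C' := by
      intro f hf
      obtain ⟨u, hu, huC⟩ := hch _ (List.mem_map.2 ⟨f, Finset.mem_toList.2 hf, rfl⟩)
      obtain ⟨g, hg, rfl⟩ := List.mem_map.1 hu
      exact ⟨g, Finset.mem_toList.1 hg, huC⟩
    choose! π hπ hπC using hc
    obtain ⟨Γ, hΓ, hle⟩ := hL π fun f hf =>
      ⟨Finset.mem_of_mem_erase (hπ f hf), Finset.ne_of_mem_erase (hπ f hf)⟩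
    refine ⟨Γ, hΓ, hle.trans (AddSubgroup.closure_mono ?_)⟩
    rintro u ⟨f, hf, rfl⟩
    exact hπC f hf
  exact hres

lemma killed_of_covers (hG : G.Covers) (hn : 2 ≤ F.card) : E.Killed G := fun M hM =>
  E.resid_pairings hn _ fun π hπ => by
    obtain ⟨H, hH, hle⟩ := hG π hπ
    exact ⟨gam M H, List.mem_map.2 ⟨H, Finset.mem_toList.2 hH, rfl⟩,
      (gam_anti_dvd hM H).trans hle⟩

/-- The decomposition at level `M`. -/
theorem decomp {M : ℕ} (hM : G.M₀ ∣ M) (hn : E.Killed G) :
    Per S (M * G.K) fun x => E.e x - ∑ H ∈ G.hyps, E.comp M H x := by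
  classical
  set L : List (AddSubgroup (Grid d)) := G.hyps.toList.map (gam M) with hL
  have hres := hn M hM
  -- expanding the product
  have hexp : ∀ l : List (Submodule ℚ (Fin d → ℚ)), l.Nodup → (∀ H ∈ l, H ∈ G.hyps) →
      Per S (M * G.K) fun x =>
        resid S (l.map (gam M)) E.e x - (E.e x - (l.map fun H => E.comp M H x).sum) := by
    intro l
    induction l with
    | nil =>
      intro _ _
      simpa [resid] using Per.const (S := S) (B := M * G.K) 0
    | cons H l ih =>
      intro hnd hmem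
      obtain ⟨hHl, hnd'⟩ := List.nodup_cons.1 hnd
      have hp := ih hnd' fun J hJ => hmem J (List.mem_cons_of_mem _ hJ)
      set p : X → ℝ := fun x =>
        resid S (l.map (gam M)) E.e x - (E.e x - (l.map fun H => E.comp M H x).sum) with hpdef
      have hsum : ∀ x, (l.map fun H => E.comp M H x).sum = ∑ J ∈ l.toFinset, E.comp M J x :=
        fun x => (List.sum_toFinset _ hnd').symm
      have hpi : Integrable p S.μ := by
        have h1 : Integrable (fun x => ∑ J ∈ l.toFinset, E.comp M J x) S.μ :=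
          integrable_finsetSum _ fun J _ => E.integrable_comp' M J
        exact (integrable_resid _ E.integrable).sub (E.integrable.sub (by simpa only [hsum] using h1))
      have hr : resid S (l.map (gam M)) E.e =
          fun x => (E.e x - ∑ J ∈ l.toFinset, E.comp M J x) + p x := by
        funext x
        simp only [hpdef, hsum]
        ring
      have hI : Integrable (fun x => ∑ J ∈ l.toFinset, E.comp M J x) S.μ :=
        integrable_finsetSum _ fun J _ => E.integrable_comp' M J
      have havg : S.avg (gam M H) (resid S (l.map (gam M)) E.e) =ᵐ[S.μ] fun x =>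
          E.comp M H x - ∑ J ∈ l.toFinset, S.avg (gam M H) (E.comp M J) x +
            S.avg (gam M H) p x := by
        rw [hr]
        refine (avg_add (E.integrable.sub hI) hpi).trans ?_
        filter_upwards [avg_sub (Γ := gam M H) E.integrable hI,
          avg_finsetSum (Γ := gam M H) l.toFinset fun J _ => E.integrable_comp' M J] with x a b
        rw [Pi.add_apply]
        refine congrArg (· + _) (a.trans ?_)
        rw [Pi.sub_apply, b]
        rfl
      have hcross : Per S (M * G.K) fun x =>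
          ∑ J ∈ l.toFinset, S.avg (gam M H) (E.comp M J) x :=
        Per.sum _ fun J hJ => per_avg_avg (gam_le_cross G (hmem H (List.mem_cons_self ..))
          (hmem J (List.mem_cons_of_mem _ (List.mem_toFinset.1 hJ)))
          (fun h => hHl (h ▸ List.mem_toFinset.1 hJ))) E.e
      refine ((hp.add hcross).sub (hp.avg hpi (Γ := gam M H))).congr ?_
      filter_upwards [havg] with x a
      simp only [List.map_cons, List.sum_cons, resid, hpdef] at *
      rw [a]
      ring
  have h := (hexp G.hyps.toList G.hyps.nodup_toList fun H hH => Finset.mem_toList.1 hH)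
  refine h.neg.congr ?_
  filter_upwards [hres] with x hx
  rw [← hL, hx, Finset.sum_map_toList]
  ring

/-- Changing the level changes a component by a periodic function. -/
theorem comp_transfer {M M' : ℕ} (hM : G.M₀ ∣ M) (hMM' : M ∣ M') (hn : E.Killed G)
    {H : Submodule ℚ (Fin d → ℚ)} (hH : H ∈ G.hyps) :
    Per S (M' * G.K) fun x => E.comp M' H x - E.comp M H x := by
  classical
  have hI : Integrable (fun x => ∑ J ∈ G.hyps, E.comp M J x) S.μ :=
    integrable_finsetSum _ fun J _ => E.integrable_comp' M J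
  have hp := (E.decomp hM hn).dvd (Nat.mul_dvd_mul_right hMM' G.K)
  have hp' := hp.avg (E.integrable.sub hI) (Γ := gam M' H)
  have hrest : Per S (M' * G.K) fun x =>
      ∑ J ∈ G.hyps.erase H, S.avg (gam M' H) (E.comp M J) x :=
    Per.sum _ fun J hJ => per_avg_avg ((gam_le_cross G hH (Finset.mem_of_mem_erase hJ)
      (Finset.ne_of_mem_erase hJ)).trans
        (sup_le le_sup_left ((gam_anti_dvd hMM' J).trans le_sup_right))) E.e
  refine (hp'.add hrest).congr ?_
  filter_upwards [avg_sub (Γ := gam M' H) E.integrable hI,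
    avg_finsetSum (Γ := gam M' H) G.hyps fun J _ => E.integrable_comp' M J,
    avg_of_invariant (Γ := gam M' H) (S := S) (f := E.comp M H)
      (fun γ hγ => invariant_avg (gam M H) E.e γ (gam_anti_dvd hMM' H hγ))
      (measurable_avg _ _) (E.integrable_comp' M H)] with x a b c
  have a' : S.avg (gam M' H) (fun y => E.e y - ∑ J ∈ G.hyps, E.comp M J y) x =
      E.comp M' H x - S.avg (gam M' H) (fun y => ∑ J ∈ G.hyps, E.comp M J y) x := a
  rw [a', b, ← Finset.add_sum_erase _ _ hH, c]
  ring

/-- The components are polynomial modulo `ℤ`. -/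
theorem comp_polyMod {M : ℕ} (hM : G.M₀ ∣ M) (hn : E.Killed G) {H : Submodule ℚ (Fin d → ℚ)}
    (hH : H ∈ G.hyps) :
    ∀ᵐ x ∂S.μ, PolyMod (M * G.K) G.hyps.card (orb S (E.comp M H) x) := by
  classical
  have hpt : ∀ z : Grid d, ∀ᵐ x ∂S.μ,
      IsInt (((diff S (((M * G.K : ℕ) : ℤ) • z))^[G.hyps.card] (E.comp M H)) x) := by
    intro z
    set u := ((M * G.K : ℕ) : ℤ) • z with hu
    have hex : ∀ J ∈ G.hyps.erase H, ∃ u' : Grid d, u - u' ∈ gam M H ∧ u' ∈ gam M J := by
      intro J hJ
      obtain ⟨a, ha, b, hb, hab⟩ := AddSubgroup.mem_sup.1 ((gam_le_cross G hH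
        (Finset.mem_of_mem_erase hJ) (Finset.ne_of_mem_erase hJ)) (smul_mem_gam_top (M := M * G.K) z))
      refine ⟨b, ?_, hb⟩
      rw [← hu] at hab
      rwa [← hab, add_sub_cancel_right]
    choose! w hw hwJ using hex
    set l := u :: (G.hyps.erase H).toList.map w with hl
    -- the product of differences acts on the component as a power of `diff u`
    have hpow : ∀ (l' : List (Submodule ℚ (Fin d → ℚ))), (∀ J ∈ l', J ∈ G.hyps.erase H) →
        ∀ φ : X → ℝ, S.Invariant (gam M H) φ →
          diffs S (l'.map w) φ = (diff S u)^[l'.length] φ := by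
      intro l'
      induction l' with
      | nil => intro _ φ _; rfl
      | cons J l' ih =>
        intro hmem φ hφ
        have e : diff S (w J) φ = diff S u φ := by
          funext x
          simp only [diff]
          congr 1
          have := hφ _ (hw J (hmem J (List.mem_cons_self ..))) (S.T (w J) x)
          rw [← S.T_add, sub_add_cancel] at this
          exact this.symm
        have hinv : S.Invariant (gam M H) (diff S u φ) := fun γ hγ x => by
          simp only [diff]
          rw [T_comm, hφ γ hγ, hφ γ hγ]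
        show diffs S (l'.map w) (diff S (w J) φ) = _
        rw [e, ih (fun J hJ => hmem J (List.mem_cons_of_mem _ hJ)) _ hinv]
        rfl
    have hH0 : diffs S l (E.comp M H) = (diff S u)^[G.hyps.card] (E.comp M H) := by
      have hinv : S.Invariant (gam M H) (diff S u (E.comp M H)) := fun γ hγ x => by
        simp only [diff, comp]
        rw [T_comm, invariant_avg _ _ γ hγ, invariant_avg _ _ γ hγ]
      show diffs S ((G.hyps.erase H).toList.map w) (diff S u (E.comp M H)) = _
      rw [hpow _ (fun J hJ => Finset.mem_toList.1 hJ) _ hinv, Finset.length_toList,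
        ← Function.iterate_succ_apply, Nat.succ_eq_add_one, Finset.card_erase_add_one hH]
    have hper : diffs S l (fun x => E.e x - ∑ J ∈ G.hyps, E.comp M J x) =ᵐ[S.μ] fun _ => 0 :=
      diffs_eq_zero_ae l (List.mem_cons_self ..) ((E.decomp hM hn).mono fun x hx =>
        sub_eq_zero.2 (hx z))
    rw [diffs_sub, diffs_sum] at hper
    filter_upwards [hper] with x hx
    rw [Finset.sum_eq_single H (fun J hJ hne => ?_) (fun h => absurd hH h), hH0] at hx
    · rw [← sub_eq_zero.1 hx]
      exact isInt_diffs l (fun y => by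
        rcases E.binary y with h | h <;> rw [h]
        exacts [IsInt.zero, ⟨1, by simp⟩]) x
    · exact congrFun (diffs_eq_zero (S := S) l (List.mem_cons_of_mem _ (List.mem_map.2
        ⟨J, Finset.mem_toList.2 (Finset.mem_erase.2 ⟨hne, hJ⟩), rfl⟩))
        fun y => invariant_avg _ _ _ (hwJ J (Finset.mem_erase.2 ⟨hne, hJ⟩)) y) x
  filter_upwards [ae_all_iff.2 fun z : Grid d => ae_all_shift (hpt z)] with x hx z t
  rw [fwdDiff_orb]
  exact hx z t

lemma avg_shifted_comp {Γ : AddSubgroup (Grid d)} (M : ℕ) (H : Submodule ℚ (Fin d → ℚ))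
    (t : Grid d) :
    S.avg Γ (fun x => E.comp M H (S.T t x)) =ᵐ[S.μ] fun x => S.avg Γ (E.comp M H) (S.T t x) :=
  (avg_comp Γ (E.integrable_comp' M H) t).symm

/-- Averaging the components, moved by `f - g`: the ones invariant under `Γ` stay. -/
lemma avg_components {Γ : AddSubgroup (Grid d)} {M B : ℕ} (t : Grid d)
    (s : Finset (Submodule ℚ (Fin d → ℚ))) (p : Submodule ℚ (Fin d → ℚ) → Prop) [DecidablePred p]
    (hin : ∀ H ∈ s, p H → Γ ≤ gam M H) (hout : ∀ H ∈ s, ¬p H → gam B ⊤ ≤ Γ ⊔ gam M H) :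
    Per S B fun x => S.avg Γ (fun y => ∑ H ∈ s, E.comp M H (S.T t y)) x -
      ∑ H ∈ s, if p H then E.comp M H (S.T t x) else 0 := by
  classical
  have hout' : Per S B fun x => ∑ H ∈ s.filter (fun H => ¬p H),
      S.avg Γ (E.comp M H) (S.T t x) :=
    Per.sum _ fun H hH => (per_avg_avg (hout H (Finset.mem_filter.1 hH).1
      (Finset.mem_filter.1 hH).2) E.e).comp t
  set ψ : Submodule ℚ (Fin d → ℚ) → X → ℝ := fun H x => S.avg Γ (E.comp M H) (S.T t x) with hψ
  have h1 : S.avg Γ (fun y => ∑ H ∈ s, E.comp M H (S.T t y)) =ᵐ[S.μ]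
      fun x => ∑ H ∈ s, ψ H x := by
    refine (avg_finsetSum (Γ := Γ) s fun H _ => integrable_comp (E.integrable_comp' M H) t).trans ?_
    have := (eventually_all_finset s).2 fun H _ => E.avg_shifted_comp (Γ := Γ) M H t
    filter_upwards [this] with x hx
    exact Finset.sum_congr rfl fun H hH => hx H hH
  have h2 : ∀ᵐ x ∂S.μ, ∀ H ∈ s.filter p, ψ H x = E.comp M H (S.T t x) := by
    refine (eventually_all_finset _).2 fun H hH => ?_
    obtain ⟨hHs, hHp⟩ := Finset.mem_filter.1 hH
    have hi : S.Invariant Γ (E.comp M H) := fun γ hγ => invariant_avg _ _ γ (hin H hHs hHp hγ)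
    exact (ae_all_shift (avg_of_invariant hi (measurable_avg _ _) (E.integrable_comp' M H))).mono
      fun x hx => hx t
  refine hout'.congr ?_
  filter_upwards [h1, h2] with x a b
  have e : ∑ H ∈ s, ψ H x =
      (∑ H ∈ s.filter p, E.comp M H (S.T t x)) + ∑ H ∈ s.filter (fun H => ¬p H), ψ H x := by
    rw [← Finset.sum_filter_add_sum_filter_not s p, Finset.sum_congr rfl b]
  rw [a, e, ← Finset.sum_filter]
  simp only [hψ]
  ring

/-- `ψ` is its pencil up to a periodic function. -/
theorem psi_pencil {M : ℕ} (hM : G.M₀ ∣ M) (hn : E.Killed G) {f g : Grid d} (hf : f ∈ F)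
    (hg : g ∈ F) : Per S (M * G.K) fun x => E.psi M f g x - E.pencil G M f g x := by
  classical
  set Γ := AddSubgroup.zmultiples ((M : ℤ) • (f - g))
  have hI : Integrable (fun y => ∑ H ∈ G.hyps, E.comp M H y) S.μ :=
    integrable_finsetSum _ fun J _ => E.integrable_comp' M J
  have h1 := ((E.decomp hM hn).comp (f - g)).avg (Γ := Γ)
    (integrable_comp (E.integrable.sub hI) _)
  have h2 := E.avg_components (Γ := Γ) (M := M) (B := M * G.K) (f - g) G.hyps
    (fun H => toRat (f - g) ∈ H) (fun H _ h => zmultiples_smul_le_gam h)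
    fun H hH h => gam_le_crossF G hH hf hg h
  refine (h1.add h2).congr ?_
  filter_upwards [avg_sub (Γ := Γ) (integrable_comp E.integrable (f - g))
    (integrable_comp hI (f - g))] with x a
  have a' : S.avg Γ (fun y => E.e (S.T (f - g) y) - ∑ H ∈ G.hyps, E.comp M H (S.T (f - g) y)) x =
      E.psi M f g x - S.avg Γ (fun y => ∑ H ∈ G.hyps, E.comp M H (S.T (f - g) y)) x := a
  rw [a', pencil]
  ring

/-- The average of `ψ` along `f - g'` is the double pencil up to a periodic function. -/
theorem mean₂_pencil {M : ℕ} (hM : G.M₀ ∣ M) (hn : E.Killed G) {f g g' : Grid d} (hf : f ∈ F)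
    (hg : g ∈ F) (hg' : g' ∈ F) :
    Per S (M * G.K) fun x => E.mean₂ M f g g' x - E.pencil₂ G M f g g' x := by
  classical
  set Γ := AddSubgroup.zmultiples ((M : ℤ) • (f - g'))
  set s := G.hyps.filter fun H => toRat (f - g) ∈ H
  have e : E.pencil G M f g = fun y => ∑ H ∈ s, E.comp M H (S.T (f - g) y) := by
    funext y
    simp [pencil, s, Finset.sum_filter]
  have hI : Integrable (E.pencil G M f g) S.μ := by
    rw [e]
    exact integrable_finsetSum _ fun H _ => integrable_comp (E.integrable_comp' M H) _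
  have h1 := (E.psi_pencil hM hn hf hg).avg (Γ := Γ) ((E.integrable_psi M f g).sub hI)
  have h2 := E.avg_components (Γ := Γ) (M := M) (B := M * G.K) (f - g) s
    (fun H => toRat (f - g') ∈ H) (fun H _ h => zmultiples_smul_le_gam h)
    fun H hH h => gam_le_crossF G (Finset.mem_filter.1 hH).1 hf hg' h
  refine (h1.add h2).congr ?_
  filter_upwards [avg_sub (Γ := Γ) (E.integrable_psi M f g) hI] with x a
  have a' : S.avg Γ (fun y => E.psi M f g y - E.pencil G M f g y) x =
      E.mean₂ M f g g' x - S.avg Γ (fun y => ∑ H ∈ s, E.comp M H (S.T (f - g) y)) x := by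
    rw [← e]; exact a
  rw [a', pencil₂]
  simp only [s, Finset.sum_filter, ite_and]
  ring

/-- The average of `ψ` over the lattice of a hyperplane, at a finer level. -/
theorem avg_psi {M M' : ℕ} (hM : G.M₀ ∣ M) (hMM' : M ∣ M') (hn : E.Killed G) {f g : Grid d}
    (hf : f ∈ F) (hg : g ∈ F) {H : Submodule ℚ (Fin d → ℚ)} (hH : H ∈ G.hyps) :
    (toRat (f - g) ∈ H → Per S (M' * G.K) fun x =>
      S.avg (gam M' H) (E.psi M f g) x - E.comp M H (S.T (f - g) x)) ∧
    (toRat (f - g) ∉ H → Per S (M' * G.K) (S.avg (gam M' H) (E.psi M f g))) := by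
  classical
  set Γ := gam M' H
  set s := G.hyps.filter fun J => toRat (f - g) ∈ J
  have e : E.pencil G M f g = fun y => ∑ J ∈ s, E.comp M J (S.T (f - g) y) := by
    funext y
    simp [pencil, s, Finset.sum_filter]
  have hI : Integrable (E.pencil G M f g) S.μ := by
    rw [e]
    exact integrable_finsetSum _ fun J _ => integrable_comp (E.integrable_comp' M J) _
  have h1 := ((E.psi_pencil hM hn hf hg).dvd (Nat.mul_dvd_mul_right hMM' G.K)).avg (Γ := Γ)
    ((E.integrable_psi M f g).sub hI)
  have h2 := E.avg_components (Γ := Γ) (M := M) (B := M' * G.K) (f - g) s (fun J => J = H)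
    (fun J _ h => by rw [h]; exact gam_anti_dvd hMM' H) fun J hJ h =>
      (gam_le_cross G hH (Finset.mem_filter.1 hJ).1 h).trans
        (sup_le le_sup_left ((gam_anti_dvd hMM' J).trans le_sup_right))
  have h3 : Per S (M' * G.K) fun x => S.avg Γ (E.psi M f g) x -
      ∑ J ∈ s, if J = H then E.comp M J (S.T (f - g) x) else 0 := by
    refine (h1.add h2).congr ?_
    filter_upwards [avg_sub (Γ := Γ) (E.integrable_psi M f g) hI] with x a
    have a' : S.avg Γ (fun y => E.psi M f g y - E.pencil G M f g y) x =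
        S.avg Γ (E.psi M f g) x - S.avg Γ (fun y => ∑ J ∈ s, E.comp M J (S.T (f - g) y)) x := by
      rw [← e]; exact a
    rw [a']
    ring
  refine ⟨fun h => ?_, fun h => ?_⟩
  · simpa [s, Finset.sum_ite_eq', hH, h] using h3
  · simpa [s, Finset.sum_ite_eq', h] using h3

open Classical in
/-- Linearity of the identity over one hyperplane. -/
theorem decoupling {M : ℕ} (hM : G.M₀ ∣ M) (hn : E.Killed G) {f : Grid d} (hf : f ∈ F)
    {H : Submodule ℚ (Fin d → ℚ)} (hH : H ∈ G.hyps) :
    Per S (M * G.K) fun x => E.comp M H x +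
      ∑ g ∈ (F.erase f).filter (fun g => toRat (f - g) ∈ H), E.comp M H (S.T (f - g) x) := by
  classical
  set Γ := gam M H
  have hI : Integrable (fun x => ∑ g ∈ F.erase f, E.psi M f g x) S.μ :=
    integrable_finsetSum _ fun g _ => E.integrable_psi M f g
  have h1 : Per S (M * G.K) fun x =>
      E.comp M H x + ∑ g ∈ F.erase f, S.avg Γ (E.psi M f g) x := by
    refine (Per.const (S := S) (B := M * G.K) 1).congr ?_
    have hid : (fun x => E.e x + ∑ g ∈ F.erase f, E.psi M f g x) =ᵐ[S.μ] fun _ => (1 : ℝ) :=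
      E.identity (G.fact_dvd.trans hM) hf
    filter_upwards [avg_congr (Γ := Γ) hid, avg_add (Γ := Γ) E.integrable hI,
      avg_finsetSum (Γ := Γ) (F.erase f) fun g _ => E.integrable_psi M f g] with x a b c
    rw [avg_const] at a
    rw [← c]
    exact a.symm.trans b
  set φ : Grid d → X → ℝ := fun g x => S.avg Γ (E.psi M f g) x -
    if toRat (f - g) ∈ H then E.comp M H (S.T (f - g) x) else 0
  have h2 : Per S (M * G.K) fun x => ∑ g ∈ F.erase f, φ g x := by
    refine Per.sum _ fun g hg => ?_
    have h := E.avg_psi hM (dvd_refl M) hn hf (Finset.mem_of_mem_erase hg) hH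
    by_cases hw : toRat (f - g) ∈ H
    · simpa [φ, hw] using h.1 hw
    · simpa [φ, hw] using h.2 hw
  refine (h1.sub h2).congr (ae_of_all _ fun x => ?_)
  simp only [φ, Finset.sum_sub_distrib, Finset.sum_filter]
  ring

end Marked

end Vale.Agent.P043
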