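import Vale.Agent.P043.Defs
import Vale.Agent.P043.Lattice

/-!
# From tilings periodic along hyperplanes on cosets to periodic tilings
-/

namespace Vale.Agent.P043

open scoped BigOperators

variable {d : ℕ}

/-- The representative in the box of the class modulo `B`. -/
def boxMod (B : ℕ) (x : Grid d) : Grid d := fun i => x i % (B : ℤ)

lemma boxMod_decomp (B : ℕ) (x : Grid d) : ∃ z : Grid d, x = boxMod B x + (B : ℤ) • z :=
  ⟨fun i => x i / (B : ℤ), funext fun i => (Int.emod_add_mul_ediv (x i) B).symm⟩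

lemma boxMod_add_smul (B : ℕ) (x y : Grid d) : boxMod B (x + (B : ℤ) • y) = boxMod B x := by
  funext i
  simp [boxMod, Int.add_mul_emod_self_left]

lemma boxMod_mem {B : ℕ} (hB : 0 < B) (x : Grid d) :
    boxMod B x ∈ Fintype.piFinset fun _ : Fin d => Finset.Ico (0 : ℤ) B := by
  simp only [Fintype.mem_piFinset, Finset.mem_Ico, boxMod]
  have h : (0 : ℤ) < B := by exact_mod_cast hB
  exact fun i => ⟨Int.emod_nonneg _ h.ne', Int.emod_lt_of_pos _ h⟩

/-- An integral functional whose zero set contains the lattice of a proper subspace. -/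
lemma exists_level {H : Submodule ℚ (Fin d → ℚ)} (hH : Module.finrank ℚ H + 1 = d) :
    ∃ (Φ : Grid d →+ ℤ) (w : Grid d), 0 < Φ w ∧ toRat w ∉ H ∧ ∀ x ∈ lat H, Φ x = 0 := by
  classical
  have hne : H ≠ ⊤ := fun h => by
    rw [h, finrank_top, Module.finrank_fin_fun] at hH
    omega
  obtain ⟨φ, hφ, hle⟩ := H.exists_le_ker_of_lt_top (lt_top_iff_ne_top.2 hne)
  set c : Fin d → ℚ := fun i => φ (Pi.single i 1) with hc
  have hφc : ∀ v : Fin d → ℚ, φ v = ∑ i, v i * c i := fun v => by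
    conv_lhs => rw [show v = ∑ i, v i • (Pi.single i 1 : Fin d → ℚ) from pi_eq_sum_univ' v]
    simp [hc]
  obtain ⟨z, n, hn, hz⟩ := exists_nat_mul_toRat c
  let Φ : Grid d →+ ℤ :=
    { toFun := fun x => ∑ i, x i * z i
      map_zero' := by simp
      map_add' := fun a b => by simp [add_mul, Finset.sum_add_distrib] }
  have hcast : ∀ x, ((Φ x : ℤ) : ℚ) = (n : ℚ) * φ (toRat x) := fun x => by
    rw [hφc, Finset.mul_sum]
    show ((∑ i, x i * z i : ℤ) : ℚ) = _
    push_cast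
    refine Finset.sum_congr rfl fun i _ => ?_
    have h : (z i : ℚ) = n * c i := congrFun hz i
    rw [h, toRat]
    ring
  have hker : ∀ x ∈ lat H, Φ x = 0 := fun x hx => by
    have h : φ (toRat x) = 0 := hle hx
    have := hcast x
    rw [h, mul_zero] at this
    exact_mod_cast this
  obtain ⟨i, hi⟩ : ∃ i, z i ≠ 0 := by
    by_contra hcon
    simp only [not_exists, not_not] at hcon
    refine hφ (LinearMap.ext fun v => ?_)
    rw [hφc]
    refine Finset.sum_eq_zero fun i _ => ?_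
    have h : (z i : ℚ) = n * c i := congrFun hz i
    rw [hcon i, Int.cast_zero] at h
    rcases mul_eq_zero.1 h.symm with h' | h'
    · exact absurd h' (by exact_mod_cast hn.ne')
    · simp [h']
  have hval : Φ (z i • Pi.single i 1) = z i * z i := by
    show (∑ j, (z i • (Pi.single i 1 : Grid d)) j * z j) = _
    rw [Finset.sum_eq_single i (fun j _ hj => by simp [hj]) (by simp)]
    simp
  refine ⟨Φ, z i • Pi.single i 1, ?_, fun h => hi ?_, hker⟩
  · rw [hval]; exact mul_self_pos.2 hi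
  · have := hker _ h
    rw [hval] at this
    exact mul_self_eq_zero.1 this

/-- `A` covers every point of `C` exactly once by translates of `F`, and nothing else. -/
def CoversExactly (F : Finset (Grid d)) (A C : Set (Grid d)) : Prop :=
  ∀ x, (x ∈ C → ∃! f : Grid d, f ∈ F ∧ x - f ∈ A) ∧ ∀ f ∈ F, x - f ∈ A → x ∈ C

/-- An exact cover of a periodic set invariant along a hyperplane can be made periodic. -/
lemma periodize_one {F : Finset (Grid d)} {A C : Set (Grid d)}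
    {H : Submodule ℚ (Fin d → ℚ)} (hH : Module.finrank ℚ H + 1 = d) {B B' : ℕ} (hB' : 0 < B')
    (hdvd : B ∣ B') (hA : ∀ a, ∀ t ∈ gam B H, (a + t ∈ A ↔ a ∈ A))
    (hC : ∀ x y : Grid d, x + (B' : ℤ) • y ∈ C ↔ x ∈ C) (hcov : CoversExactly F A C) :
    ∃ (L : ℕ) (A' : Set (Grid d)), 0 < L ∧
      (∀ a z : Grid d, a + (L : ℤ) • z ∈ A' ↔ a ∈ A') ∧ CoversExactly F A' C := by
  classical
  obtain ⟨Φ, w, hw, hwH, hker⟩ := exists_level hH
  obtain ⟨K, hK, hKle⟩ := exists_cross hH hwH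
  set T : Grid d := (B' : ℤ) • w with hT
  set τ := Φ T with hτ
  have hτ0 : 0 < τ := by
    rw [hτ, hT, map_zsmul, smul_eq_mul]
    exact mul_pos (by exact_mod_cast hB') hw
  have hΓ : ∀ t ∈ gam B H, Φ t = 0 := fun t ht => by
    obtain ⟨y, hy, rfl⟩ := mem_gam.1 ht
    rw [map_zsmul, hker y hy, smul_zero]
  -- coordinates
  set L₀ := B' * K with hL₀
  have hL₀0 : 0 < L₀ := Nat.mul_pos hB' hK
  have hdec : ∀ y : Grid d, ∃ j : ℤ, ∃ t ∈ gam B H, (L₀ : ℤ) • y = j • T + t := fun y => by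
    obtain ⟨a, ha, b, hb, hab⟩ :=
      AddSubgroup.mem_sup.1 (gam_le_scaled (M := B') hKle (smul_mem_gam_top y))
    obtain ⟨j, rfl⟩ := AddSubgroup.mem_zmultiples_iff.1 ha
    exact ⟨j, b, gam_anti_dvd hdvd H hb, hab.symm⟩
  set box := Fintype.piFinset fun _ : Fin d => Finset.Ico (0 : ℤ) L₀ with hbox
  set R : ℕ := F.sup (fun f => (Φ f).natAbs) + 1 with hR
  have hRf : ∀ f ∈ F, |Φ f| + 1 ≤ (R : ℤ) := fun f hf => by
    have : (Φ f).natAbs ≤ F.sup (fun f => (Φ f).natAbs) :=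
      Finset.le_sup (f := fun f => (Φ f).natAbs) hf
    rw [hR, Int.abs_eq_natAbs]
    omega
  set N : ℕ := R + 1 + box.sup (fun r => (Φ r).natAbs) with hN
  set S := (box ×ˢ Finset.Icc (-(N : ℤ)) N).image fun p => p.1 + p.2 • T with hS
  set lev : Grid d → ℤ := fun x => Φ x / τ with hlev
  have hlev_add : ∀ (x : Grid d) (k : ℤ), lev (x + k • T) = lev x + k := fun x k => by
    simp only [hlev, map_add, map_zsmul, ← hτ, smul_eq_mul]
    rw [Int.add_mul_ediv_right _ _ hτ0.ne']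
  have hlev_gam : ∀ x, ∀ t ∈ gam B H, lev (x + t) = lev x := fun x t ht => by
    simp [hlev, hΓ t ht]
  have hlev_sub : ∀ x, ∀ f ∈ F, |lev (x - f) - lev x| ≤ R := fun x f hf => by
    simp only [hlev, map_sub]
    have h1 := Int.emod_add_mul_ediv (Φ x) τ
    have h2 := Int.emod_add_mul_ediv (Φ x - Φ f) τ
    have h3 := Int.emod_nonneg (Φ x) hτ0.ne'
    have h4 := Int.emod_lt_of_pos (Φ x) hτ0
    have h5 := Int.emod_nonneg (Φ x - Φ f) hτ0.ne'
    have h6 := Int.emod_lt_of_pos (Φ x - Φ f) hτ0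
    have h7 := hRf f hf
    obtain ⟨h8, h9⟩ := abs_le.1 (le_refl |Φ f|)
    rw [abs_le]
    constructor <;> nlinarith
  -- every point near level `i` is a representative modulo the invariance group
  have hnear : ∀ (a : Grid d) (i : ℤ), |lev a - i| ≤ R →
      ∃ s ∈ S, ∃ t ∈ gam B H, a = s + i • T + t := fun a i hai => by
    obtain ⟨z, hz⟩ := boxMod_decomp L₀ (a - i • T)
    obtain ⟨j, t, ht, hjt⟩ := hdec z
    set r := boxMod L₀ (a - i • T) with hr
    have hrb : r ∈ box := boxMod_mem hL₀0 _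
    have ha : a = (r + j • T) + i • T + t := by
      rw [add_right_comm _ (i • T) t, add_assoc r, ← hjt, ← hz]
      abel
    refine ⟨r + j • T, Finset.mem_image.2 ⟨(r, j), Finset.mem_product.2 ⟨hrb, ?_⟩, rfl⟩, t, ht, ha⟩
    have hsup : (Φ r).natAbs ≤ box.sup fun r => (Φ r).natAbs :=
      Finset.le_sup (f := fun r => (Φ r).natAbs) hrb
    have hlr : lev a = lev r + j + i := by
      rw [ha, hlev_gam _ t ht, hlev_add, hlev_add]
    have hle : |lev r| ≤ |Φ r| + 1 := by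
      simp only [hlev]
      have h1 := Int.emod_add_mul_ediv (Φ r) τ
      have h3 := Int.emod_nonneg (Φ r) hτ0.ne'
      have h4 := Int.emod_lt_of_pos (Φ r) hτ0
      obtain ⟨h8, h9⟩ := abs_le.1 (le_refl |Φ r|)
      rw [abs_le]
      constructor <;> nlinarith
    rw [Int.abs_eq_natAbs (Φ r)] at hle
    have := abs_le.1 hai
    have := abs_le.1 hle
    rw [Finset.mem_Icc, hN]
    push_cast
    constructor <;> omega
  -- pigeonhole
  obtain ⟨k₁, k₂, hk, hpat⟩ : ∃ k₁ k₂ : ℕ, k₁ < k₂ ∧ ∀ s : S,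
      ((s : Grid d) + ((k₁ * (R + 1) : ℕ) : ℤ) • T ∈ A ↔
        (s : Grid d) + ((k₂ * (R + 1) : ℕ) : ℤ) • T ∈ A) := by
    obtain ⟨a, b, hab, he⟩ := Finite.exists_ne_map_eq_of_infinite
      (fun k : ℕ => fun s : S => decide ((s : Grid d) + ((k * (R + 1) : ℕ) : ℤ) • T ∈ A))
    rcases lt_or_gt_of_ne hab with h | h
    · exact ⟨a, b, h, fun s => decide_eq_decide.1 (congrFun he s)⟩
    · exact ⟨b, a, h, fun s => (decide_eq_decide.1 (congrFun he s)).symm⟩
  set i₁ : ℤ := ((k₁ * (R + 1) : ℕ) : ℤ) with hi₁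
  set P : ℕ := (k₂ - k₁) * (R + 1) with hP
  have hP0 : R < P := by
    rw [hP]
    exact lt_of_lt_of_le (Nat.lt_succ_self R) (Nat.le_mul_of_pos_left _ (Nat.sub_pos_of_lt hk))
  have hi₂ : ((k₂ * (R + 1) : ℕ) : ℤ) = i₁ + P := by
    rw [hi₁, hP, ← Nat.cast_add, ← Nat.add_mul, Nat.add_sub_cancel' hk.le]
  have hwin : ∀ a, |lev a - i₁| ≤ R → (a + (P : ℤ) • T ∈ A ↔ a ∈ A) := fun a ha => by
    obtain ⟨s, hs, t, ht, rfl⟩ := hnear a i₁ ha
    have h := hpat ⟨s, hs⟩
    rw [show s + i₁ • T + t + (P : ℤ) • T = s + (i₁ + P) • T + t by rw [add_smul]; abel,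
      hA _ t ht, hA _ t ht, ← hi₂]
    exact h.symm
  set sh : Grid d → ℤ := fun x => (lev x - i₁) / (P : ℤ) with hsh
  have hPz : (0 : ℤ) < P := by exact_mod_cast (lt_of_le_of_lt (Nat.zero_le R) hP0)
  set nrm : Grid d → Grid d := fun x => x + (-(sh x * P)) • T with hnrm
  have hnrm_lev : ∀ x, i₁ ≤ lev (nrm x) ∧ lev (nrm x) < i₁ + P := fun x => by
    have h1 := Int.emod_add_mul_ediv (lev x - i₁) (P : ℤ)
    have h2 := Int.emod_nonneg (lev x - i₁) hPz.ne'
    have h3 := Int.emod_lt_of_pos (lev x - i₁) hPz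
    simp only [hnrm, hsh, hlev_add]
    constructor <;> nlinarith
  have hsh_P : ∀ (x : Grid d) (k : ℤ), sh (x + (k * P) • T) = sh x + k := fun x k => by
    simp only [hsh, hlev_add]
    rw [show lev x + k * P - i₁ = lev x - i₁ + k * P by ring, Int.add_mul_ediv_right _ _ hPz.ne']
  have hnrm_P : ∀ (x : Grid d) (k : ℤ), nrm (x + (k * P) • T) = nrm x := fun x k => by
    simp only [hnrm, hsh_P, add_assoc, ← add_smul]
    congr 2
    ring
  set A' : Set (Grid d) := {x | nrm x ∈ A} with hA'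
  have hA'inv : ∀ x, ∀ t ∈ gam B H, (x + t ∈ A' ↔ x ∈ A') := fun x t ht => by
    simp only [hA', Set.mem_ofPred_eq, hnrm, hsh, hlev_gam x t ht]
    rw [add_right_comm]
    exact hA _ t ht
  have key : ∀ x, ∀ f ∈ F, (x - f ∈ A' ↔ nrm x - f ∈ A) := fun x f hf => by
    obtain ⟨h1, h2⟩ := hnrm_lev x
    obtain ⟨h3, h4⟩ := abs_le.1 (hlev_sub (nrm x) f hf)
    have hshift : nrm (x - f) = nrm (nrm x - f) := by
      rw [show nrm x - f = (x - f) + ((-sh x) * P) • T by simp only [hnrm, neg_mul]; abel, hnrm_P]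
    rw [hA', Set.mem_ofPred_eq, hshift]
    set a := nrm x - f
    by_cases hlo : lev a < i₁
    · have h5 : sh a = -1 := by
        simp only [hsh]
        rw [show lev a - i₁ = (lev a - i₁ + P) + (-1) * (P : ℤ) by ring,
          Int.add_mul_ediv_right _ _ hPz.ne',
          Int.ediv_eq_zero_of_lt (by omega) (by omega), zero_add]
      rw [hnrm]
      simp only [h5, neg_mul, one_mul, neg_neg]
      exact hwin a (abs_le.2 ⟨by omega, by omega⟩)
    by_cases hhi : lev a < i₁ + P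
    · have h5 : sh a = 0 := Int.ediv_eq_zero_of_lt (by omega) (by omega)
      simp [hnrm, h5]
    · have h5 : sh a = 1 := by
        simp only [hsh]
        rw [show lev a - i₁ = (lev a - i₁ - P) + 1 * (P : ℤ) by ring,
          Int.add_mul_ediv_right _ _ hPz.ne',
          Int.ediv_eq_zero_of_lt (by omega) (by omega), zero_add]
      rw [hnrm]
      simp only [h5, one_mul]
      have h6 := hwin (a + (-(P : ℤ)) • T) (by rw [hlev_add]; exact abs_le.2 ⟨by omega, by omega⟩)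
      rw [show a + (-(P : ℤ)) • T + (P : ℤ) • T = a by simp] at h6
      exact h6.symm
  have hCn : ∀ x, nrm x ∈ C ↔ x ∈ C := fun x => by
    simp only [hnrm, hT, smul_comm (-(sh x * P)) (B' : ℤ) w]
    exact hC x _
  refine ⟨B' * P * K, A', Nat.mul_pos (Nat.mul_pos hB' (by omega)) hK, fun a z => ?_, fun x => ?_⟩
  · obtain ⟨u, hu, v, hv, huv⟩ :=
      AddSubgroup.mem_sup.1 (gam_le_scaled (M := B' * P) hKle (smul_mem_gam_top z))
    obtain ⟨j, rfl⟩ := AddSubgroup.mem_zmultiples_iff.1 hu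
    rw [← huv, ← add_assoc, hA'inv _ v (gam_anti_dvd (hdvd.mul_right P) H hv),
      show j • (((B' * P : ℕ) : ℤ) • w) = (j * P) • T by
        rw [hT, smul_smul, smul_smul]; push_cast; ring_nf,
      hA', Set.mem_ofPred_eq, Set.mem_ofPred_eq, hnrm_P]
  · refine ⟨fun hx => ?_, fun f hf h => (hCn x).1 ((hcov (nrm x)).2 f hf ((key x f hf).1 h))⟩
    obtain ⟨f, ⟨hf, hfA⟩, huniq⟩ := (hcov (nrm x)).1 ((hCn x).2 hx)
    exact ⟨f, ⟨hf, (key x f hf).2 hfA⟩, fun g hg => huniq g ⟨hg.1, (key x g hg.1).1 hg.2⟩⟩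

/-- A tiling invariant along some hyperplane on every coset of `B ℤ^d` yields a periodic one. -/
theorem exists_periodic_of_cosets {d : ℕ} {F : Finset (Grid d)} {A : Set (Grid d)} (hA : Tiles F A)
    (hyps : Finset (Submodule ℚ (Fin d → ℚ))) (hh : ∀ H ∈ hyps, Module.finrank ℚ H + 1 = d)
    {B : ℕ} (hB : 0 < B)
    (h : ∀ ρ : Grid d, ∃ H ∈ hyps, ∀ z y : Grid d, toRat y ∈ H →
      (ρ + (B : ℤ) • z + (B : ℤ) • y ∈ A ↔ ρ + (B : ℤ) • z ∈ A)) :
    ∃ A' : Set (Grid d), Tiles F A' ∧ IsPeriodic A' := by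
  classical
  choose Hf hHf hinv using h
  set cl : Grid d → Submodule ℚ (Fin d → ℚ) := fun x => Hf (boxMod B x) with hcl
  have hinv' : ∀ x y : Grid d, toRat y ∈ cl x → (x + (B : ℤ) • y ∈ A ↔ x ∈ A) := fun x y hy => by
    obtain ⟨z, hz⟩ := boxMod_decomp B x
    have h := hinv (boxMod B x) z y hy
    rwa [← hz] at h
  have hcl_add : ∀ x y : Grid d, cl (x + (B : ℤ) • y) = cl x := fun x y => by
    simp only [hcl, boxMod_add_smul]
  set AH : Submodule ℚ (Fin d → ℚ) → Set (Grid d) := fun H => {a | a ∈ A ∧ cl a = H} with hAH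
  set CH : Submodule ℚ (Fin d → ℚ) → Set (Grid d) :=
    fun H => {x | ∃ f ∈ F, x - f ∈ AH H} with hCH
  have hAHinv : ∀ H a, ∀ t ∈ gam B H, (a + t ∈ AH H ↔ a ∈ AH H) := fun H a t ht => by
    obtain ⟨y, hy, rfl⟩ := mem_gam.1 ht
    simp only [hAH, Set.mem_ofPred_eq, hcl_add]
    exact and_congr_left fun hc => hinv' a y (by rw [hc]; exact hy)
  have hCHinv : ∀ H x, ∀ t ∈ gam B H, (x + t ∈ CH H ↔ x ∈ CH H) := fun H x t ht => by
    refine exists_congr fun f => and_congr_right fun _ => ?_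
    rw [show x + t - f = x - f + t by abel]
    exact hAHinv H _ t ht
  have hdisj : ∀ H J x, x ∈ CH H → x ∈ CH J → H = J := by
    rintro H J x ⟨f, hf, hfA, hfH⟩ ⟨g, hg, hgA, hgJ⟩
    obtain rfl : f = g := (hA x).unique ⟨hf, hfA⟩ ⟨hg, hgA⟩
    exact hfH.symm.trans hgJ
  have hall : ∀ x, ∃ H ∈ hyps, x ∈ CH H := fun x => by
    obtain ⟨f, hf, -⟩ := hA x
    exact ⟨_, hHf _, f, hf.1, hf.2, rfl⟩
  have hcov : ∀ H, CoversExactly F (AH H) (CH H) := fun H x => by
    refine ⟨?_, fun f hf h => ⟨f, hf, h⟩⟩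
    rintro ⟨f, hf, hfA⟩
    exact ⟨f, ⟨hf, hfA⟩, fun g hg => (hA x).unique ⟨hg.1, hg.2.1⟩ ⟨hf, hfA.1⟩⟩
  -- a common scale at which all the pieces are periodic
  have hc : ∀ p : Submodule ℚ (Fin d → ℚ) × Submodule ℚ (Fin d → ℚ), ∃ K : ℕ, 0 < K ∧
      (p.1 ∈ hyps → p.2 ∈ hyps → p.2 ≠ p.1 → gam K ⊤ ≤ lat p.2 ⊔ lat p.1) := by
    rintro ⟨H, J⟩
    by_cases hp : H ∈ hyps ∧ J ∈ hyps ∧ J ≠ H
    swap
    · exact ⟨1, one_pos, fun a b c => absurd ⟨a, b, c⟩ hp⟩
    obtain ⟨hH, hJ, hne⟩ := hp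
    have hnle : ¬J ≤ H := fun hle => hne
      (Submodule.eq_of_le_of_finrank_le hle (by have := hh H hH; have := hh J hJ; omega))
    obtain ⟨w, hwJ, hwH⟩ := SetLike.not_le_iff_exists.1 hnle
    obtain ⟨v, n, hn, hv⟩ := exists_nat_mul_toRat w
    have hvJ : v ∈ lat J := by rw [mem_lat, hv]; exact J.smul_mem _ hwJ
    have hvH : toRat v ∉ H := fun h' => hwH (by
      rw [hv] at h'
      simpa [hn.ne'] using H.smul_mem ((n : ℚ)⁻¹) h')
    obtain ⟨K, hK, hle⟩ := exists_cross (hh H hH) hvH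
    exact ⟨K, hK, fun _ _ _ => hle.trans
      (sup_le_sup_right (AddSubgroup.zmultiples_le_of_mem hvJ) _)⟩
  choose K hK hKle using hc
  set B' := B * ∏ p ∈ hyps ×ˢ hyps, K p with hB'
  have hB'0 : 0 < B' := Nat.mul_pos hB (Finset.prod_pos fun p _ => hK p)
  have hC : ∀ H ∈ hyps, ∀ x y : Grid d, x + (B' : ℤ) • y ∈ CH H ↔ x ∈ CH H := by
    have hone : ∀ H ∈ hyps, ∀ x y : Grid d, x ∈ CH H → x + (B' : ℤ) • y ∈ CH H := by
      intro H hH x y hx
      obtain ⟨J, hJ, hxJ⟩ := hall (x + (B' : ℤ) • y)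
      rcases eq_or_ne J H with rfl | hne
      · exact hxJ
      exfalso
      obtain ⟨c, hc⟩ := Finset.dvd_prod_of_mem K
        (Finset.mem_product.2 ⟨hH, hJ⟩ : (H, J) ∈ hyps ×ˢ hyps)
      obtain ⟨q, hq, p, hp, hpq⟩ := AddSubgroup.mem_sup.1
        (hKle (H, J) hH hJ hne (smul_mem_gam_top ((c : ℤ) • y)))
      have hy : (B' : ℤ) • y = (B : ℤ) • p + (B : ℤ) • q := by
        rw [← smul_add, add_comm p q, hpq, hB', hc, smul_smul, smul_smul]
        push_cast
        ring_nf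
      rw [hy, ← add_assoc] at hxJ
      exact hne (hdisj J H _ ((hCHinv J _ _ (smul_mem_gam hq)).1 hxJ)
        ((hCHinv H x _ (smul_mem_gam hp)).2 hx))
    refine fun H hH x y => ⟨fun hx => ?_, hone H hH x y⟩
    have := hone H hH _ (-y) hx
    rwa [smul_neg, add_neg_cancel_right] at this
  have hex : ∀ H, ∃ (L : ℕ) (A' : Set (Grid d)), 0 < L ∧ (H ∈ hyps →
      (∀ a z : Grid d, a + (L : ℤ) • z ∈ A' ↔ a ∈ A') ∧ CoversExactly F A' (CH H)) := fun H => by
    by_cases hH : H ∈ hyps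
    · obtain ⟨L, A', h1, h2⟩ := periodize_one (hh H hH) hB'0 (dvd_mul_right B _)
        (hAHinv H) (hC H hH) (hcov H)
      exact ⟨L, A', h1, fun _ => h2⟩
    · exact ⟨1, ∅, one_pos, fun h' => absurd h' hH⟩
  choose L A' hL hA' using hex
  refine ⟨{a | ∃ H ∈ hyps, a ∈ A' H}, fun x => ?_,
    ∏ H ∈ hyps, L H, Finset.prod_pos fun H _ => hL H, fun a z => ?_⟩
  · obtain ⟨H, hH, hx⟩ := hall x
    obtain ⟨f, ⟨hf, hfA⟩, huniq⟩ := ((hA' H hH).2 x).1 hx
    refine ⟨f, ⟨hf, H, hH, hfA⟩, ?_⟩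
    rintro g ⟨hg, J, hJ, hgA⟩
    obtain rfl : J = H := hdisj J H x (((hA' J hJ).2 x).2 g hg hgA) hx
    exact huniq g ⟨hg, hgA⟩
  · refine exists_congr fun H => and_congr_right fun hH => ?_
    obtain ⟨c, hc⟩ := Finset.dvd_prod_of_mem L hH
    rw [hc, Nat.cast_mul, mul_smul]
    exact (hA' H hH).1 a _

end Vale.Agent.P043
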