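import Vale.Agent.P043.Rigidity
import Vale.Agent.P043.Periodize

/-!
Periodic tilings for tiles without a pairing subspace of codimension two.
-/

open MeasureTheory Filter
open scoped Topology BigOperators

noncomputable section

namespace Vale.Agent.P043

variable {d : ℕ}

lemma eq_of_isInt_sub {a b : ℝ} (ha0 : 0 ≤ a) (ha1 : a ≤ 1) (hb0 : 0 ≤ b) (hb1 : b ≤ 1)
    (h : IsInt (a - b)) (hb : ¬IsInt b) : a = b := by
  have h0 : b ≠ 0 := fun e => hb (e ▸ IsInt.zero)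
  have h1 : b ≠ 1 := fun e => hb ⟨1, by simp [e]⟩
  have h0' : 0 < b := lt_of_le_of_ne hb0 (Ne.symm h0)
  have h1' : b < 1 := lt_of_le_of_ne hb1 h1
  obtain ⟨n, hn⟩ := h
  have hlo : (-1 : ℝ) < n := by linarith
  have hhi : (n : ℝ) < 1 := by linarith
  norm_cast at hlo hhi
  rw [show n = 0 by omega, Int.cast_zero] at hn
  linarith

lemma tiles_of_covers {F : Finset (Grid d)} (c : TilingSpace F) :
    Tiles F {t | c.1 t = true} := by
  classical
  intro z
  have h : ∑ g : F, bnat (c.1 (z - (g : Grid d))) = 1 := c.2 z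
  obtain ⟨g, -, hg⟩ := Finset.exists_ne_zero_of_sum_ne_zero (by rw [h]; exact one_ne_zero)
  have hgt : c.1 (z - (g : Grid d)) = true := by
    cases hc : c.1 (z - (g : Grid d)) with
    | false => simp [bnat, hc] at hg
    | true => rfl
  refine ⟨g, ⟨g.2, hgt⟩, fun f' ⟨hf', hf't⟩ => ?_⟩
  by_contra hne
  have hne' : g ≠ ⟨f', hf'⟩ := fun e => hne (congrArg Subtype.val e).symm
  have h2 := Finset.sum_le_sum_of_subset (f := fun u : F => bnat (c.1 (z - (u : Grid d))))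
    (Finset.subset_univ {g, (⟨f', hf'⟩ : F)})
  rw [Finset.sum_pair hne', h] at h2
  have e1 : bnat (c.1 (z - (g : Grid d))) = 1 := by simp [bnat, hgt]
  have e2 : bnat (c.1 (z - f')) = 1 := by
    simp only [Set.mem_ofPred_eq] at hf't
    simp [bnat, hf't]
  rw [e1, e2] at h2
  omega

namespace Marked

variable {X : Type} [MeasurableSpace X] {S : Sys d X} {F : Finset (Grid d)} (E : Marked S F)

lemma binary_comp (M : ℕ) (H : Submodule ℚ (Fin d → ℚ)) :
    ∀ᵐ x ∂S.μ, IsInt (E.comp M H x) → E.e x = E.comp M H x := by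
  filter_upwards [E.comp_range M H,
    eq_zero_of_avg_eq_zero (Γ := gam M H) E.integrable (ae_of_all _ fun x => E.nonneg x),
    eq_zero_of_avg_eq_zero (Γ := gam M H) (f := (fun _ => (1 : ℝ)) - E.e)
      ((integrable_const 1).sub E.integrable) (ae_of_all _ fun x => sub_nonneg.2 (E.le_one x)),
    avg_sub (Γ := gam M H) (integrable_const (1 : ℝ)) E.integrable] with x hr h0 h1 hs hi
  rw [avg_const] at hs
  rcases hi.eq_zero_or_one hr.1 hr.2 with h | h
  · rw [h]; exact h0 h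
  · have hs0 : S.avg (gam M H) ((fun _ => (1 : ℝ)) - E.e) x = 0 := by
      rw [hs]
      exact sub_eq_zero.2 h.symm
    have := h1 hs0
    rw [Pi.sub_apply] at this
    linarith

/-- On every coset of a fine lattice some orbit is invariant along a hyperplane. -/
theorem exists_cosetwise (G : Geometry F) (hn : E.Killed G)
    (hsteady : ∀ᵐ x ∂S.μ, ∀ H ∈ G.hyps, x ∈ Steady S (G.M₀ * G.K) (E.comp G.M₀ H)) :
    ∃ (x : X) (B : ℕ), 0 < B ∧ ∀ ρ : Grid d, ∃ H ∈ G.hyps, ∀ z y : Grid d, toRat y ∈ H →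
      E.e (S.T (ρ + (B : ℤ) • z + (B : ℤ) • y) x) = E.e (S.T (ρ + (B : ℤ) • z) x) := by
  classical
  set B0 := G.M₀ * G.K with hB0
  have hB0pos : 0 < B0 := Nat.mul_pos G.M₀_pos G.K_pos
  have hdvd : ∀ P : ℕ, G.M₀ ∣ B0 * P := fun P => (dvd_mul_right _ _).trans (dvd_mul_right _ _)
  have hlevel : ∀ P : ℕ, ∀ᵐ x ∂S.μ,
      (∀ z : Grid d,
        E.e (S.T (((B0 * P * G.K : ℕ) : ℤ) • z) x) -
            ∑ H ∈ G.hyps, E.comp (B0 * P) H (S.T (((B0 * P * G.K : ℕ) : ℤ) • z) x) =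
          E.e x - ∑ H ∈ G.hyps, E.comp (B0 * P) H x) ∧
      ∀ H ∈ G.hyps,
        (∀ z : Grid d,
          E.comp (B0 * P) H (S.T (((B0 * P * G.K : ℕ) : ℤ) • z) x) -
              E.comp G.M₀ H (S.T (((B0 * P * G.K : ℕ) : ℤ) • z) x) =
            E.comp (B0 * P) H x - E.comp G.M₀ H x) ∧
        (0 ≤ E.comp (B0 * P) H x ∧ E.comp (B0 * P) H x ≤ 1) ∧
        (IsInt (E.comp (B0 * P) H x) → E.e x = E.comp (B0 * P) H x) := fun P => by
    have h1 := E.decomp (G := G) (hdvd P) hn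
    have h2 := (eventually_all_finset G.hyps).2 fun H hH =>
      ((E.comp_transfer (G := G) (dvd_refl _) (hdvd P) hn hH).and
        ((E.comp_range (B0 * P) H).and (E.binary_comp (B0 * P) H)))
    filter_upwards [h1, h2] with x a b
    exact ⟨a, b⟩
  have hbase : ∀ᵐ x ∂S.μ, ∀ H ∈ G.hyps, x ∈ Steady S B0 (E.comp G.M₀ H) ∧
      PolyMod B0 G.hyps.card (orb S (E.comp G.M₀ H) x) := by
    filter_upwards [hsteady,
      (eventually_all_finset G.hyps).2 fun H hH => E.comp_poly (G := G) hn hH] with x a b H hH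
    exact ⟨a H hH, b H hH⟩
  obtain ⟨x, hx⟩ := (ae_all_shift (hbase.and (ae_all_iff.2 hlevel))).exists
  set box := Fintype.piFinset fun _ : Fin d => Finset.Ico (0 : ℤ) B0
  have hper : ∀ p : box × G.hyps, ∃ P, 0 < P ∧
      S.T (p.1 : Grid d) x ∈ Settled S B0 P (E.comp G.M₀ (p.2 : Submodule ℚ (Fin d → ℚ))) :=
    fun p => exists_settled ((hx _).1 _ p.2.2).2
  choose P₁ hP₁ hP₁' using hper
  set P := ∏ p, P₁ p
  have hP : 0 < P := Finset.prod_pos fun p _ => hP₁ p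
  set M := B0 * P with hM
  set B := M * G.K with hB
  have hint : ∀ H ∈ G.hyps, ∀ ρ z : Grid d,
      IsInt (E.comp M H (S.T (ρ + (B : ℤ) • z) x) - E.comp M H (S.T ρ x)) := by
    intro H hH ρ z
    obtain ⟨w, hw⟩ := boxMod_decomp B0 ρ
    have hset : S.T (boxMod B0 ρ) x ∈ Settled S B0 P (E.comp G.M₀ H) :=
      Settled.dvd (hP₁' (⟨boxMod B0 ρ, boxMod_mem hB0pos ρ⟩, ⟨H, hH⟩))
        (Finset.dvd_prod_of_mem _ (Finset.mem_univ _))
    have h1 := hset ((hx _).1 H hH).1 w ((G.K : ℤ) • z)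
    rw [← S.T_add, ← S.T_add] at h1
    have e1 : (B0 : ℤ) • w + ((P * B0 : ℕ) : ℤ) • ((G.K : ℤ) • z) + boxMod B0 ρ =
        ρ + (B : ℤ) • z := by
      conv_rhs => rw [hw]
      rw [smul_smul, hB, hM]
      push_cast
      rw [mul_comm (P : ℤ) (B0 : ℤ)]
      abel
    have e2 : (B0 : ℤ) • w + boxMod B0 ρ = ρ := by rw [add_comm]; exact hw.symm
    rw [e1, e2] at h1
    have h2 := (((hx ρ).2 P).2 H hH).1 z
    rw [← S.T_add, add_comm _ ρ] at h2
    rw [show E.comp M H (S.T (ρ + (B : ℤ) • z) x) - E.comp M H (S.T ρ x) =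
      E.comp G.M₀ H (S.T (ρ + (B : ℤ) • z) x) - E.comp G.M₀ H (S.T ρ x) by
        simp only [hB, hM] at h2 ⊢
        linarith]
    exact h1
  refine ⟨x, B, Nat.mul_pos (Nat.mul_pos hB0pos hP) G.K_pos, fun ρ => ?_⟩
  by_cases hex : ∃ H ∈ G.hyps, IsInt (E.comp M H (S.T ρ x))
  · obtain ⟨H, hH, hHi⟩ := hex
    refine ⟨H, hH, fun z y hy => ?_⟩
    have heq : ∀ z : Grid d, E.e (S.T (ρ + (B : ℤ) • z) x) = E.comp M H (S.T (ρ + (B : ℤ) • z) x) :=
      fun z => (((hx _).2 P).2 H hH).2.2 ((isInt_iff_of_sub (hint H hH ρ z)).2 hHi)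
    have e : ρ + (B : ℤ) • z + (B : ℤ) • y = ρ + (B : ℤ) • (z + y) := by rw [smul_add]; abel
    rw [e, heq, heq, smul_add, ← add_assoc, add_comm _ ((B : ℤ) • y), S.T_add]
    refine invariant_avg _ _ _ (mem_gam.2 ⟨(G.K : ℤ) • y, ?_, ?_⟩) _
    · rw [toRat_zsmul]; exact H.smul_mem _ hy
    · rw [smul_smul, hB, hM]; push_cast; rfl
  · push Not at hex
    obtain ⟨H, hH⟩ := G.nonempty
    refine ⟨H, hH, fun z y _ => ?_⟩
    have hconst : ∀ z : Grid d, E.e (S.T (ρ + (B : ℤ) • z) x) = E.e (S.T ρ x) := fun z => by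
      have hd := ((hx ρ).2 P).1 z
      rw [← S.T_add, add_comm _ ρ] at hd
      have hs : ∑ J ∈ G.hyps, E.comp M J (S.T (ρ + (B : ℤ) • z) x) =
          ∑ J ∈ G.hyps, E.comp M J (S.T ρ x) := Finset.sum_congr rfl fun J hJ =>
        eq_of_isInt_sub (((hx _).2 P).2 J hJ).2.1.1 (((hx _).2 P).2 J hJ).2.1.2
          (((hx _).2 P).2 J hJ).2.1.1 (((hx _).2 P).2 J hJ).2.1.2 (hint J hJ ρ z) (hex J hJ)
      simp only [hB, hM] at hd hs ⊢
      linarith
    have e : ρ + (B : ℤ) • z + (B : ℤ) • y = ρ + (B : ℤ) • (z + y) := by rw [smul_add]; abel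
    rw [e, hconst, hconst]

end Marked

/-- A tiling that is invariant along a hyperplane on every coset gives a periodic one. -/
theorem periodic_of_cosetwise {F : Finset (Grid d)} {S : Sys d (TilingSpace F)} {E : Marked S F}
    (G : Geometry F) (hE : ∀ (t : Grid d) c, E.e (S.T t c) = (bnat (c.1 t) : ℝ))
    {x : TilingSpace F} {B : ℕ} (hB : 0 < B)
    (h : ∀ ρ : Grid d, ∃ H ∈ G.hyps, ∀ z y : Grid d, toRat y ∈ H →
      E.e (S.T (ρ + (B : ℤ) • z + (B : ℤ) • y) x) = E.e (S.T (ρ + (B : ℤ) • z) x)) :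
    ∃ A, Tiles F A ∧ IsPeriodic A := by
  refine exists_periodic_of_cosets (tiles_of_covers x) G.hyps G.hyper hB fun ρ => ?_
  obtain ⟨H, hH, hρ⟩ := h ρ
  refine ⟨H, hH, fun z y hy => ?_⟩
  have h2 := hρ z y hy
  rw [hE, hE, Nat.cast_inj] at h2
  simp only [Set.mem_ofPred_eq]
  revert h2
  cases x.1 (ρ + (B : ℤ) • z + (B : ℤ) • y) <;> cases x.1 (ρ + (B : ℤ) • z) <;> simp [bnat]

/-- Tiles without a pairing subspace of codimension two tile periodically. -/
theorem exists_periodic_tiling {F : Finset (Grid d)} (hF : NoPairingSubspace F)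
    (hA : ∃ A, Tiles F A) : ∃ A, Tiles F A ∧ IsPeriodic A := by
  classical
  obtain ⟨A, hA⟩ := hA
  obtain ⟨f, ⟨hf, -⟩, -⟩ := hA 0
  by_cases hn : 2 ≤ F.card
  swap
  · have h1 : F.card ≤ 1 := by omega
    refine ⟨Set.univ, fun z => ⟨f, ⟨hf, trivial⟩, fun g hg => Finset.card_le_one.1 h1 g hg.1 f hf⟩,
      1, one_pos, fun a z => by simp⟩
  have hd : 0 < d := by
    by_contra h
    obtain rfl : d = 0 := by omega
    have := Finset.card_le_one_of_subsingleton F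
    omega
  obtain ⟨G, hG⟩ := exists_geometry hd ⟨f, hf⟩ hF
  obtain ⟨S, E, hE⟩ := exists_marked hA
  obtain ⟨x, B, hB, h⟩ := E.exists_cosetwise G (E.killed_of_covers hG hn)
    (E.ae_steady hF (E.killed_of_covers hG hn))
  exact periodic_of_cosetwise G hE hB h

end Vale.Agent.P043
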