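import Vale.Agent.P043.Defs

/-! Conditional expectations on invariant sets of a measure-preserving action of `ℤ^d`. -/

open MeasureTheory Filter
open scoped Topology BigOperators ENNReal

noncomputable section

namespace Vale.Agent.P043

/-- A measure-preserving action of `ℤ^d` with a marked event, seen as a `{0,1}`-valued function. -/
structure Sys (d : ℕ) (X : Type) [MeasurableSpace X] where
  μ : Measure X
  T : Grid d → X → X
  prob : IsProbabilityMeasure μ
  T_zero : ∀ x, T 0 x = x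
  T_add : ∀ a b x, T (a + b) x = T a (T b x)
  mp : ∀ a, MeasurePreserving (T a) μ μ

variable {d : ℕ} {X : Type} [MeasurableSpace X] (S : Sys d X)

instance : IsProbabilityMeasure S.μ := S.prob

/-- The sets invariant under the subgroup `Γ`. -/
@[implicit_reducible]
def Sys.inv (Γ : AddSubgroup (Grid d)) : MeasurableSpace X where
  MeasurableSet' s := MeasurableSet s ∧ ∀ γ ∈ Γ, S.T γ ⁻¹' s = s
  measurableSet_empty := ⟨MeasurableSet.empty, fun _ _ => rfl⟩
  measurableSet_compl s hs := ⟨hs.1.compl, fun γ hγ => by rw [Set.preimage_compl, hs.2 γ hγ]⟩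
  measurableSet_iUnion f hf := ⟨MeasurableSet.iUnion fun i => (hf i).1, fun γ hγ => by
    rw [Set.preimage_iUnion]; exact Set.iUnion_congr fun i => (hf i).2 γ hγ⟩

lemma Sys.inv_le (Γ : AddSubgroup (Grid d)) : S.inv Γ ≤ ‹MeasurableSpace X› := fun _ hs => hs.1

lemma Sys.inv_anti {Γ Δ : AddSubgroup (Grid d)} (h : Γ ≤ Δ) : S.inv Δ ≤ S.inv Γ :=
  fun _ hs => ⟨hs.1, fun γ hγ => hs.2 γ (h hγ)⟩

/-- Conditional expectation given the `Γ`-invariant sets. -/
def Sys.avg (Γ : AddSubgroup (Grid d)) (f : X → ℝ) : X → ℝ := S.μ[f | S.inv Γ]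

variable {S}

/-- Exact invariance of a function. -/
def Sys.Invariant (S : Sys d X) (Γ : AddSubgroup (Grid d)) (f : X → ℝ) : Prop :=
  ∀ γ ∈ Γ, ∀ x, f (S.T γ x) = f x

lemma T_comm (a b : Grid d) (x : X) : S.T a (S.T b x) = S.T b (S.T a x) := by
  rw [← S.T_add, add_comm, S.T_add]

lemma measurable_T (a : Grid d) : Measurable (S.T a) := (S.mp a).measurable

lemma stronglyMeasurable_avg (Γ : AddSubgroup (Grid d)) (f : X → ℝ) :
    StronglyMeasurable[S.inv Γ] (S.avg Γ f) := stronglyMeasurable_condExp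

lemma measurable_avg (Γ : AddSubgroup (Grid d)) (f : X → ℝ) : Measurable (S.avg Γ f) :=
  ((stronglyMeasurable_avg Γ f).mono (S.inv_le Γ)).measurable

lemma invariant_of_measurable {Γ : AddSubgroup (Grid d)} {f : X → ℝ}
    (hf : Measurable[S.inv Γ] f) : S.Invariant Γ f := by
  intro γ hγ x
  have h := (hf (measurableSet_singleton (f x))).2 γ hγ
  have hx : x ∈ f ⁻¹' {f x} := rfl
  rw [← h] at hx
  exact hx

lemma invariant_avg (Γ : AddSubgroup (Grid d)) (f : X → ℝ) : S.Invariant Γ (S.avg Γ f) :=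
  invariant_of_measurable (stronglyMeasurable_avg Γ f).measurable

lemma Sys.Invariant.measurable_inv {Γ : AddSubgroup (Grid d)} {f : X → ℝ}
    (hi : S.Invariant Γ f) (hf : Measurable f) : Measurable[S.inv Γ] f :=
  fun t ht => ⟨hf ht, fun γ hγ => Set.ext fun x => by simp [hi γ hγ x]⟩

lemma integrable_avg (Γ : AddSubgroup (Grid d)) (f : X → ℝ) : Integrable (S.avg Γ f) S.μ :=
  integrable_condExp

lemma avg_congr {Γ : AddSubgroup (Grid d)} {f g : X → ℝ} (h : f =ᵐ[S.μ] g) :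
    S.avg Γ f =ᵐ[S.μ] S.avg Γ g := condExp_congr_ae h

lemma avg_add {Γ : AddSubgroup (Grid d)} {f g : X → ℝ} (hf : Integrable f S.μ)
    (hg : Integrable g S.μ) : S.avg Γ (f + g) =ᵐ[S.μ] S.avg Γ f + S.avg Γ g :=
  condExp_add hf hg _

lemma avg_sub {Γ : AddSubgroup (Grid d)} {f g : X → ℝ} (hf : Integrable f S.μ)
    (hg : Integrable g S.μ) : S.avg Γ (f - g) =ᵐ[S.μ] S.avg Γ f - S.avg Γ g :=
  condExp_sub hf hg _

lemma avg_of_invariant {Γ : AddSubgroup (Grid d)} {f : X → ℝ} (hi : S.Invariant Γ f)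
    (hm : Measurable f) (hf : Integrable f S.μ) : S.avg Γ f =ᵐ[S.μ] f :=
  condExp_of_aestronglyMeasurable' (S.inv_le Γ)
    (hi.measurable_inv hm).stronglyMeasurable.aestronglyMeasurable hf

lemma avg_avg_of_le {Γ Δ : AddSubgroup (Grid d)} (h : Γ ≤ Δ) (f : X → ℝ) :
    S.avg Δ (S.avg Γ f) =ᵐ[S.μ] S.avg Δ f :=
  condExp_condExp_of_le (S.inv_anti h) (S.inv_le Γ)

lemma avg_nonneg {Γ : AddSubgroup (Grid d)} {f : X → ℝ} (hf : 0 ≤ᵐ[S.μ] f) :
    0 ≤ᵐ[S.μ] S.avg Γ f := condExp_nonneg hf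

lemma avg_le_one {Γ : AddSubgroup (Grid d)} {f : X → ℝ} (hi : Integrable f S.μ)
    (hf : ∀ᵐ x ∂S.μ, f x ≤ 1) : ∀ᵐ x ∂S.μ, S.avg Γ f x ≤ 1 := by
  have h := condExp_mono (m := S.inv Γ) hi (integrable_const (1 : ℝ)) hf
  rw [condExp_const (S.inv_le Γ)] at h
  exact h

lemma ae_all_shift {P : X → Prop} (h : ∀ᵐ x ∂S.μ, P x) : ∀ᵐ x ∂S.μ, ∀ t, P (S.T t x) :=
  ae_all_iff.2 fun t => (S.mp t).quasiMeasurePreserving.ae h

lemma integrable_comp {f : X → ℝ} (hf : Integrable f S.μ) (t : Grid d) :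
    Integrable (fun x => f (S.T t x)) S.μ := (S.mp t).integrable_comp_of_integrable hf

lemma avg_comp (Γ : AddSubgroup (Grid d)) {f : X → ℝ} (hf : Integrable f S.μ) (t : Grid d) :
    (fun x => S.avg Γ f (S.T t x)) =ᵐ[S.μ] S.avg Γ fun x => f (S.T t x) := by
  refine ae_eq_condExp_of_forall_setIntegral_eq (S.inv_le Γ) (integrable_comp hf t)
    (fun s _ _ => (integrable_comp (integrable_avg Γ f) t).integrableOn) (fun s hs _ => ?_) ?_
  · set s' := S.T (-t) ⁻¹' s with hs'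
    have hs'm : MeasurableSet[S.inv Γ] s' := ⟨measurable_T _ hs.1, fun γ hγ => Set.ext fun x => by
      simp only [hs', Set.mem_preimage]
      rw [T_comm (-t) γ x]
      conv_rhs => rw [← hs.2 γ hγ]
      rfl⟩
    have hpre : S.T t ⁻¹' s' = s := Set.ext fun x => by
      simp only [hs', Set.mem_preimage]
      rw [← S.T_add, neg_add_cancel, S.T_zero]
    have key : ∀ g : X → ℝ, Integrable g S.μ →
        ∫ x in s, g (S.T t x) ∂S.μ = ∫ x in s', g x ∂S.μ := by
      intro g hg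
      have hg' : AEStronglyMeasurable g ((S.μ.restrict s')) := hg.aestronglyMeasurable.restrict
      have hm := (S.mp t).restrict_preimage hs'm.1
      rw [hpre] at hm
      rw [← hm.map_eq] at hg'
      conv_rhs => rw [← hm.map_eq]
      rw [integral_map hm.measurable.aemeasurable hg']
    rw [key _ (integrable_avg Γ f), key _ hf]
    exact setIntegral_condExp (S.inv_le Γ) hf hs'm
  · refine (Measurable.stronglyMeasurable ?_).aestronglyMeasurable
    refine Sys.Invariant.measurable_inv (fun γ hγ x => ?_) ((measurable_avg Γ f).comp (measurable_T t))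
    show S.avg Γ f (S.T t (S.T γ x)) = S.avg Γ f (S.T t x)
    rw [T_comm, invariant_avg Γ f γ hγ]

/-- An almost everywhere invariant function is its own average. -/
lemma avg_of_ae_invariant {Γ : AddSubgroup (Grid d)} {f : X → ℝ} (hm : Measurable f)
    (hf : Integrable f S.μ) (hi : ∀ γ ∈ Γ, (fun x => f (S.T γ x)) =ᵐ[S.μ] f) :
    S.avg Γ f =ᵐ[S.μ] f := by
  classical
  set Y : Set X := {x | ∀ γ ∈ Γ, f (S.T γ x) = f x} with hY
  have hYm : MeasurableSet Y := by
    have : Y = ⋂ (γ : Grid d) (_ : γ ∈ Γ), {x | f (S.T γ x) = f x} := by ext x; simp [hY]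
    rw [this]
    exact MeasurableSet.biInter (Set.to_countable _) fun γ _ =>
      measurableSet_eq_fun (hm.comp (measurable_T γ)) hm
  have hae : ∀ᵐ x ∂S.μ, x ∈ Y := by
    have : ∀ᵐ x ∂S.μ, ∀ γ : Γ, f (S.T γ x) = f x := ae_all_iff.2 fun γ => hi γ γ.2
    exact this.mono fun x hx γ hγ => hx ⟨γ, hγ⟩
  have hYinv : ∀ γ ∈ Γ, ∀ x, (S.T γ x ∈ Y ↔ x ∈ Y) := by
    have h1 : ∀ γ ∈ Γ, ∀ x ∈ Y, S.T γ x ∈ Y := fun γ hγ x hx δ hδ => by
      rw [← S.T_add, hx _ (Γ.add_mem hδ hγ), hx γ hγ]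
    refine fun γ hγ x => ⟨fun h => ?_, h1 γ hγ x⟩
    have := h1 _ (Γ.neg_mem hγ) _ h
    rwa [← S.T_add, neg_add_cancel, S.T_zero] at this
  set g := Y.indicator f with hg
  have hfg : g =ᵐ[S.μ] f := hae.mono fun x hx => Set.indicator_of_mem hx f
  have hgi : S.Invariant Γ g := fun γ hγ x => by
    by_cases hx : x ∈ Y
    · rw [hg, Set.indicator_of_mem ((hYinv γ hγ x).2 hx), Set.indicator_of_mem hx, hx γ hγ]
    · rw [hg, Set.indicator_of_notMem fun h => hx ((hYinv γ hγ x).1 h),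
        Set.indicator_of_notMem hx]
  exact ((avg_congr hfg.symm).trans
    (avg_of_invariant hgi (hm.indicator hYm) (hf.indicator hYm))).trans hfg

/-- Averages over two subgroups compose to the average over their join. -/
lemma avg_avg (Γ Δ : AddSubgroup (Grid d)) {f : X → ℝ} :
    S.avg Γ (S.avg Δ f) =ᵐ[S.μ] S.avg (Γ ⊔ Δ) f := by
  set g := S.avg Γ (S.avg Δ f) with hg
  have hΔ : ∀ δ ∈ Δ, (fun x => g (S.T δ x)) =ᵐ[S.μ] g := fun δ hδ => by
    refine (avg_comp Γ (integrable_avg Δ f) δ).trans (avg_congr ?_)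
    exact ae_of_all _ fun x => invariant_avg Δ f δ hδ x
  have hinv : ∀ γ ∈ Γ ⊔ Δ, (fun x => g (S.T γ x)) =ᵐ[S.μ] g := by
    intro γ hγ
    obtain ⟨a, ha, b, hb, rfl⟩ := AddSubgroup.mem_sup.1 hγ
    refine Filter.EventuallyEq.trans (ae_of_all _ fun x => ?_) (hΔ b hb)
    show g (S.T (a + b) x) = g (S.T b x)
    rw [S.T_add, hg, invariant_avg Γ _ a ha]
  exact ((avg_of_ae_invariant (measurable_avg _ _) (integrable_avg _ _) hinv).symm.trans
    (avg_avg_of_le le_sup_left _)).trans (avg_avg_of_le le_sup_right f)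

lemma avg_comm (Γ Δ : AddSubgroup (Grid d)) (f : X → ℝ) :
    S.avg Γ (S.avg Δ f) =ᵐ[S.μ] S.avg Δ (S.avg Γ f) :=
  (avg_avg Γ Δ).trans (by rw [sup_comm]; exact (avg_avg Δ Γ).symm)

lemma avg_mul {Γ : AddSubgroup (Grid d)} {a f : X → ℝ} (ha : S.Invariant Γ a)
    (hm : Measurable a) {C : ℝ} (hC : ∀ᵐ x ∂S.μ, |a x| ≤ C) (hf : Integrable f S.μ) :
    S.avg Γ (fun x => a x * f x) =ᵐ[S.μ] fun x => a x * S.avg Γ f x :=
  condExp_stronglyMeasurable_mul_of_bound (S.inv_le Γ)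
    (ha.measurable_inv hm).stronglyMeasurable hf C hC

/-- A function that vanishes on an invariant set has vanishing average there. -/
lemma avg_eq_zero_on {Γ : AddSubgroup (Grid d)} {f : X → ℝ} {W : Set X} (hW : MeasurableSet W)
    (hinv : ∀ γ ∈ Γ, ∀ x, (S.T γ x ∈ W ↔ x ∈ W)) (hf : Integrable f S.μ)
    (h0 : ∀ᵐ x ∂S.μ, x ∈ W → f x = 0) : ∀ᵐ x ∂S.μ, x ∈ W → S.avg Γ f x = 0 := by
  classical
  have ha : S.Invariant Γ (W.indicator fun _ => (1 : ℝ)) := fun γ hγ x => by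
    simp [Set.indicator, hinv γ hγ x]
  have h1 := avg_mul (a := W.indicator fun _ => (1 : ℝ)) (C := 1) ha
    (measurable_const.indicator hW)
    (ae_of_all _ fun x => by by_cases h : x ∈ W <;> simp [Set.indicator, h]) hf
  have h2 : (fun x => W.indicator (fun _ => (1 : ℝ)) x * f x) =ᵐ[S.μ] 0 :=
    h0.mono fun x hx => by by_cases h : x ∈ W <;> simp [Set.indicator, h, hx]
  have h3 : S.avg Γ (fun x => W.indicator (fun _ => (1 : ℝ)) x * f x) =ᵐ[S.μ] 0 :=
    (avg_congr h2).trans (by simp [Sys.avg])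
  filter_upwards [h1, h3] with x e1 e3 hx
  rw [e1] at e3
  simpa [Set.indicator, hx] using e3

/-- A nonnegative function vanishes where its average does. -/
lemma eq_zero_of_avg_eq_zero {Γ : AddSubgroup (Grid d)} {f : X → ℝ} (hf : Integrable f S.μ)
    (h0 : 0 ≤ᵐ[S.μ] f) : ∀ᵐ x ∂S.μ, S.avg Γ f x = 0 → f x = 0 := by
  classical
  set W : Set X := {x | S.avg Γ f x = 0} with hW
  have hWm : MeasurableSet[S.inv Γ] W :=
    (stronglyMeasurable_avg Γ f).measurable (measurableSet_singleton 0)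
  have hWm' := S.inv_le Γ _ hWm
  have h := setIntegral_condExp (S.inv_le Γ) hf hWm
  have hz : ∫ x in W, S.avg Γ f x ∂S.μ = 0 := setIntegral_eq_zero_of_forall_eq_zero fun x hx => hx
  have h := h.symm.trans hz
  have := (integral_eq_zero_iff_of_nonneg_ae (ae_restrict_of_ae h0) hf.integrableOn).1 h
  exact (ae_restrict_iff' hWm').1 this

end Vale.Agent.P043
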