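import Vale.Agent.P043.Steady

/-!
Rigidity: if no subspace of codimension two pairs every point of the tile, then every component
has rational differences along the cosets of the base lattice.
-/

open MeasureTheory Filter
open scoped Topology BigOperators

noncomputable section

namespace Vale.Agent.P043

variable {d : ℕ} {X : Type} [MeasurableSpace X] {S : Sys d X}

lemma Settled.isInt {B P k : ℕ} {φ : X → ℝ} {x : X} (h : x ∈ Settled S B P φ)
    (hs : x ∈ Steady S B φ) (z : Grid d) :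
    IsInt (φ (S.T (((B * P * k : ℕ) : ℤ) • z) x) - φ x) := by
  have := h hs 0 ((k : ℤ) • z)
  rwa [smul_zero, zero_add, S.T_zero, smul_smul, ← Nat.cast_mul, mul_comm P B] at this

lemma aInv_steady {B : ℕ} (φ : X → ℝ) : AInv S B (Steady S B φ) :=
  ae_of_all _ fun _ z => steady_shift z

lemma isInt_iff_of_sub {a b : ℝ} (h : IsInt (a - b)) : IsInt a ↔ IsInt b :=
  ⟨fun ha => by simpa using ha.sub h, fun hb => by simpa using h.add hb⟩

namespace Marked

variable {F : Finset (Grid d)} (E : Marked S F) (G : Geometry F)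

/-- The points from which some component has an irrational difference. -/
def bad : Set X := {x | ∃ H ∈ G.hyps, x ∉ Steady S (G.M₀ * G.K) (E.comp G.M₀ H)}

/-- The bad points where the pencils have periods `P`. -/
def omega (P : ℕ) : Set X :=
  {x | x ∈ E.bad G ∧ ∀ f ∈ F, ∀ g ∈ F,
    x ∈ Settled S (G.M₀ * G.K) P (E.pencil G G.M₀ f g) ∧
      ∀ g' ∈ F, x ∈ Settled S (G.M₀ * G.K) P (E.pencil₂ G G.M₀ f g g')}

lemma omega_shift (P : ℕ) {x : X} (a : Grid d) :
    S.T (((G.M₀ * G.K : ℕ) : ℤ) • a) x ∈ E.omega G P ↔ x ∈ E.omega G P := by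
  simp only [omega, bad, Set.mem_ofPred_eq, steady_shift, settled_shift]

lemma measurableSet_omega (P : ℕ) : MeasurableSet (E.omega G P) := by
  have e : E.omega G P = (⋃ H ∈ G.hyps, (Steady S (G.M₀ * G.K) (E.comp G.M₀ H))ᶜ) ∩
      ⋂ f ∈ F, ⋂ g ∈ F, (Settled S (G.M₀ * G.K) P (E.pencil G G.M₀ f g) ∩
        ⋂ g' ∈ F, Settled S (G.M₀ * G.K) P (E.pencil₂ G G.M₀ f g g')) := by
    ext x
    simp [omega, bad]
  rw [e]
  refine (Finset.measurableSet_biUnion _ fun H _ =>
    (measurableSet_steady _ (E.measurable_comp' _ H)).compl).inter ?_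
  exact Finset.measurableSet_biInter _ fun f _ => Finset.measurableSet_biInter _ fun g _ =>
    (measurableSet_settled _ _ (E.measurable_pencil G _ f g)).inter
      (Finset.measurableSet_biInter _ fun g' _ =>
        measurableSet_settled _ _ (E.measurable_pencil₂ G _ f g g'))

lemma aInv_omega (P : ℕ) : AInv S (G.M₀ * G.K) (E.omega G P) :=
  ae_of_all _ fun _ z => E.omega_shift G P z

variable {G}

lemma mean₂_range (M : ℕ) (f g g' : Grid d) :
    ∀ᵐ x ∂S.μ, 0 ≤ E.mean₂ M f g g' x ∧ E.mean₂ M f g g' x ≤ 1 := by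
  filter_upwards [avg_nonneg (Γ := AddSubgroup.zmultiples ((M : ℤ) • (f - g')))
      (f := E.psi M f g) ((E.psi_range M f g).mono fun x h => h.1),
    avg_le_one (Γ := AddSubgroup.zmultiples ((M : ℤ) • (f - g'))) (E.integrable_psi M f g)
      ((E.psi_range M f g).mono fun x h => h.2)] with x h1 h2
  exact ⟨h1, h2⟩

/-- Where a function vanishes on an invariant set and differs from a component by a periodic
function, the component is steady. -/
lemma steady_of_vanish (hn : E.Killed G) {H : Submodule ℚ (Fin d → ℚ)} (hH : H ∈ G.hyps)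
    {N L : ℕ} (hL : 0 < L) (hN : N = L * (G.M₀ * G.K)) {W : Set X} (hinv : AInv S N W)
    {φ : X → ℝ} (v : Grid d) (hφ : ∀ᵐ x ∂S.μ, x ∈ W → φ x = 0)
    (hper : Per S N fun x => φ x - E.comp G.M₀ H (S.T v x)) :
    ∀ᵐ x ∂S.μ, x ∈ W → S.T v x ∈ Steady S (G.M₀ * G.K) (E.comp G.M₀ H) := by
  filter_upwards [ae_all_shift hφ, hinv, hper, ae_all_shift (E.comp_poly hn hH)]
    with x h0 hi hp hpoly hx
  refine steady_of_sub hL (hpoly v) fun z => ?_
  rw [← hN, T_comm]
  have h1 := h0 0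
  rw [S.T_zero] at h1
  have h2 := h0 ((N : ℤ) • z) ((hi z).2 hx)
  have h3 := hp z
  rw [h2, h1 hx] at h3
  rw [sub_eq_zero.2 (by linarith)]
  exact IsRat.zero

/-- Step A: where some component is not steady, every pencil is. -/
theorem pencil_steady (hn : E.Killed G) {f g : Grid d} (hf : f ∈ F) (hg : g ∈ F) (hgf : g ≠ f) :
    ∀ᵐ x ∂S.μ, x ∈ E.bad G → x ∈ Steady S (G.M₀ * G.K) (E.pencil G G.M₀ f g) := by
  classical
  set B0 := G.M₀ * G.K with hB0
  set W : Set X := (Steady S B0 (E.pencil G G.M₀ f g))ᶜ with hW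
  have hWm : MeasurableSet W := (measurableSet_steady _ (E.measurable_pencil G _ f g)).compl
  have hWi : AInv S B0 W := ae_of_all _ fun x z => not_congr (steady_shift z)
  have hD : 0 < G.hyps.card := Finset.card_pos.2 G.nonempty
  have hper := E.psi_pencil₀ (G := G) (dvd_refl _) hn hf hg
  have hspread := ae_isRat_spread (S := S) (f := E.psi G.M₀ f g) (measurable_avg _ _)
    ((E.pencil_poly (G := G) hn f g).add_per hD hper)
  have hne : ∀ᵐ x ∂S.μ, x ∈ W → E.e x = 0 := by
    filter_upwards [hper, hspread, E.e_eq_zero G.fact_dvd hf hg hgf] with x hp hs he hx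
    refine he fun h0 => hx fun z => ?_
    have h2 := hs (h0 ▸ IsRat.zero) z
    simp only [orb, zero_add, S.T_zero] at h2
    have h3 := hp z
    rw [show E.pencil G G.M₀ f g (S.T ((B0 : ℤ) • z) x) - E.pencil G G.M₀ f g x =
      E.psi G.M₀ f g (S.T ((B0 : ℤ) • z) x) - E.psi G.M₀ f g x by linarith]
    exact h2
  have hall : ∀ H ∈ G.hyps, ∀ᵐ x ∂S.μ, x ∈ W → x ∈ Steady S B0 (E.comp G.M₀ H) := by
    intro H hH
    have h := E.steady_of_vanish hn hH (N := B0 * G.K) G.K_pos (mul_comm _ _)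
      (hWi.dvd (dvd_mul_right _ _)) 0
      (zero_on (gam_mono (le_top : H ≤ ⊤)) hWm hWi E.integrable hne)
      ((E.comp_transfer (dvd_refl _) (dvd_mul_right _ _) hn hH).congr
        (ae_of_all _ fun x => by simp only [S.T_zero]; rfl))
    exact h.mono fun x hx hw => by simpa only [S.T_zero] using hx hw
  filter_upwards [(eventually_all_finset G.hyps).2 hall] with x hx hbad
  by_contra hns
  obtain ⟨H, hH, hHns⟩ := hbad
  exact hHns (hx H hH hns)

/-- Step B: on `omega P` the `ψ` of the level `M₀ K P` are integers. -/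
theorem psi_int (hn : E.Killed G) {P : ℕ} (hP : 0 < P) {f g : Grid d} (hf : f ∈ F) (hg : g ∈ F)
    (hgf : g ≠ f) :
    ∀ᵐ x ∂S.μ, x ∈ E.omega G P → IsInt (E.psi (G.M₀ * G.K * P) f g x) := by
  classical
  set B0 := G.M₀ * G.K with hB0
  set M := B0 * P with hMdef
  set B := M * G.K with hBdef
  have hM : G.M₀ ∣ M := (dvd_mul_right _ _).trans (dvd_mul_right _ _)
  have hBB : B0 ∣ B := (dvd_mul_right _ _).trans (dvd_mul_right _ _)
  set W : Set X := (E.omega G P ∩ Steady S B0 (E.pencil G G.M₀ f g)) ∩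
    {x | IsInt (E.psi M f g x)}ᶜ with hW
  have hWm : MeasurableSet W :=
    ((E.measurableSet_omega G P).inter
      (measurableSet_steady _ (E.measurable_pencil G _ f g))).inter
        ((measurable_avg _ _) measurableSet_isInt).compl
  have hWi : AInv S B W := by
    filter_upwards [E.psi_pencil₀ (G := G) hM hn hf hg, (E.aInv_omega G P).dvd hBB,
      (aInv_steady (S := S) (B := B0) (E.pencil G G.M₀ f g)).dvd hBB] with x hp hO hS z
    simp only [hW, Set.mem_inter_iff, hO z, hS z]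
    refine and_congr_right fun hx => not_congr (isInt_iff_of_sub ?_)
    have h1 := Settled.isInt (k := G.K) (hx.1.2 f hf g hg).1 hx.2 z
    have h2 := hp z
    rw [show E.psi M f g (S.T ((B : ℤ) • z) x) - E.psi M f g x =
      E.pencil G G.M₀ f g (S.T ((B : ℤ) • z) x) - E.pencil G G.M₀ f g x by linarith]
    exact h1
  have he : ∀ᵐ x ∂S.μ, x ∈ W → E.e x = 0 := by
    filter_upwards [E.e_eq_zero (G.fact_dvd.trans hM) hf hg hgf] with x h hx
    exact h fun h0 => hx.2 (show IsInt (E.psi M f g x) from h0 ▸ IsInt.zero)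
  have hall : ∀ H ∈ G.hyps, ∀ᵐ x ∂S.μ, x ∈ W → x ∈ Steady S B0 (E.comp G.M₀ H) := by
    intro H hH
    have h := E.steady_of_vanish hn hH (N := B * G.K) (L := P * G.K * G.K)
      (by have := G.K_pos; positivity) (by simp only [hBdef, hMdef, hB0]; ring)
      (hWi.dvd (dvd_mul_right _ _)) 0
      (zero_on (gam_mono (le_top : H ≤ ⊤)) hWm hWi E.integrable he)
      ((E.comp_transfer (dvd_refl _) (hM.trans (dvd_mul_right _ _)) hn hH).congr
        (ae_of_all _ fun x => by simp only [S.T_zero]; rfl))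
    exact h.mono fun x hx hw => by simpa only [S.T_zero] using hx hw
  filter_upwards [(eventually_all_finset G.hyps).2 hall, E.pencil_steady (G := G) hn hf hg hgf]
    with x hx hA hΩ
  by_contra hni
  obtain ⟨H, hH, hHns⟩ := hΩ.1
  exact hHns (hx H hH ⟨⟨hΩ, hA hΩ.1⟩, hni⟩)

lemma psi_mul_zero (hn : E.Killed G) {P : ℕ} (hP : 0 < P) {f g g' : Grid d} (hf : f ∈ F)
    (hg : g ∈ F) (hgf : g ≠ f) (hg' : g' ∈ F) (hg'f : g' ≠ f) (hgg : g ≠ g') :
    ∀ᵐ x ∂S.μ, x ∈ E.omega G P →
      E.psi (G.M₀ * G.K * P) f g' x * E.psi (G.M₀ * G.K * P) f g x = 0 := by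
  classical
  set M := G.M₀ * G.K * P
  have hM : F.card.factorial ∣ M :=
    G.fact_dvd.trans ((dvd_mul_right _ _).trans (dvd_mul_right _ _))
  filter_upwards [E.identity hM hf, (eventually_all_finset F).2 fun u _ => E.psi_range M f u,
    E.psi_int hn hP hf hg hgf, E.psi_int hn hP hf hg' hg'f] with x hid hr hi hi' hx
  have hsub : ({g, g'} : Finset (Grid d)) ⊆ F.erase f := by
    intro u hu
    simp only [Finset.mem_insert, Finset.mem_singleton] at hu
    rcases hu with rfl | rfl <;> simp [*]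
  have hle : E.psi M f g x + E.psi M f g' x ≤ ∑ u ∈ F.erase f, E.psi M f u x := by
    rw [← Finset.sum_pair (f := fun u => E.psi M f u x) hgg]
    exact Finset.sum_le_sum_of_subset_of_nonneg hsub fun u hu _ =>
      (hr u (Finset.mem_of_mem_erase hu)).1
  have he := E.nonneg x
  rcases (hi hx).eq_zero_or_one (hr g hg).1 (hr g hg).2 with h | h
  · rw [h, mul_zero]
  rcases (hi' hx).eq_zero_or_one (hr g' hg').1 (hr g' hg').2 with h' | h'
  · rw [h', zero_mul]
  linarith

lemma mean_mul_zero (hn : E.Killed G) {P : ℕ} (hP : 0 < P) {f g g' : Grid d} (hf : f ∈ F)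
    (hg : g ∈ F) (hgf : g ≠ f) (hg' : g' ∈ F) (hg'f : g' ≠ f) (hgg : g ≠ g') :
    ∀ᵐ x ∂S.μ, x ∈ E.omega G P →
      E.psi (G.M₀ * G.K * P) f g' x * E.mean₂ (G.M₀ * G.K * P) f g g' x = 0 := by
  classical
  set M := G.M₀ * G.K * P with hMdef
  set Γ := AddSubgroup.zmultiples ((M : ℤ) • (f - g')) with hΓ
  set a : X → ℝ := (E.omega G P).indicator (E.psi M f g') with ha
  have hainv : S.Invariant Γ a := by
    intro γ hγ x
    obtain ⟨c, rfl⟩ := AddSubgroup.mem_zmultiples_iff.1 hγ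
    have hO : S.T (c • (M : ℤ) • (f - g')) x ∈ E.omega G P ↔ x ∈ E.omega G P := by
      rw [hMdef, Nat.cast_mul, ← smul_smul, smul_comm c]
      exact E.omega_shift G P _
    by_cases hx : x ∈ E.omega G P
    · rw [ha, Set.indicator_of_mem (hO.2 hx), Set.indicator_of_mem hx]
      exact invariant_avg _ _ _ hγ x
    · rw [ha, Set.indicator_of_notMem (fun h => hx (hO.1 h)), Set.indicator_of_notMem hx]
  have ham : Measurable a := (measurable_avg _ _).indicator (E.measurableSet_omega G P)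
  have habd : ∀ᵐ x ∂S.μ, |a x| ≤ 1 := by
    filter_upwards [E.psi_range M f g'] with x hx
    rw [ha, Set.indicator_apply]
    split_ifs
    · exact _root_.abs_le.2 ⟨by linarith [hx.1], hx.2⟩
    · simp
  have hzero : (fun x => a x * E.psi M f g x) =ᵐ[S.μ] fun _ => 0 := by
    filter_upwards [E.psi_mul_zero hn hP hf hg hgf hg' hg'f hgg] with x hx
    by_cases h : x ∈ E.omega G P
    · rw [ha, Set.indicator_of_mem h]; exact hx h
    · rw [ha, Set.indicator_of_notMem h, zero_mul]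
  filter_upwards [avg_mul hainv ham habd (E.integrable_psi M f g),
    (avg_congr (Γ := Γ) hzero).trans (by rw [avg_const])] with x h1 h2 hx
  rw [h1, ha, Set.indicator_of_mem hx] at h2
  exact h2

/-- Step C: an active partner lies in every other irrational hyperplane. -/
theorem transfer (hn : E.Killed G) {P : ℕ} (hP : 0 < P) {f g g' : Grid d} (hf : f ∈ F)
    (hg : g ∈ F) (hgf : g ≠ f) (hg' : g' ∈ F) (hg'f : g' ≠ f) (hgg : g ≠ g') :
    ∀ᵐ x ∂S.μ, x ∈ E.omega G P →
      (∃ J ∈ G.hyps, toRat (f - g') ∈ J ∧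
        S.T (f - g') x ∉ Steady S (G.M₀ * G.K) (E.comp G.M₀ J)) →
      ∀ H ∈ G.hyps, toRat (f - g) ∈ H → toRat (f - g') ∉ H →
        S.T (f - g) x ∈ Steady S (G.M₀ * G.K) (E.comp G.M₀ H) := by
  classical
  set B0 := G.M₀ * G.K with hB0
  set M := B0 * P with hMdef
  set B := M * G.K with hBdef
  have hM : G.M₀ ∣ M := (dvd_mul_right _ _).trans (dvd_mul_right _ _)
  have hMB : M ∣ B := dvd_mul_right _ _
  have hBB : B0 ∣ B := (dvd_mul_right _ _).trans hMB
  have hN : B * G.K = P * G.K * G.K * B0 := by simp only [hBdef, hMdef, hB0]; ring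
  have hL : 0 < P * G.K * G.K := by have := G.K_pos; positivity
  have hD : 0 < G.hyps.card := Finset.card_pos.2 G.nonempty
  have hμper : Per S B fun x => E.mean₂ M f g g' x - E.pencil₂ G G.M₀ f g g' x :=
    E.mean₂_pencil₀ hM hn hf hg hg'
  set St : Set X := Steady S B0 (E.pencil₂ G G.M₀ f g g') with hSt
  set I : Set X := {x | IsInt (E.mean₂ M f g g' x)} with hI
  have hStm : MeasurableSet St := measurableSet_steady _ (E.measurable_pencil₂ G _ f g g')
  have hIm : MeasurableSet I := (measurable_avg _ _) measurableSet_isInt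
  set Y : Set X := E.omega G P ∩ (St ∩ I)ᶜ with hY
  set Y' : Set X := E.omega G P ∩ (St ∩ I) with hY'
  have hYm : MeasurableSet Y := (E.measurableSet_omega G P).inter (hStm.inter hIm).compl
  have hY'm : MeasurableSet Y' := (E.measurableSet_omega G P).inter (hStm.inter hIm)
  have hcore : ∀ᵐ x ∂S.μ, ∀ z : Grid d, (S.T ((B : ℤ) • z) x ∈ E.omega G P ↔ x ∈ E.omega G P) ∧
      (x ∈ E.omega G P → (S.T ((B : ℤ) • z) x ∈ St ∩ I ↔ x ∈ St ∩ I)) := by
    filter_upwards [hμper, (E.aInv_omega G P).dvd hBB,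
      (aInv_steady (S := S) (B := B0) (E.pencil₂ G G.M₀ f g g')).dvd hBB] with x hp hO hS z
    refine ⟨hO z, fun hx => ?_⟩
    simp only [hSt, hI, Set.mem_inter_iff, hS z]
    refine and_congr_right fun hs => isInt_iff_of_sub ?_
    have h1 := Settled.isInt (k := G.K) ((hx.2 f hf g hg).2 g' hg') hs z
    have h2 := hp z
    rw [show E.mean₂ M f g g' (S.T ((B : ℤ) • z) x) - E.mean₂ M f g g' x =
      E.pencil₂ G G.M₀ f g g' (S.T ((B : ℤ) • z) x) - E.pencil₂ G G.M₀ f g g' x by linarith]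
    exact h1
  have hYi : AInv S B Y := hcore.mono fun x hx z => by
    simp only [hY, Set.mem_inter_iff, Set.mem_compl_iff, (hx z).1]
    exact and_congr_right fun h => not_congr ((hx z).2 h)
  have hY'i : AInv S B Y' := hcore.mono fun x hx z => by
    simp only [hY', Set.mem_inter_iff (x := _) (E.omega G P), (hx z).1]
    exact and_congr_right fun h => (hx z).2 h
  -- where the mean is not an integer the other `ψ` vanishes
  have hYne : ∀ᵐ x ∂S.μ, x ∈ Y → E.mean₂ M f g g' x ≠ 0 := by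
    have hpoly : Poly S B G.hyps.card (E.mean₂ M f g g') :=
      ((E.pencil₂_poly (G := G) hn f g g').dvd hBB).add_per hD hμper
    filter_upwards [hμper, ae_isRat_spread (S := S) (f := E.mean₂ M f g g') (measurable_avg _ _)
      hpoly, E.pencil₂_poly (G := G) hn f g g'] with x hp hs hpen hx h0
    refine hx.2 ⟨?_, show IsInt (E.mean₂ M f g g' x) from h0 ▸ IsInt.zero⟩
    refine steady_of_sub (L := P * G.K) (by have := G.K_pos; positivity) hpen fun z => ?_
    have h2 := hs (h0 ▸ IsRat.zero) z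
    simp only [orb, zero_add, S.T_zero] at h2
    have h3 := hp z
    rw [show ((P * G.K * B0 : ℕ) : ℤ) = ((B : ℕ) : ℤ) by
      simp only [hBdef, hMdef, hB0]; push_cast; ring]
    rw [show E.pencil₂ G G.M₀ f g g' (S.T ((B : ℤ) • z) x) - E.pencil₂ G G.M₀ f g g' x =
      E.mean₂ M f g g' (S.T ((B : ℤ) • z) x) - E.mean₂ M f g g' x by linarith]
    exact h2
  have hψ' : ∀ᵐ x ∂S.μ, x ∈ Y → E.psi M f g' x = 0 := by
    filter_upwards [hYne, E.mean_mul_zero hn hP hf hg hgf hg' hg'f hgg] with x h1 h2 hx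
    exact (mul_eq_zero.1 (h2 hx.1)).resolve_right (h1 hx)
  have hin : ∀ J ∈ G.hyps, ∀ᵐ x ∂S.μ, x ∈ Y → toRat (f - g') ∈ J →
      S.T (f - g') x ∈ Steady S B0 (E.comp G.M₀ J) := by
    intro J hJ
    by_cases hw : toRat (f - g') ∈ J
    swap
    · exact ae_of_all _ fun x _ h => absurd h hw
    have hper : Per S (B * G.K) fun x => S.avg (gam B J) (E.psi M f g') x -
        E.comp G.M₀ J (S.T (f - g') x) :=
      (((E.avg_psi hM hMB hn hf hg' hJ).1 hw).add
        (((E.comp_transfer (dvd_refl _) hM hn hJ).comp (f - g')).dvd (dvd_mul_right _ _))).congr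
          (ae_of_all _ fun x => by ring)
    exact (E.steady_of_vanish hn hJ hL hN (hYi.dvd (dvd_mul_right _ _)) (f - g')
      (zero_on (gam_mono le_top) hYm hYi (E.integrable_psi M f g') hψ') hper).mono
        fun x h hx _ => h hx
  -- where it is an integer `ψ` equals it
  have hzero : ∀ᵐ x ∂S.μ, x ∈ Y' → E.psi M f g x - E.mean₂ M f g g' x = 0 := by
    filter_upwards [E.mean₂_range M f g g',
      eq_zero_of_avg_eq_zero (Γ := AddSubgroup.zmultiples ((M : ℤ) • (f - g')))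
        (E.integrable_psi M f g) ((E.psi_range M f g).mono fun x h => h.1),
      eq_zero_of_avg_eq_zero (Γ := AddSubgroup.zmultiples ((M : ℤ) • (f - g')))
        (f := (fun _ => (1 : ℝ)) - E.psi M f g)
        ((integrable_const 1).sub (E.integrable_psi M f g))
        ((E.psi_range M f g).mono fun x h => sub_nonneg.2 h.2),
      avg_sub (Γ := AddSubgroup.zmultiples ((M : ℤ) • (f - g'))) (integrable_const (1 : ℝ))
        (E.integrable_psi M f g)] with x hr h0 h1 hs hx
    rw [avg_const] at hs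
    rcases (show IsInt (E.mean₂ M f g g' x) from hx.2.2).eq_zero_or_one hr.1 hr.2 with h | h
    · rw [h, h0 h, sub_zero]
    · have hs0 : S.avg (AddSubgroup.zmultiples ((M : ℤ) • (f - g')))
          ((fun _ => (1 : ℝ)) - E.psi M f g) x = 0 := by
        rw [hs]
        exact sub_eq_zero.2 h.symm
      have := h1 hs0
      rw [Pi.sub_apply] at this
      linarith
  have hout : ∀ H ∈ G.hyps, ∀ᵐ x ∂S.μ, x ∈ Y' → toRat (f - g) ∈ H → toRat (f - g') ∉ H →
      S.T (f - g) x ∈ Steady S B0 (E.comp G.M₀ H) := by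
    intro H hH
    by_cases hw : toRat (f - g) ∈ H ∧ toRat (f - g') ∉ H
    swap
    · exact ae_of_all _ fun x _ a b => absurd ⟨a, b⟩ hw
    have hle : gam (B * G.K) ⊤ ≤
        gam B H ⊔ AddSubgroup.zmultiples ((M : ℤ) • (f - g')) := by
      refine (gam_le_crossF G hH hf hg' hw.2).trans (sup_le (le_sup_of_le_right ?_) le_sup_left)
      refine AddSubgroup.zmultiples_le_of_mem ?_
      rw [show ((B : ℕ) : ℤ) = (G.K : ℤ) * (M : ℤ) by rw [hBdef]; push_cast; ring, mul_smul]
      exact AddSubgroup.zsmul_mem _ (AddSubgroup.mem_zmultiples _) _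
    have hper : Per S (B * G.K) fun x =>
        S.avg (gam B H) (fun y => E.psi M f g y - E.mean₂ M f g g' y) x -
          E.comp G.M₀ H (S.T (f - g) x) := by
      have hμi : Integrable (E.mean₂ M f g g') S.μ := integrable_avg _ _
      refine (((((E.avg_psi hM hMB hn hf hg hH).1 hw.1).add
        (((E.comp_transfer (dvd_refl _) hM hn hH).comp (f - g)).dvd (dvd_mul_right _ _))).sub
          (per_avg_avg hle (E.psi M f g)))).congr ?_
      filter_upwards [avg_sub (Γ := gam B H) (E.integrable_psi M f g) hμi] with x hx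
      have hx' : S.avg (gam B H) (fun y => E.psi M f g y - E.mean₂ M f g g' y) x =
          S.avg (gam B H) (E.psi M f g) x - S.avg (gam B H) (E.mean₂ M f g g') x := hx
      rw [hx']
      show _ = S.avg (gam B H) (E.psi M f g) x - S.avg (gam B H) (S.avg _ (E.psi M f g)) x - _
      ring
    exact (E.steady_of_vanish hn hH hL hN (hY'i.dvd (dvd_mul_right _ _)) (f - g)
      (zero_on (gam_mono le_top) hY'm hY'i
        ((E.integrable_psi M f g).sub (integrable_avg _ _)) hzero) hper).mono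
          fun x h hx _ _ => h hx
  filter_upwards [(eventually_all_finset G.hyps).2 hin, (eventually_all_finset G.hyps).2 hout]
    with x h1 h2 hx hact H hH hw hw'
  by_cases hxi : x ∈ St ∩ I
  · exact h2 H hH ⟨hx, hxi⟩ hw hw'
  · obtain ⟨J, hJ, hJw, hJns⟩ := hact
    exact absurd (h1 J hJ ⟨hx, hxi⟩ hJw) hJns

/-- What a bad point knows: two irrational components, a partner in each of them for every point of
the tile, and every active partner lies in all of them. -/
theorem ae_bad_facts (hn : E.Killed G) :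
    ∀ᵐ x ∂S.μ, x ∈ E.bad G →
      (∀ H ∈ G.hyps, ∃ J ∈ G.hyps, J ≠ H ∧ x ∉ Steady S (G.M₀ * G.K) (E.comp G.M₀ J)) ∧
      ∀ f ∈ F, ∀ H ∈ G.hyps, x ∉ Steady S (G.M₀ * G.K) (E.comp G.M₀ H) →
        (∃ g ∈ F, g ≠ f ∧ toRat (f - g) ∈ H ∧
          S.T (f - g) x ∉ Steady S (G.M₀ * G.K) (E.comp G.M₀ H)) ∧
        ∀ g ∈ F, g ≠ f → (∃ J ∈ G.hyps, toRat (f - g) ∈ J ∧
          S.T (f - g) x ∉ Steady S (G.M₀ * G.K) (E.comp G.M₀ J)) → toRat (f - g) ∈ H := by
  classical
  set B0 := G.M₀ * G.K with hB0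
  have hexP : ∀ᵐ x ∂S.μ, ∃ P, 0 < P ∧ ∀ f ∈ F, ∀ g ∈ F,
      x ∈ Settled S B0 P (E.pencil G G.M₀ f g) ∧
        ∀ g' ∈ F, x ∈ Settled S B0 P (E.pencil₂ G G.M₀ f g g') := by
    filter_upwards [(eventually_all_finset F).2 fun f _ => (eventually_all_finset F).2 fun g _ =>
      (E.pencil_poly (G := G) hn f g).and
        ((eventually_all_finset F).2 fun g' _ => E.pencil₂_poly (G := G) hn f g g')] with x hx
    have h1 : ∀ p : F × F, ∃ P, 0 < P ∧ x ∈ Settled S B0 P (E.pencil G G.M₀ p.1 p.2) :=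
      fun p => exists_settled (hx _ p.1.2 _ p.2.2).1
    have h2 : ∀ p : F × F × F, ∃ P, 0 < P ∧
        x ∈ Settled S B0 P (E.pencil₂ G G.M₀ p.1 p.2.1 p.2.2) :=
      fun p => exists_settled ((hx _ p.1.2 _ p.2.1.2).2 _ p.2.2.2)
    choose P₁ hP₁ hP₁' using h1
    choose P₂ hP₂ hP₂' using h2
    refine ⟨(∏ p, P₁ p) * ∏ p, P₂ p, Nat.mul_pos (Finset.prod_pos fun p _ => hP₁ p)
      (Finset.prod_pos fun p _ => hP₂ p), fun f hf g hg => ⟨?_, fun g' hg' => ?_⟩⟩
    · exact Settled.dvd (hP₁' (⟨f, hf⟩, ⟨g, hg⟩))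
        ((Finset.dvd_prod_of_mem _ (Finset.mem_univ _)).mul_right _)
    · exact Settled.dvd (hP₂' (⟨f, hf⟩, ⟨g, hg⟩, ⟨g', hg'⟩))
        ((Finset.dvd_prod_of_mem _ (Finset.mem_univ _)).mul_left _)
  have key : ∀ P : ℕ, ∀ᵐ x ∂S.μ, 0 < P → x ∈ E.omega G P →
      (∀ H ∈ G.hyps, ∃ J ∈ G.hyps, J ≠ H ∧ x ∉ Steady S B0 (E.comp G.M₀ J)) ∧
      ∀ f ∈ F, ∀ H ∈ G.hyps, x ∉ Steady S B0 (E.comp G.M₀ H) →
        (∃ g ∈ F, g ≠ f ∧ toRat (f - g) ∈ H ∧ S.T (f - g) x ∉ Steady S B0 (E.comp G.M₀ H)) ∧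
        ∀ g ∈ F, g ≠ f → (∃ J ∈ G.hyps, toRat (f - g) ∈ J ∧
          S.T (f - g) x ∉ Steady S B0 (E.comp G.M₀ J)) → toRat (f - g) ∈ H := by
    intro P
    by_cases hP : 0 < P
    swap
    · exact ae_of_all _ fun x h => absurd h hP
    have htr : ∀ᵐ x ∂S.μ, ∀ f ∈ F, ∀ g ∈ F, ∀ g' ∈ F, g ≠ f → g' ≠ f → g ≠ g' →
        x ∈ E.omega G P → (∃ J ∈ G.hyps, toRat (f - g') ∈ J ∧
          S.T (f - g') x ∉ Steady S B0 (E.comp G.M₀ J)) →
        ∀ H ∈ G.hyps, toRat (f - g) ∈ H → toRat (f - g') ∉ H →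
          S.T (f - g) x ∈ Steady S B0 (E.comp G.M₀ H) := by
      refine (eventually_all_finset F).2 fun f hf => (eventually_all_finset F).2 fun g hg =>
        (eventually_all_finset F).2 fun g' hg' => ?_
      by_cases hc : g ≠ f ∧ g' ≠ f ∧ g ≠ g'
      · exact (E.transfer hn hP hf hg hc.1 hg' hc.2.1 hc.2.2).mono fun x hx _ _ _ => hx
      · exact ae_of_all _ fun x a b c => absurd ⟨a, b, c⟩ hc
    have hdec : ∀ᵐ x ∂S.μ, ∀ f ∈ F, ∀ H ∈ G.hyps, x ∉ Steady S B0 (E.comp G.M₀ H) →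
        ∃ g ∈ F, g ≠ f ∧ toRat (f - g) ∈ H ∧
          S.T (f - g) x ∉ Steady S B0 (E.comp G.M₀ H) := by
      refine (eventually_all_finset F).2 fun f hf => (eventually_all_finset _).2 fun H hH => ?_
      filter_upwards [E.decoupling (G := G) (dvd_refl _) hn hf hH] with x hx
      contrapose!
      intro hst z
      have h := hx z
      rw [show E.comp G.M₀ H (S.T ((B0 : ℤ) • z) x) - E.comp G.M₀ H x =
        -∑ g ∈ (F.erase f).filter (fun g => toRat (f - g) ∈ H),
          (E.comp G.M₀ H (S.T (f - g) (S.T ((B0 : ℤ) • z) x)) -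
            E.comp G.M₀ H (S.T (f - g) x)) by rw [Finset.sum_sub_distrib]; linarith]
      refine (IsRat.sum _ fun g hg => ?_).neg
      obtain ⟨hge, hgH⟩ := Finset.mem_filter.1 hg
      rw [T_comm]
      exact hst g (Finset.mem_of_mem_erase hge) (Finset.ne_of_mem_erase hge) hgH z
    filter_upwards [htr, hdec, E.decomp (G := G) (dvd_refl _) hn] with x htr hdec hdecomp _ hΩ
    refine ⟨fun H hH => ?_, fun f hf H hH hHns => ⟨hdec f hf H hH hHns, ?_⟩⟩
    · have hns : ¬∀ J ∈ G.hyps, x ∈ Steady S B0 (E.comp G.M₀ J) := fun hall => by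
        obtain ⟨J, hJ, hJns⟩ := hΩ.1
        exact hJns (hall J hJ)
      by_contra! hcon
      refine hns (fun J hJ => ?_)
      by_cases hJH : J = H
      swap
      · exact hcon J hJ hJH
      rw [hJH]
      intro z
      have h := hdecomp z
      rw [← Finset.add_sum_erase _ _ hH, ← Finset.add_sum_erase _ _ hH] at h
      rw [show E.comp G.M₀ H (S.T ((B0 : ℤ) • z) x) - E.comp G.M₀ H x =
        (E.e (S.T ((B0 : ℤ) • z) x) - E.e x) - ∑ J ∈ G.hyps.erase H,
          (E.comp G.M₀ J (S.T ((B0 : ℤ) • z) x) - E.comp G.M₀ J x) by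
        rw [Finset.sum_sub_distrib]; linarith]
      refine IsRat.sub (IsInt.sub ?_ ?_).isRat (IsRat.sum _ fun J hJ =>
        hcon J (Finset.mem_of_mem_erase hJ) (Finset.ne_of_mem_erase hJ) z)
      · rcases E.binary (S.T ((B0 : ℤ) • z) x) with h | h <;> rw [h]
        exacts [IsInt.zero, ⟨1, by simp⟩]
      · rcases E.binary x with h | h <;> rw [h]
        exacts [IsInt.zero, ⟨1, by simp⟩]
    · intro g₂ hg₂ hg₂f hact
      obtain ⟨g₁, hg₁, hg₁f, hg₁H, hg₁ns⟩ := hdec f hf H hH hHns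
      by_contra hnot
      have hne : g₁ ≠ g₂ := fun e => hnot (e ▸ hg₁H)
      exact hg₁ns (htr f hf g₁ hg₁ g₂ hg₂ hg₁f hg₂f hne hΩ hact H hH hg₁H hnot)
  filter_upwards [hexP, ae_all_iff.2 key] with x ⟨P, hP, hx⟩ hfacts hbad
  exact hfacts P hP ⟨hbad, hx⟩

/-- No point is bad, if every subspace of codimension two leaves some point of `F` alone. -/
theorem ae_steady (hF : NoPairingSubspace F) (hn : E.Killed G) :
    ∀ᵐ x ∂S.μ, ∀ H ∈ G.hyps, x ∈ Steady S (G.M₀ * G.K) (E.comp G.M₀ H) := by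
  filter_upwards [E.ae_bad_facts hn] with x hx H hH
  by_contra hHns
  obtain ⟨htwo, hpart⟩ := hx ⟨H, hH, hHns⟩
  obtain ⟨J, hJ, hJH, hJns⟩ := htwo H hH
  have hdim : Module.finrank ℚ (H ⊓ J : Submodule ℚ (Fin d → ℚ)) + 2 ≤ d := by
    have h1 := G.hyper H hH
    have h2 := G.hyper J hJ
    have hlt : H ⊓ J < H := lt_of_le_of_ne inf_le_left fun h =>
      hJH (Submodule.eq_of_le_of_finrank_le (h ▸ inf_le_right) (by omega)).symm
    have := Submodule.finrank_lt_finrank_of_lt hlt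
    omega
  obtain ⟨f, hf, halone⟩ := hF _ hdim
  obtain ⟨⟨g, hg, hgf, hgJ, hgns⟩, -⟩ := hpart f hf J hJ hJns
  have hmem := (hpart f hf H hH hHns).2 g hg hgf ⟨J, hJ, hgJ, hgns⟩
  refine hgf (halone g hg ?_)
  have hn' := (H ⊓ J).neg_mem (show toRat (f - g) ∈ H ⊓ J from ⟨hmem, hgJ⟩)
  rwa [show -toRat (f - g) = toRat (g - f) by funext i; simp [toRat]] at hn'

end Marked

end Vale.Agent.P043
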