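import Mathlib
import Vale.Agent.P043.Slice

/-! A periodic function annihilated by all slices of a slice-free tile vanishes. -/

namespace Vale.Agent.P043

open scoped BigOperators

variable {d : ℕ}

/-- The multiples of a nonzero vector are distinct. -/
lemma injective_line {v : Grid d} (hv : v ≠ 0) (f : Grid d) :
    Function.Injective fun k : ℤ => f + k • v :=
  fun _ _ h => smul_left_injective ℤ hv (add_left_cancel h)

lemma slice_finite {F : Finset (Grid d)} {v : Grid d} (hv : v ≠ 0) (f : Grid d) :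
    (slice F v f).Finite :=
  F.finite_toSet.preimage (injective_line hv f).injOn

lemma sum_line {F : Finset (Grid d)} {v : Grid d} (hv : v ≠ 0) (f : Grid d) (φ : Grid d → ℝ)
    [DecidablePred fun g => ∃ k : ℤ, g = f + k • v] :
    ∑ g ∈ F.filter (fun g => ∃ k : ℤ, g = f + k • v), φ g =
      ∑ᶠ k ∈ slice F v f, φ (f + k • v) := by
  classical
  rw [finsum_mem_eq_finite_toFinset_sum _ (slice_finite hv f)]
  refine (Finset.sum_nbij (fun k : ℤ => f + k • v) (fun k hk => ?_) ((injective_line hv f).injOn)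
    (fun g hg => ?_) (fun _ _ => rfl)).symm
  · have hk' : f + k • v ∈ F := (slice_finite hv f).mem_toFinset.1 hk
    exact Finset.mem_filter.2 ⟨hk', k, rfl⟩
  · obtain ⟨hgF, k, rfl⟩ := Finset.mem_filter.1 hg
    exact ⟨k, (slice_finite hv f).mem_toFinset.2 hgF, rfl⟩

/-- A sum over a full period does not see translations. -/
lemma sum_period_shift {R : Type*} [AddCommGroup R] {g : ℤ → R} {m : ℕ}
    (hg : ∀ y, g (y + m) = g y) (k : ℤ) :
    ∑ y ∈ Finset.range m, g ((y : ℤ) - k) = ∑ y ∈ Finset.range m, g y := by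
  have step : ∀ c : ℤ, ∑ y ∈ Finset.range m, g ((y : ℤ) + (c + 1)) =
      ∑ y ∈ Finset.range m, g ((y : ℤ) + c) := by
    intro c
    have h1 := Finset.sum_range_succ' (fun y : ℕ => g ((y : ℤ) + c)) m
    have h2 := Finset.sum_range_succ (fun y : ℕ => g ((y : ℤ) + c)) m
    rw [h2] at h1
    have h3 : g ((m : ℤ) + c) = g ((0 : ℕ) + c) := by
      rw [add_comm, hg]; simp
    rw [h3] at h1
    refine ((add_right_cancel h1).trans (Finset.sum_congr rfl fun y _ => ?_)).symm
    congr 1
    push_cast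
    ring
  have hall : ∀ c : ℤ, ∑ y ∈ Finset.range m, g ((y : ℤ) + c) = ∑ y ∈ Finset.range m, g y := by
    intro c
    induction c using Int.induction_on with
    | zero => simp
    | succ n ih => rw [step, ih]
    | pred n ih =>
      rw [← step (-(n : ℤ) - 1)]
      simpa using ih
  simpa [sub_eq_add_neg] using hall (-k)

theorem RootFree.periodic_eq_zero {F : Finset (Grid d)} (hF : RootFree F) (hn : 2 ≤ F.card)
    {v : Grid d} (hv : v ≠ 0) {u : ℤ → ℝ} {m : ℕ} (hm : 0 < m) (hu : ∀ y, u (y + m) = u y)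
    (h : ∀ r : ℕ, 0 < r → r ≤ m * F.card → Nat.Coprime r F.card →
      ∀ f ∈ F, ∀ y, ∑ᶠ k ∈ slice F v f, u (y - (r : ℤ) * k) = 0) : ∀ y, u y = 0 := by
  classical
  have key : ∀ ζ : ℂ, ζ ^ m = 1 → ∑ y ∈ Finset.range m, (u y : ℂ) * ζ ^ y = 0 := by
    intro ζ hζ
    have hζ0 : ζ ≠ 0 := fun h0 => by simp [h0, hm.ne'] at hζ
    obtain ⟨r', hr', f, hf, hne'⟩ := hF v hv ζ m hm hζ
    set c := F.card with hc
    set r := r' % (m * c) with hrdef
    have hrc : Nat.Coprime r c := by
      have e : r % c = r' % c := Nat.mod_mod_of_dvd _ (dvd_mul_left _ _)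
      rw [Nat.coprime_iff_gcd_eq_one, Nat.ModEq.gcd_eq e]
      exact hr'
    have hr0 : 0 < r := Nat.pos_of_ne_zero fun h0 => by
      rw [h0, Nat.coprime_zero_left] at hrc
      omega
    have hne : (∑ᶠ k ∈ slice F v f, ζ ^ ((r : ℤ) * k)) ≠ 0 := by
      intro h0
      refine hne' (Eq.trans (finsum_congr fun k => finsum_congr fun _ => ?_) h0)
      have e : (r' : ℤ) = (r : ℤ) + (m : ℤ) * ((c : ℤ) * ((r' / (m * c) : ℕ) : ℤ)) := by
        have h1 : ((r + m * c * (r' / (m * c)) : ℕ) : ℤ) = (r' : ℤ) := by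
          rw [hrdef, Nat.mod_add_div]
        push_cast at h1 ⊢
        linarith
      rw [e, add_mul, mul_assoc (m : ℤ), zpow_add₀ hζ0, zpow_mul ζ (m : ℤ), zpow_natCast, hζ,
        one_zpow, mul_one]
    have hfin := slice_finite (F := F) hv f
    rw [finsum_mem_eq_finite_toFinset_sum _ hfin] at hne
    refine (mul_eq_zero.1 (?_ : (∑ k ∈ hfin.toFinset, ζ ^ ((r : ℤ) * k)) * _ = 0)).resolve_left hne
    have hper : ∀ y : ℤ, (u (y + m) : ℂ) * ζ ^ (y + m) = (u y : ℂ) * ζ ^ y := fun y => by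
      rw [hu, zpow_add₀ hζ0, zpow_natCast ζ m, hζ, mul_one]
    calc (∑ k ∈ hfin.toFinset, ζ ^ ((r : ℤ) * k)) * ∑ y ∈ Finset.range m, (u y : ℂ) * ζ ^ y
        = ∑ k ∈ hfin.toFinset, ζ ^ ((r : ℤ) * k) *
            ∑ y ∈ Finset.range m, (u ((y : ℤ) - (r : ℤ) * k) : ℂ) * ζ ^ ((y : ℤ) - (r : ℤ) * k) := by
          rw [Finset.sum_mul]
          refine Finset.sum_congr rfl fun k _ => ?_
          rw [sum_period_shift (g := fun y : ℤ => (u y : ℂ) * ζ ^ y) hper ((r : ℤ) * k)]
          simp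
      _ = ∑ y ∈ Finset.range m, ∑ k ∈ hfin.toFinset, (u ((y : ℤ) - (r : ℤ) * k) : ℂ) * ζ ^ (y : ℤ) := by
          rw [Finset.sum_comm]
          refine Finset.sum_congr rfl fun k _ => ?_
          rw [Finset.mul_sum]
          refine Finset.sum_congr rfl fun y _ => ?_
          rw [zpow_sub₀ hζ0]
          field_simp
      _ = 0 := by
          refine Finset.sum_eq_zero fun y _ => ?_
          have h' := h r hr0 (Nat.mod_lt _ (Nat.mul_pos hm (by omega))).le hrc f hf (y : ℤ)
          rw [finsum_mem_eq_finite_toFinset_sum _ hfin] at h'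
          rw [← Finset.sum_mul, ← Complex.ofReal_sum, h', Complex.ofReal_zero, zero_mul]
  set ω : ℂ := Complex.exp (2 * Real.pi * Complex.I / m) with hωdef
  have hω : IsPrimitiveRoot ω m := Complex.isPrimitiveRoot_exp m hm.ne'
  set P : Polynomial ℂ := ∑ y ∈ Finset.range m, Polynomial.C (u y : ℂ) * Polynomial.X ^ y with hP
  have hdeg : P.natDegree < m := by
    refine lt_of_le_of_lt (Polynomial.natDegree_sum_le_of_forall_le (n := m - 1) _ _
      fun y hy => (Polynomial.natDegree_C_mul_X_pow_le _ _).trans ?_) (by omega)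
    have := Finset.mem_range.1 hy
    omega
  have hP0 : P = 0 := by
    refine Polynomial.eq_zero_of_natDegree_lt_card_of_eval_eq_zero P
      (f := fun j : Fin m => ω ^ (j : ℕ)) (fun a b hab => Fin.ext (hω.pow_inj a.2 b.2 hab))
      (fun j => ?_) (by simpa using hdeg)
    simp only [hP, Polynomial.eval_finsetSum, Polynomial.eval_mul, Polynomial.eval_C,
      Polynomial.eval_pow, Polynomial.eval_X]
    exact key _ (by rw [← pow_mul, mul_comm, pow_mul, hω.pow_eq_one, one_pow])
  have hcoef : ∀ y < m, u (y : ℤ) = 0 := by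
    intro y hy
    have := congrArg (fun Q : Polynomial ℂ => Q.coeff y) hP0
    simpa [hP, Polynomial.finsetSum_coeff, Polynomial.coeff_C_mul, Polynomial.coeff_X_pow, hy]
      using this
  intro y
  have hperiod : ∀ (j : ℤ) (z : ℤ), u (z + j * m) = u z := by
    intro j
    induction j using Int.induction_on with
    | zero => simp
    | succ n ih => intro z; rw [add_mul, one_mul, ← add_assoc, hu, ih]
    | pred n ih =>
      intro z
      rw [← hu (z + (-(n : ℤ) - 1) * m)]
      convert ih z using 2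
      ring
  have hm' : (0 : ℤ) < m := by exact_mod_cast hm
  obtain ⟨r, hr⟩ := Int.eq_ofNat_of_zero_le (Int.emod_nonneg y hm'.ne')
  rw [← Int.emod_add_mul_ediv y m, mul_comm, hperiod, hr]
  refine hcoef r ?_
  have := Int.emod_lt_of_pos y hm'
  omega

/-- A line sum of the dilated tile, read on the slice of the tile. -/
lemma sum_dilated_line {F : Finset (Grid d)} {v : Grid d} (hv : v ≠ 0)
    (hprim : ∀ z : Grid d, toRat z ∈ Submodule.span ℚ {toRat v} → ∃ k : ℤ, z = k • v)
    {r : ℕ} (hr : 0 < r) (f : Grid d) (φ : Grid d → ℝ)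
    [DecidablePred fun g => ∃ k : ℤ, g = r • f + k • v] :
    ∑ g ∈ (dilTile r F).filter (fun g => ∃ k : ℤ, g = r • f + k • v), φ g =
      ∑ᶠ k ∈ slice F v f, φ (r • f + ((r : ℤ) * k) • v) := by
  classical
  have hset : (dilTile r F).filter (fun g => ∃ k : ℤ, g = r • f + k • v) =
      (F.filter fun g => ∃ k : ℤ, g = f + k • v).image (fun g => r • g) := by
    ext g'
    simp only [dilTile, Finset.mem_filter, Finset.mem_image]
    constructor
    · rintro ⟨⟨g, hg, rfl⟩, k, hk⟩
      have hrq : (r : ℚ) ≠ 0 := by exact_mod_cast hr.ne'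
      have hmem : toRat (g - f) ∈ Submodule.span ℚ {toRat v} := by
        refine Submodule.mem_span_singleton.2 ⟨(k : ℚ) / r, ?_⟩
        funext i
        have hi := congrFun hk i
        simp only [Pi.add_apply, Pi.smul_apply, nsmul_eq_mul, smul_eq_mul] at hi
        have hi' : (r : ℚ) * g i = r * f i + k * v i := by exact_mod_cast hi
        simp only [toRat, Pi.smul_apply, Pi.sub_apply, smul_eq_mul, Int.cast_sub]
        field_simp
        linarith
      obtain ⟨k', hk'⟩ := hprim _ hmem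
      exact ⟨g, ⟨hg, k', by rw [← hk']; abel⟩, rfl⟩
    · rintro ⟨g, ⟨hg, k, rfl⟩, rfl⟩
      refine ⟨⟨_, hg, rfl⟩, (r : ℤ) * k, ?_⟩
      rw [nsmul_add, mul_smul, natCast_zsmul]
  rw [hset, Finset.sum_image fun a _ b _ h => dil_injective hr h, sum_line hv f]
  refine finsum_congr fun k => finsum_congr fun _ => congrArg φ ?_
  rw [nsmul_add, mul_smul, natCast_zsmul]

/-- The lattice points on a line through the origin are the multiples of one vector. -/
lemma exists_primitive {w : Grid d} (hw : w ≠ 0) :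
    ∃ v : Grid d, v ≠ 0 ∧ ∀ z : Grid d, (∃ c : ℚ, toRat z = c • toRat w) ↔ ∃ k : ℤ, z = k • v := by
  obtain ⟨i, hi⟩ := Function.ne_iff.1 hw
  have hwi : (w i : ℚ) ≠ 0 := by exact_mod_cast hi
  let S : AddSubgroup (Grid d) :=
    { carrier := {z | ∃ c : ℚ, toRat z = c • toRat w}
      zero_mem' := ⟨0, by funext j; simp [toRat]⟩
      add_mem' := by
        rintro a b ⟨c, hc⟩ ⟨e, he⟩
        refine ⟨c + e, ?_⟩
        funext j
        have h1 := congrFun hc j
        have h2 := congrFun he j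
        simp only [toRat, Pi.smul_apply, smul_eq_mul, Pi.add_apply, Int.cast_add] at h1 h2 ⊢
        rw [h1, h2, add_mul]
      neg_mem' := by
        rintro a ⟨c, hc⟩
        refine ⟨-c, ?_⟩
        funext j
        have h1 := congrFun hc j
        simp only [toRat, Pi.smul_apply, smul_eq_mul, Pi.neg_apply, Int.cast_neg] at h1 ⊢
        rw [h1, neg_mul] }
  obtain ⟨g, hg⟩ := Int.subgroup_cyclic (S.map (Pi.evalAddMonoidHom (fun _ : Fin d => ℤ) i))
  have hmem : g ∈ S.map (Pi.evalAddMonoidHom (fun _ : Fin d => ℤ) i) := by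
    rw [hg]; exact AddSubgroup.subset_closure rfl
  obtain ⟨v, hv, hvg⟩ := AddSubgroup.mem_map.1 hmem
  have hinj : ∀ z ∈ S, z i = 0 → z = 0 := by
    rintro z ⟨c, hc⟩ h0
    have h1 := congrFun hc i
    simp [toRat, h0, hwi] at h1
    subst h1
    funext j
    simpa [toRat] using congrFun hc j
  have hgen : ∀ z ∈ S, ∃ k : ℤ, z = k • v := by
    intro z hz
    have h1 : z i ∈ AddSubgroup.closure ({g} : Set ℤ) := hg ▸ AddSubgroup.mem_map_of_mem
      (Pi.evalAddMonoidHom (fun _ : Fin d => ℤ) i) hz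
    obtain ⟨k, hk⟩ := AddSubgroup.mem_closure_singleton.1 h1
    refine ⟨k, sub_eq_zero.1 (hinj _ (S.sub_mem hz (S.zsmul_mem hv k)) ?_)⟩
    have hvg' : v i = g := hvg
    simp [← hk, hvg']
  refine ⟨v, fun h0 => ?_, fun z => ⟨fun hz => hgen z hz, ?_⟩⟩
  · obtain ⟨k, hk⟩ := hgen w ⟨1, (one_smul _ _).symm⟩
    exact hw (by rw [hk, h0, smul_zero])
  · rintro ⟨k, rfl⟩
    exact S.zsmul_mem hv k

end Vale.Agent.P043
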