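import Vale.Agent.P043.Levels
import Vale.Agent.P043.SliceZero
import Vale.Agent.P043.Dilate

/-!
In dimension three slice freeness removes the components of lines from the decomposition.
-/

open MeasureTheory Filter
open scoped Topology BigOperators

noncomputable section

namespace Vale.Agent.P043

variable {d : ℕ} {X : Type} [MeasurableSpace X] {S : Sys d X}

lemma gam_le_scaled_of_le {M K : ℕ} {H J : Submodule ℚ (Fin d → ℚ)} {v : Grid d}
    (h : gam K H ≤ AddSubgroup.zmultiples v ⊔ lat J) :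
    gam (M * K) H ≤ AddSubgroup.zmultiples ((M : ℤ) • v) ⊔ gam M J := by
  intro z hz
  obtain ⟨y, hy, rfl⟩ := mem_gam.1 hz
  obtain ⟨a, ha, b, hb, hab⟩ := AddSubgroup.mem_sup.1 (h (smul_mem_gam hy))
  obtain ⟨c, rfl⟩ := AddSubgroup.mem_zmultiples_iff.1 ha
  refine AddSubgroup.mem_sup.2 ⟨c • ((M : ℤ) • v), AddSubgroup.zsmul_mem _
    (AddSubgroup.mem_zmultiples _) c, (M : ℤ) • b, smul_mem_gam hb, ?_⟩
  rw [smul_comm c, ← smul_add, hab, smul_smul]
  push_cast; rfl

lemma resid_add : ∀ (l : List (AddSubgroup (Grid d))) {φ ψ : X → ℝ}, Integrable φ S.μ →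
    Integrable ψ S.μ →
    resid S l (φ + ψ) =ᵐ[S.μ] fun x => resid S l φ x + resid S l ψ x
  | [], _, _, _, _ => EventuallyEq.rfl
  | Γ :: l, φ, ψ, hφ, hψ => by
    have h := resid_add l hφ hψ
    filter_upwards [h, (avg_congr (Γ := Γ) h).trans
      (avg_add (integrable_resid l hφ) (integrable_resid l hψ))] with x a b
    simp only [resid, Pi.add_apply] at *
    rw [a, b]
    ring

lemma resid_finsetSum (l : List (AddSubgroup (Grid d))) {ι : Type*} (s : Finset ι)
    {φ : ι → X → ℝ} (h : ∀ i ∈ s, Integrable (φ i) S.μ) :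
    resid S l (fun x => ∑ i ∈ s, φ i x) =ᵐ[S.μ] fun x => ∑ i ∈ s, resid S l (φ i) x := by
  classical
  induction s using Finset.induction_on with
  | empty => simpa using resid_zero l
  | insert a s ha ih =>
    have hs : ∀ i ∈ s, Integrable (φ i) S.μ := fun i hi => h i (Finset.mem_insert_of_mem hi)
    have e : (fun x => ∑ i ∈ insert a s, φ i x) = φ a + fun x => ∑ i ∈ s, φ i x := by
      funext x; simp [Finset.sum_insert ha]
    rw [e]
    filter_upwards [resid_add l (h a (Finset.mem_insert_self _ _)) (integrable_finsetSum _ hs),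
      ih hs] with x a' b'
    rw [a', b', Finset.sum_insert ha]

lemma resid_avg : ∀ (l : List (AddSubgroup (Grid d))) (Γ : AddSubgroup (Grid d)) {φ : X → ℝ},
    Integrable φ S.μ → resid S l (S.avg Γ φ) =ᵐ[S.μ] S.avg Γ (resid S l φ)
  | [], _, _, _ => EventuallyEq.rfl
  | Δ :: l, Γ, φ, hφ => by
    have h := resid_avg l Γ hφ
    have hr := integrable_resid l hφ
    filter_upwards [h, avg_sub (Γ := Γ) hr (integrable_avg Δ (resid S l φ)),
      (avg_congr (Γ := Δ) h).trans (avg_comm Δ Γ (resid S l φ))] with x a b c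
    show resid S l (S.avg Γ φ) x - S.avg Δ (resid S l (S.avg Γ φ)) x = _
    rw [a, c]
    exact b.symm

lemma resid_comp : ∀ (l : List (AddSubgroup (Grid d))) (t : Grid d) {φ : X → ℝ},
    Integrable φ S.μ →
    resid S l (fun x => φ (S.T t x)) =ᵐ[S.μ] fun x => resid S l φ (S.T t x)
  | [], _, _, _ => EventuallyEq.rfl
  | Δ :: l, t, φ, hφ => by
    have h := resid_comp l t hφ
    filter_upwards [h, (avg_congr (Γ := Δ) h).trans (avg_comp Δ (integrable_resid l hφ) t).symm]
      with x a b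
    simp only [resid, a, b]

lemma resid_const {l : List (AddSubgroup (Grid d))} (hl : l ≠ []) (c : ℝ) :
    resid S l (fun _ => c) =ᵐ[S.μ] fun _ => 0 := by
  have key : ∀ l : List (AddSubgroup (Grid d)), ∃ c' : ℝ,
      (resid S l fun _ => c) =ᵐ[S.μ] fun _ => c' := by
    intro l
    induction l with
    | nil => exact ⟨c, EventuallyEq.rfl⟩
    | cons Γ l ih =>
      obtain ⟨c', hc⟩ := ih
      refine ⟨0, ?_⟩
      filter_upwards [hc, (avg_congr (Γ := Γ) hc).trans (by rw [avg_const])] with x a b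
      simp [resid, a, b]
  obtain ⟨Γ, l, rfl⟩ := List.exists_cons_of_ne_nil hl
  obtain ⟨c', hc⟩ := key l
  filter_upwards [hc, (avg_congr (Γ := Γ) hc).trans (by rw [avg_const])] with x a b
  simp [resid, a, b]

namespace Marked

variable {F : Finset (Grid d)} (E : Marked S F)

open Classical in
/-- Away from crossings the identity only sees a line. -/
lemma line_equation {m : ℕ} (hmq : F.card.factorial ∣ m) {w : Grid d}
    {P : List (AddSubgroup (Grid d))} (hP : P ≠ []) {f : Grid d} (hf : f ∈ F)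
    (hcross : ∀ g ∈ F, toRat (f - g) ∉ Submodule.span ℚ {toRat w} →
      ∃ Δ ∈ P, Δ ≤ AddSubgroup.zmultiples ((m : ℤ) • (f - g)) ⊔
        gam m (Submodule.span ℚ {toRat w})) :
    ∀ᵐ x ∂S.μ, S.avg (gam m (Submodule.span ℚ {toRat w})) (resid S P E.e) x +
      ∑ g ∈ (F.erase f).filter (fun g => toRat (f - g) ∈ Submodule.span ℚ {toRat w}),
        S.avg (gam m (Submodule.span ℚ {toRat w})) (resid S P E.e) (S.T (f - g) x) = 0 := by
  classical
  set ℓ := Submodule.span ℚ {toRat w} with hℓ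
  set Γ := gam m ℓ with hΓ
  set φ := S.avg Γ (resid S P E.e) with hφ
  have hI : Integrable (fun x => ∑ g ∈ F.erase f, E.psi m f g x) S.μ :=
    integrable_finsetSum _ fun g _ => E.integrable_psi m f g
  have h1 : (fun x => resid S P E.e x + ∑ g ∈ F.erase f, resid S P (E.psi m f g) x) =ᵐ[S.μ]
      fun _ => 0 := by
    filter_upwards [(resid_congr P (φ := E.e + fun x => ∑ g ∈ F.erase f, E.psi m f g x)
        (E.identity hmq hf)).trans (resid_const hP 1),
      resid_add P E.integrable hI,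
      resid_finsetSum P (F.erase f) fun g _ => E.integrable_psi m f g] with x a b c
    rw [← c, ← b]
    exact a
  have hterm : ∀ g ∈ F.erase f, S.avg Γ (resid S P (E.psi m f g)) =ᵐ[S.μ]
      fun x => if toRat (f - g) ∈ ℓ then φ (S.T (f - g) x) else 0 := by
    intro g hg
    set Z := AddSubgroup.zmultiples ((m : ℤ) • (f - g))
    have hξ := integrable_comp E.integrable (f - g)
    have h2 : S.avg Γ (resid S P (E.psi m f g)) =ᵐ[S.μ]
        S.avg (Γ ⊔ Z) (resid S P fun x => E.e (S.T (f - g) x)) :=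
      (avg_congr (resid_avg P Z hξ)).trans (avg_avg Γ Z)
    by_cases hl : toRat (f - g) ∈ ℓ
    · have e : Γ ⊔ Z = Γ := sup_eq_left.2 (zmultiples_smul_le_gam hl)
      rw [e] at h2
      simp only [if_pos hl]
      exact (h2.trans (avg_congr (resid_comp P (f - g) E.integrable))).trans
        (avg_comp Γ (integrable_resid P E.integrable) (f - g)).symm
    · simp only [if_neg hl]
      obtain ⟨Δ, hΔ, hle⟩ := hcross g (Finset.mem_of_mem_erase hg) hl
      exact h2.trans (((avg_avg_of_le (hle.trans (sup_comm _ _).le) _).symm.trans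
        (avg_congr (avg_resid P hξ Δ hΔ))).trans (by rw [avg_const]))
  have hI' : Integrable (fun x => ∑ g ∈ F.erase f, resid S P (E.psi m f g) x) S.μ :=
    integrable_finsetSum _ fun g _ => integrable_resid P (E.integrable_psi m f g)
  filter_upwards [(avg_congr (Γ := Γ) h1).trans (by rw [avg_const]),
    avg_add (Γ := Γ) (integrable_resid P E.integrable) hI',
    avg_finsetSum (Γ := Γ) (F.erase f) fun g _ => integrable_resid P (E.integrable_psi m f g),
    (eventually_all_finset (F.erase f)).2 hterm] with x a b c e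
  rw [Pi.add_apply, c, Finset.sum_congr rfl e] at b
  rw [Finset.sum_filter, ← b]
  exact a

/-- A line whose crossings are covered by the list `P` carries no component. -/
lemma line_zero (hF : RootFree F) (hn : 2 ≤ F.card) {m : ℕ} (hm : 0 < m)
    (hmq : F.card.factorial ∣ m) {w : Grid d} (hw : w ≠ 0) {P : List (AddSubgroup (Grid d))}
    (hP : P ≠ [])
    (hcross : ∀ r : ℕ, 0 < r → r ≤ m * F.card → ∀ f ∈ F, ∀ g ∈ F,
      toRat (f - g) ∉ Submodule.span ℚ {toRat w} →
      ∃ Δ ∈ P, Δ ≤ AddSubgroup.zmultiples ((m : ℤ) • (r • f - r • g)) ⊔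
        gam m (Submodule.span ℚ {toRat w})) :
    S.avg (gam m (Submodule.span ℚ {toRat w})) (resid S P E.e) =ᵐ[S.μ] fun _ => 0 := by
  classical
  set ℓ := Submodule.span ℚ {toRat w} with hℓ
  set Γ := gam m ℓ with hΓ
  set φ := S.avg Γ (resid S P E.e) with hφ
  obtain ⟨v, hv, hline⟩ := exists_primitive hw
  have hmem : ∀ z : Grid d, toRat z ∈ ℓ ↔ ∃ k : ℤ, z = k • v := fun z => by
    rw [← hline z, hℓ, Submodule.mem_span_singleton]
    exact exists_congr fun c => eq_comm
  have hvℓ : toRat v ∈ ℓ := (hmem v).2 ⟨1, (one_smul _ _).symm⟩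
  have hprim : ∀ z : Grid d, toRat z ∈ Submodule.span ℚ {toRat v} → ∃ k : ℤ, z = k • v :=
    fun z hz => (hmem z).1 ((Submodule.span_singleton_le_iff_mem _ _).2 hvℓ hz)
  have heq : ∀ r ∈ Finset.Icc 1 (m * F.card), Nat.Coprime r F.card → ∀ f ∈ F, ∀ᵐ x ∂S.μ,
      φ x + ∑ g ∈ ((dilTile r F).erase (r • f)).filter (fun g => toRat (r • f - g) ∈ ℓ),
        φ (S.T (r • f - g) x) = 0 := by
    intro r hr hrc f hf
    obtain ⟨hr1, hr2⟩ := Finset.mem_Icc.1 hr
    refine (E.dilate hr1 hrc).line_equation (by rwa [card_dilTile hr1]) hP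
      (Finset.mem_image_of_mem _ hf) fun g' hg' hg'ℓ => ?_
    obtain ⟨g, hg, rfl⟩ := Finset.mem_image.1 hg'
    refine hcross r hr1 hr2 f hf g hg fun h => hg'ℓ ?_
    rw [← smul_sub, ← natCast_zsmul, toRat_zsmul]
    exact Submodule.smul_mem _ _ h
  have hall : ∀ᵐ x ∂S.μ, ∀ r ∈ Finset.Icc 1 (m * F.card), Nat.Coprime r F.card → ∀ f ∈ F,
      φ x + ∑ g ∈ ((dilTile r F).erase (r • f)).filter (fun g => toRat (r • f - g) ∈ ℓ),
        φ (S.T (r • f - g) x) = 0 := by
    refine (eventually_all_finset _).2 fun r hr => ?_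
    by_cases hrc : Nat.Coprime r F.card
    · exact ((eventually_all_finset F).2 (heq r hr hrc)).mono fun x h _ => h
    · exact ae_of_all _ fun x h => absurd h hrc
  filter_upwards [ae_all_shift hall] with x hx
  have hper : ∀ y : ℤ, φ (S.T ((y + m) • v) x) = φ (S.T (y • v) x) := fun y => by
    rw [add_smul, add_comm, S.T_add]
    exact invariant_avg Γ _ _ (smul_mem_gam hvℓ) _
  have h0 := hF.periodic_eq_zero hn hv (u := fun y => φ (S.T (y • v) x)) hm hper
    (fun r hr hr' hrc f hf y => ?_) 0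
  · simpa [S.T_zero] using h0
  · have h := hx (y • v) r (Finset.mem_Icc.2 ⟨hr, hr'⟩) hrc f hf
    have hf' : r • f ∈ dilTile r F := Finset.mem_image_of_mem _ hf
    have hC : (dilTile r F).filter (fun g => ∃ k : ℤ, g = r • f + k • v) =
        insert (r • f) (((dilTile r F).erase (r • f)).filter fun g => toRat (r • f - g) ∈ ℓ) := by
      ext g
      simp only [Finset.mem_filter, Finset.mem_insert, Finset.mem_erase, hmem]
      constructor
      · rintro ⟨hg, k, hk⟩
        by_cases hgf : g = r • f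
        · exact Or.inl hgf
        · exact Or.inr ⟨⟨hgf, hg⟩, -k, by rw [hk, neg_smul]; abel⟩
      · rintro (rfl | ⟨⟨-, hg⟩, k, hk⟩)
        · exact ⟨hf', 0, by simp⟩
        · exact ⟨hg, -k, by rw [neg_smul, ← hk]; abel⟩
    have hsum := sum_dilated_line (F := F) hv hprim hr f
      (fun g => φ (S.T (y • v + (r • f - g)) x))
    rw [hC, Finset.sum_insert (by simp)] at hsum
    simp only [sub_self, add_zero] at hsum
    refine Eq.trans ?_ h
    have e : ∑ g ∈ ((dilTile r F).erase (r • f)).filter (fun g => toRat (r • f - g) ∈ ℓ),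
        φ (S.T (y • v + (r • f - g)) x) =
        ∑ g ∈ ((dilTile r F).erase (r • f)).filter (fun g => toRat (r • f - g) ∈ ℓ),
          φ (S.T (r • f - g) (S.T (y • v) x)) := Finset.sum_congr rfl fun g _ => by
      rw [← S.T_add, add_comm]
    rw [← e, hsum]
    refine finsum_congr fun k => finsum_congr fun _ => ?_
    congr 2
    rw [sub_smul]
    abel

end Marked

/-- A tile of `ℤ^3` without annihilated slices decomposes along planes. -/
theorem exists_killed_geometry {F : Finset (Grid 3)} {X : Type} [MeasurableSpace X] {S : Sys 3 X}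
    (E : Marked S F) (hF : RootFree F) (hn : 2 ≤ F.card) :
    ∃ G : Geometry F, E.Killed G := by
  classical
  set q := F.card.factorial with hq
  have hq0 : 0 < q := Nat.factorial_pos _
  set D : Finset (Grid 3) := ((F ×ˢ F).image fun p => p.1 - p.2).filter fun w => w ≠ 0 with hD
  have hDmem : ∀ f ∈ F, ∀ g ∈ F, f ≠ g → f - g ∈ D := fun f hf g hg hne =>
    Finset.mem_filter.2 ⟨Finset.mem_image.2 ⟨(f, g), Finset.mem_product.2 ⟨hf, hg⟩, rfl⟩,
      sub_ne_zero.2 hne⟩
  have hplane : ∀ p : Grid 3 × Grid 3, ∃ (H : Submodule ℚ (Fin 3 → ℚ)) (s : ℕ), 0 < s ∧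
      Module.finrank ℚ H + 1 = 3 ∧ (p.1 ≠ 0 → toRat p.2 ∉ Submodule.span ℚ {toRat p.1} →
        gam s H ≤ AddSubgroup.zmultiples p.2 ⊔ lat (Submodule.span ℚ {toRat p.1})) := by
    rintro ⟨w, w'⟩
    set ℓ := Submodule.span ℚ {toRat w} with hℓ
    set W := ℓ ⊔ Submodule.span ℚ {toRat w'} with hW
    have hfl : Module.finrank ℚ ℓ ≤ 1 := by
      refine (finrank_span_le_card _).trans (by simp)
    have hfW : Module.finrank ℚ W ≤ 2 := by
      have h2 : Module.finrank ℚ (Submodule.span ℚ {toRat w'}) ≤ 1 :=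
        (finrank_span_le_card _).trans (by simp)
      have := Submodule.finrank_add_le_finrank_add_finrank ℓ (Submodule.span ℚ {toRat w'})
      rw [hW]
      omega
    have hWtop : W ≠ ⊤ := fun h => by
      rw [h, finrank_top, Module.finrank_fin_fun] at hfW
      omega
    obtain ⟨H, hWH, hH⟩ := exists_hyperplane hWtop
    by_cases hi : w ≠ 0 ∧ toRat w' ∉ ℓ
    swap
    · exact ⟨H, 1, one_pos, hH, fun a b => absurd ⟨a, b⟩ hi⟩
    have hw1 : Module.finrank ℚ ℓ = 1 :=
      finrank_span_singleton fun h => hi.1 (funext fun i => by simpa [toRat] using congrFun h i)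
    have hlt : ℓ < W := lt_of_le_of_ne le_sup_left fun h =>
      hi.2 (h ▸ Submodule.mem_sup_right (Submodule.mem_span_singleton_self _))
    have := Submodule.finrank_lt_finrank_of_lt hlt
    have hWeq : W = H := Submodule.eq_of_le_of_finrank_le hWH (by omega)
    obtain ⟨s, hs, hle⟩ := exists_scale (H := H) (Γ := AddSubgroup.zmultiples w' ⊔ lat ℓ) (by
      rw [← hWeq, hW, sup_le_iff]
      refine ⟨?_, Submodule.span_le.2 ?_⟩
      · conv_lhs => rw [← span_lat ℓ]
        exact Submodule.span_mono (Set.image_mono fun z hz => AddSubgroup.mem_sup_right hz)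
      · rintro _ rfl
        exact Submodule.subset_span ⟨w',
          AddSubgroup.mem_sup_left (AddSubgroup.mem_zmultiples w'), rfl⟩)
    exact ⟨H, s, hs, hH, fun _ _ => hle⟩
  choose Hp sp hsp hHp hlep using hplane
  set H₀ := Hp (0, 0)
  set Γ : (F → F) → AddSubgroup (Grid 3) := fun π =>
    AddSubgroup.closure {u | ∃ f : F, u = (q : ℤ) • ((f : Grid 3) - ((π f : F) : Grid 3))} with hΓ
  have key : ∀ π : F → F, ∃ (H : Submodule ℚ (Fin 3 → ℚ)) (K : ℕ), 0 < K ∧
      Module.finrank ℚ H + 1 = 3 ∧ ((∀ f, π f ≠ f) → gam K H ≤ Γ π ∨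
        ∃ w ∈ D, gam K (Submodule.span ℚ {toRat w}) ≤ Γ π) := by
    intro π
    by_cases hπ : ∀ f, π f ≠ f
    swap
    · exact ⟨H₀, 1, one_pos, hHp _, fun h => absurd h hπ⟩
    set W := Submodule.span ℚ (toRat '' (Γ π : Set (Grid 3)))
    have hWmem : ∀ f : F, toRat ((f : Grid 3) - ((π f : F) : Grid 3)) ∈ W := fun f => by
      have h := Submodule.subset_span (R := ℚ) (Set.mem_image_of_mem toRat
        (show (q : ℤ) • ((f : Grid 3) - ((π f : F) : Grid 3)) ∈ (Γ π : Set (Grid 3)) from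
          AddSubgroup.subset_closure ⟨f, rfl⟩))
      rw [toRat_zsmul] at h
      have hq1 : ((q : ℤ) : ℚ) ≠ 0 := by exact_mod_cast hq0.ne'
      have h2 := Submodule.smul_mem _ ((q : ℤ) : ℚ)⁻¹ h
      rwa [inv_smul_smul₀ hq1] at h2
    obtain ⟨f, hf⟩ := Finset.card_pos.1 (show 0 < F.card by omega)
    set w := f - (π ⟨f, hf⟩ : Grid 3) with hwdef
    have hw : w ∈ D := hDmem f hf _ (π ⟨f, hf⟩).2 fun h => hπ ⟨f, hf⟩ (Subtype.ext h.symm)
    have hw0 : toRat w ≠ 0 := fun h => (Finset.mem_filter.1 hw).2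
      (funext fun i => by simpa [toRat] using congrFun h i)
    have hlW : Submodule.span ℚ {toRat w} ≤ W :=
      (Submodule.span_singleton_le_iff_mem _ _).2 (hWmem ⟨f, hf⟩)
    have hl1 : Module.finrank ℚ (Submodule.span ℚ {toRat w}) = 1 := finrank_span_singleton hw0
    by_cases h1 : Module.finrank ℚ W ≤ 1
    · have heq : Submodule.span ℚ {toRat w} = W :=
        Submodule.eq_of_le_of_finrank_le hlW (by omega)
      obtain ⟨K, hK, hle⟩ := exists_scale (H := Submodule.span ℚ {toRat w}) (Γ := Γ π) heq.le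
      exact ⟨H₀, K, hK, hHp _, fun _ => Or.inr ⟨w, hw, hle⟩⟩
    by_cases htop : W = ⊤
    · obtain ⟨K, hK, hle⟩ := exists_scale (H := H₀) (Γ := Γ π) (le_top.trans_eq htop.symm)
      exact ⟨H₀, K, hK, hHp _, fun _ => Or.inl hle⟩
    · obtain ⟨H, hWH, hH⟩ := exists_hyperplane htop
      have heq : W = H := Submodule.eq_of_le_of_finrank_le hWH (by omega)
      obtain ⟨K, hK, hle⟩ := exists_scale (H := H) (Γ := Γ π) heq.ge
      exact ⟨H, K, hK, hH, fun _ => Or.inl hle⟩
  choose Hπ Kπ hKπ hHπ hleπ using key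
  set hyps : Finset (Submodule ℚ (Fin 3 → ℚ)) :=
    insert H₀ (Finset.univ.image Hπ ∪ (D ×ˢ D).image Hp) with hhyps
  have hhyper : ∀ H ∈ hyps, Module.finrank ℚ H + 1 = 3 := by
    intro H hH
    rcases Finset.mem_insert.1 hH with rfl | hH
    · exact hHp _
    rcases Finset.mem_union.1 hH with hH | hH
    · obtain ⟨π, -, rfl⟩ := Finset.mem_image.1 hH; exact hHπ π
    · obtain ⟨p, -, rfl⟩ := Finset.mem_image.1 hH; exact hHp p
  set m := q * ∏ π, Kπ π with hm
  have hm0 : 0 < m := Nat.mul_pos hq0 (Finset.prod_pos fun π _ => hKπ π)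
  set s := ∏ p ∈ D ×ˢ D, sp p with hs
  set R := m * F.card with hR
  obtain ⟨G, hGh, hGM⟩ := exists_geometry_of_hyps (F := F) hyps ⟨H₀, Finset.mem_insert_self _ _⟩
    hhyper (M₀ := m * (R.factorial * s))
    (Nat.mul_pos hm0 (Nat.mul_pos (Nat.factorial_pos _) (Finset.prod_pos fun p _ => hsp p)))
    ((dvd_mul_right q _).trans (dvd_mul_right m _))
  refine ⟨G, fun M hM => ?_⟩
  rw [hGM] at hM
  rw [hGh]
  set P : List (AddSubgroup (Grid 3)) := hyps.toList.map (gam M) with hP
  set lines : List (AddSubgroup (Grid 3)) :=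
    D.toList.map fun w => gam m (Submodule.span ℚ {toRat w}) with hlines
  have hall : resid S (lines ++ P) E.e =ᵐ[S.μ] fun _ => 0 := by
    refine E.resid_pairings hn _ fun π hπ => ?_
    set π' : F → F := fun f => ⟨π f, (hπ f f.2).1⟩
    have hclos : Γ π' ≤ AddSubgroup.closure {u | ∃ f ∈ F, u = (q : ℤ) • (f - π f)} := by
      refine AddSubgroup.closure_mono ?_
      rintro u ⟨f, rfl⟩
      exact ⟨f, f.2, rfl⟩
    have hdK : Kπ π' ∣ m := (Finset.dvd_prod_of_mem Kπ (Finset.mem_univ π')).mul_left q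
    rcases hleπ π' fun f h => (hπ f f.2).2 (congrArg Subtype.val h) with hle | ⟨w, hw, hle⟩
    · refine ⟨gam M (Hπ π'), List.mem_append.2 (Or.inr (List.mem_map.2 ⟨_, Finset.mem_toList.2
        (Finset.mem_insert_of_mem (Finset.mem_union_left _
          (Finset.mem_image_of_mem _ (Finset.mem_univ π')))), rfl⟩)), ?_⟩
      exact ((gam_anti_dvd ((hdK.trans (dvd_mul_right m _)).trans hM) _).trans hle).trans hclos
    · refine ⟨gam m (Submodule.span ℚ {toRat w}), List.mem_append.2 (Or.inl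
        (List.mem_map.2 ⟨w, Finset.mem_toList.2 hw, rfl⟩)), ?_⟩
      exact ((gam_anti_dvd hdK _).trans hle).trans hclos
  have hPne : P ≠ [] := by
    simp [hP, hhyps]
  have hzero : ∀ Δ ∈ lines, S.avg Δ (resid S P E.e) =ᵐ[S.μ] fun _ => 0 := by
    intro Δ hΔ
    obtain ⟨w, hw, rfl⟩ := List.mem_map.1 hΔ
    rw [Finset.mem_toList] at hw
    refine E.line_zero hF hn hm0 (dvd_mul_right q _) (Finset.mem_filter.1 hw).2 hPne
      fun r hr hrR f hf g hg hfg => ?_
    have hne : f ≠ g := fun h => hfg (by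
      rw [h, sub_self, show toRat (0 : Grid 3) = 0 from toRatHom.map_zero]
      exact Submodule.zero_mem _)
    have hp : (w, f - g) ∈ D ×ˢ D := Finset.mem_product.2 ⟨hw, hDmem f hf g hg hne⟩
    refine ⟨gam M (Hp (w, f - g)), List.mem_map.2 ⟨_, Finset.mem_toList.2
      (Finset.mem_insert_of_mem (Finset.mem_union_right _ (Finset.mem_image_of_mem _ hp))),
        rfl⟩, ?_⟩
    have h := hlep (w, f - g) (Finset.mem_filter.1 hw).2 hfg
    have hdiv : m * r * sp (w, f - g) ∣ M := by
      rw [mul_assoc]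
      exact (Nat.mul_dvd_mul_left m (Nat.mul_dvd_mul (Nat.dvd_factorial hr hrR)
        (Finset.dvd_prod_of_mem sp hp))).trans hM
    refine ((gam_anti_dvd hdiv _).trans (gam_le_scaled_of_le h)).trans
      (sup_le_sup (le_of_eq ?_) (gam_anti_dvd (dvd_mul_right m r) _))
    rw [← smul_sub, ← natCast_zsmul (f - g) r, smul_smul, Nat.cast_mul]
  have hstrip : ∀ l : List (AddSubgroup (Grid 3)), (∀ Δ ∈ l, Δ ∈ lines) →
      resid S (l ++ P) E.e =ᵐ[S.μ] resid S P E.e := by
    intro l
    induction l with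
    | nil => exact fun _ => EventuallyEq.rfl
    | cons Δ l ih =>
      intro hsub
      have h := ih fun Δ' hΔ' => hsub Δ' (List.mem_cons_of_mem _ hΔ')
      filter_upwards [h, (avg_congr (Γ := Δ) h).trans (hzero Δ (hsub Δ (List.mem_cons_self ..)))]
        with x a b
      show resid S (l ++ P) E.e x - S.avg Δ (resid S (l ++ P) E.e) x = _
      rw [a, b, sub_zero]
  exact (hstrip lines fun Δ h => h).symm.trans hall

end Vale.Agent.P043
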