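import Vale.Agent.P043.Rigidity
import Vale.Agent.P043.SliceZero
import Vale.Agent.P043.Dilate

/-!
In dimension three a bad point puts a nonzero periodic function, killed by all slices, on a line.
-/

open MeasureTheory Filter
open scoped Topology BigOperators

noncomputable section

namespace Vale.Agent.P043

variable {d : ℕ} {X : Type} [MeasurableSpace X] {S : Sys d X}

lemma exists_rat_functional {r : ℝ} (hr : ¬IsRat r) :
    ∃ l : ℝ →+ ℚ, l r ≠ 0 ∧ ∀ q, IsRat q → l q = 0 := by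
  set W : Submodule ℚ ℝ := LinearMap.range (Algebra.linearMap ℚ ℝ) with hW
  have hWmem : ∀ q : ℝ, q ∈ W ↔ IsRat q := fun q => by
    simp [hW, IsRat, LinearMap.mem_range, eq_comm]
  have hne : W.mkQ r ≠ 0 := fun h => hr ((hWmem r).1 ((Submodule.Quotient.mk_eq_zero W).1 h))
  obtain ⟨φ, hφ⟩ : ∃ φ : Module.Dual ℚ (ℝ ⧸ W), φ (W.mkQ r) ≠ 0 := by
    by_contra! h
    exact hne ((Module.forall_dual_apply_eq_zero_iff ℚ _).1 h)
  refine ⟨(φ.comp W.mkQ).toAddMonoidHom, hφ, fun q hq => ?_⟩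
  show φ (W.mkQ q) = 0
  rw [show W.mkQ q = 0 from (Submodule.Quotient.mk_eq_zero W).2 ((hWmem q).2 hq), map_zero]

lemma toRat_eq_zero {z : Grid d} (h : toRat z = 0) : z = 0 :=
  funext fun i => by simpa [toRat] using congrFun h i

lemma mem_of_multiple {H : Submodule ℚ (Fin d → ℚ)} {v w : Grid d} {k : ℤ} (hw : w ≠ 0)
    (he : w = k • v) (h : toRat w ∈ H) : toRat v ∈ H := by
  have hk : (k : ℚ) ≠ 0 := by
    intro h0
    have : k = 0 := by exact_mod_cast h0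
    exact hw (by rw [he, this, zero_smul])
  rw [he, toRat_zsmul] at h
  simpa [hk] using H.smul_mem (k : ℚ)⁻¹ h

namespace Marked

variable {F : Finset (Grid d)} (E : Marked S F) {G : Geometry F}

open Classical in
/-- On an orbit whose bad points satisfy the facts and the decoupling, the labelled differences
have vanishing sums over the lines of the tile. -/
lemma line_sum (hd : d ≤ 3) {x : X} (hx : ∀ a : Grid d,
      (S.T a x ∈ E.bad G →
        (∀ H ∈ G.hyps, ∃ J ∈ G.hyps, J ≠ H ∧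
          S.T a x ∉ Steady S (G.M₀ * G.K) (E.comp G.M₀ J)) ∧
        ∀ f ∈ F, ∀ H ∈ G.hyps, S.T a x ∉ Steady S (G.M₀ * G.K) (E.comp G.M₀ H) →
          (∃ g ∈ F, g ≠ f ∧ toRat (f - g) ∈ H ∧
            S.T (f - g) (S.T a x) ∉ Steady S (G.M₀ * G.K) (E.comp G.M₀ H)) ∧
          ∀ g ∈ F, g ≠ f → (∃ J ∈ G.hyps, toRat (f - g) ∈ J ∧
            S.T (f - g) (S.T a x) ∉ Steady S (G.M₀ * G.K) (E.comp G.M₀ J)) →
            toRat (f - g) ∈ H) ∧
      ∀ f ∈ F, ∀ H ∈ G.hyps, ∀ z : Grid d,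
        E.comp G.M₀ H (S.T (((G.M₀ * G.K : ℕ) : ℤ) • z) (S.T a x)) +
            ∑ g ∈ (F.erase f).filter (fun g => toRat (f - g) ∈ H),
              E.comp G.M₀ H (S.T (f - g) (S.T (((G.M₀ * G.K : ℕ) : ℤ) • z) (S.T a x))) =
          E.comp G.M₀ H (S.T a x) +
            ∑ g ∈ (F.erase f).filter (fun g => toRat (f - g) ∈ H),
              E.comp G.M₀ H (S.T (f - g) (S.T a x)))
    {H₀ : Submodule ℚ (Fin d → ℚ)} (hH₀ : H₀ ∈ G.hyps) {v : Grid d} (hv : v ≠ 0)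
    (hprim : ∀ z : Grid d, toRat z ∈ Submodule.span ℚ {toRat v} → ∃ k : ℤ, z = k • v)
    (hvH₀ : toRat v ∈ H₀) {l : ℝ →+ ℚ} (hlrat : ∀ q, IsRat q → l q = 0) (z₀ : Grid d) {u : Grid d → ℝ}
    (hu' : ∀ a, u a = if ∀ J ∈ G.hyps, S.T a x ∉ Steady S (G.M₀ * G.K) (E.comp G.M₀ J) →
      toRat v ∈ J then
        (l (E.comp G.M₀ H₀ (S.T (((G.M₀ * G.K : ℕ) : ℤ) • z₀) (S.T a x)) -
          E.comp G.M₀ H₀ (S.T a x)) : ℝ) else 0)
    {f : Grid d} (hf : f ∈ F) (p : Grid d) :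
    ∑ g ∈ F.filter (fun g => ∃ k : ℤ, g = f + k • v), u (p - g) = 0 := by
  classical
  set B0 := G.M₀ * G.K with hB0
  set ns : Submodule ℚ (Fin d → ℚ) → Grid d → Prop :=
    fun H a => S.T a x ∉ Steady S B0 (E.comp G.M₀ H) with hnsdef
  have hbad : ∀ {H a}, H ∈ G.hyps → ns H a → S.T a x ∈ E.bad G :=
    fun hH h => ⟨_, hH, h⟩
  have hact : ∀ (a : Grid d) (f g : Grid d), f ∈ F → g ∈ F → g ≠ f → ∀ J ∈ G.hyps,
      toRat (f - g) ∈ J → ns J (a + (f - g)) → ∀ H ∈ G.hyps, ns H a → toRat (f - g) ∈ H := by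
    intro a f g hf hg hgf J hJ hJw hJns H hH hHns
    refine (((hx a).1 (hbad hH hHns)).2 f hf H hH hHns).2 g hg hgf ⟨J, hJ, hJw, ?_⟩
    rw [← S.T_add, add_comm]
    exact hJns
  set D : Grid d → ℚ := fun a =>
    l (E.comp G.M₀ H₀ (S.T ((B0 : ℤ) • z₀) (S.T a x)) - E.comp G.M₀ H₀ (S.T a x)) with hD
  have hDns : ∀ a, D a ≠ 0 → ns H₀ a := fun a ha hst => ha (hlrat _ (hst z₀))
  set Lab : Grid d → Prop := fun a => ∀ J ∈ G.hyps, ns J a → toRat v ∈ J with hLab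
  have hu : u = fun a => if Lab a then (D a : ℝ) else 0 := funext fun a => hu' a
  set C := F.filter (fun g => ∃ k : ℤ, g = f + k • v) with hC
  by_cases hall : ∀ g ∈ C, u (p - g) = 0
  · exact Finset.sum_eq_zero hall
  push Not at hall
  obtain ⟨g₁, hg₁C, hg₁u⟩ := hall
  obtain ⟨hg₁F, k₁, hk₁⟩ := Finset.mem_filter.1 hg₁C
  have hLab₁ : Lab (p - g₁) := by
    by_contra h
    exact hg₁u (by simp only [hu, if_neg h])
  have hns₁ : ns H₀ (p - g₁) := hDns _ fun h => hg₁u (by simp [hu, h])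
  have hkey : ∀ g ∈ F, g ≠ g₁ → toRat (g₁ - g) ∈ H₀ → D (p - g) ≠ 0 →
      g ∈ C ∧ Lab (p - g) := by
    intro g hg hgne hgH hgD
    have hns₂ : ns H₀ (p - g) := hDns _ hgD
    have hw : ∀ J ∈ G.hyps, ns J (p - g₁) → toRat (g₁ - g) ∈ J := fun J hJ hJns =>
      hact (p - g₁) g₁ g hg₁F hg hgne H₀ hH₀ hgH
        (by rwa [show p - g₁ + (g₁ - g) = p - g by abel]) J hJ hJns
    obtain ⟨J, hJ, hJH, hJns⟩ := ((hx (p - g₁)).1 (hbad hH₀ hns₁)).1 H₀ hH₀
    have hdim : Module.finrank ℚ (H₀ ⊓ J : Submodule ℚ (Fin d → ℚ)) ≤ 1 := by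
      have h1 := G.hyper H₀ hH₀
      have h2 := G.hyper J hJ
      have hlt : H₀ ⊓ J < H₀ := lt_of_le_of_ne inf_le_left fun h =>
        hJH (Submodule.eq_of_le_of_finrank_le (h ▸ inf_le_right) (by omega)).symm
      have := Submodule.finrank_lt_finrank_of_lt hlt
      omega
    have hvne : toRat v ≠ 0 := fun h => hv (toRat_eq_zero h)
    have hspan : Submodule.span ℚ {toRat v} = H₀ ⊓ J :=
      Submodule.eq_of_le_of_finrank_le ((Submodule.span_singleton_le_iff_mem _ _).2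
        ⟨hvH₀, hLab₁ J hJ hJns⟩) (by rw [finrank_span_singleton hvne]; exact hdim)
    have hmem : toRat (g₁ - g) ∈ Submodule.span ℚ {toRat v} := by
      rw [hspan]; exact ⟨hgH, hw J hJ hJns⟩
    obtain ⟨k, hk⟩ := hprim (g₁ - g) hmem
    refine ⟨Finset.mem_filter.2 ⟨hg, k₁ - k, ?_⟩, fun L hL hLns => ?_⟩
    · rw [sub_smul, ← add_sub_assoc, ← hk₁, ← hk]; abel
    · refine mem_of_multiple (v := v) (w := g - g₁) (k := -k) (sub_ne_zero.2 hgne)
        (by rw [neg_smul, ← hk]; abel) (hact (p - g) g g₁ hg hg₁F (Ne.symm hgne) H₀ hH₀ ?_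
          (by rwa [show p - g + (g - g₁) = p - g₁ by abel]) L hL hLns)
      rw [show toRat (g - g₁) = -toRat (g₁ - g) by funext i; simp [toRat]]
      exact H₀.neg_mem hgH
  have hd := congrArg id ((hx (p - g₁)).2 g₁ hg₁F H₀ hH₀ z₀)
  have hzero : D (p - g₁) +
      ∑ g ∈ (F.erase g₁).filter (fun g => toRat (g₁ - g) ∈ H₀), D (p - g) = 0 := by
    have h1 : ∀ g, S.T (g₁ - g) (S.T (p - g₁) x) = S.T (p - g) x := fun g => by
      rw [← S.T_add]; congr 1; abel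
    have h2 : ∀ g, S.T (g₁ - g) (S.T ((B0 : ℤ) • z₀) (S.T (p - g₁) x)) =
        S.T ((B0 : ℤ) • z₀) (S.T (p - g) x) := fun g => by rw [T_comm, h1]
    simp only [id, h1, h2] at hd
    simp only [hD]
    rw [← map_sum, ← map_add, Finset.sum_sub_distrib]
    convert map_zero l using 2
    linarith
  have hCeq : ∑ g ∈ C, u (p - g) =
      ∑ g ∈ insert g₁ ((F.erase g₁).filter (fun g => toRat (g₁ - g) ∈ H₀)), (D (p - g) : ℝ) := by
    have hsub : C ⊆ insert g₁ ((F.erase g₁).filter (fun g => toRat (g₁ - g) ∈ H₀)) := by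
      intro g hg
      obtain ⟨hgF, k, hk⟩ := Finset.mem_filter.1 hg
      by_cases hgg : g = g₁
      · exact Finset.mem_insert.2 (Or.inl hgg)
      refine Finset.mem_insert.2 (Or.inr (Finset.mem_filter.2
        ⟨Finset.mem_erase.2 ⟨hgg, hgF⟩, ?_⟩))
      rw [show g₁ - g = (k₁ - k) • v by rw [hk, hk₁, sub_smul]; abel, toRat_zsmul]
      exact H₀.smul_mem _ hvH₀
    rw [← Finset.sum_subset (f := fun g => (D (p - g) : ℝ)) hsub fun g hg hgC => ?_]
    · refine Finset.sum_congr rfl fun g hg => ?_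
      simp only [hu]
      split_ifs with hl'
      · rfl
      by_contra hne
      have hgD : D (p - g) ≠ 0 := fun h => hne (by simp [h])
      obtain ⟨hgF, k, hk⟩ := Finset.mem_filter.1 hg
      rcases eq_or_ne g g₁ with rfl | hgg
      · exact hl' hLab₁
      refine hl' (hkey g hgF hgg ?_ hgD).2
      rw [show g₁ - g = (k₁ - k) • v by rw [hk, hk₁, sub_smul]; abel, toRat_zsmul]
      exact H₀.smul_mem _ hvH₀
    · rcases Finset.mem_insert.1 hg with rfl | hg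
      · exact absurd hg₁C hgC
      obtain ⟨hge, hgH⟩ := Finset.mem_filter.1 hg
      by_contra hne
      exact hgC (hkey g (Finset.mem_of_mem_erase hge) (Finset.ne_of_mem_erase hge) hgH
        (fun h => hne (by simp [h]))).1
  rw [hCeq, Finset.sum_insert (by simp)]
  exact_mod_cast hzero

/-- In dimension at most three root freeness leaves no bad point. -/
theorem ae_steady_of_rootFree (hd : d ≤ 3) (hF : RootFree F) (hn2 : 2 ≤ F.card)
    (hn : E.Killed G) :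
    ∀ᵐ x ∂S.μ, ∀ H ∈ G.hyps, x ∈ Steady S (G.M₀ * G.K) (E.comp G.M₀ H) := by
  classical
  set B0 := G.M₀ * G.K with hB0
  set R := B0 * F.card with hR
  set c := R.factorial with hcdef
  have hc : 0 < c := Nat.factorial_pos _
  set G₁ := G.rescale hc with hG₁
  have hn₁ : E.Killed G₁ := fun M hM => hn M hM
  set B1 := G.M₀ * (G.K * c) with hB1
  have hB10 : B1 = c * B0 := by rw [hB1, hB0]; ring
  have hequiv : ∀ᵐ x ∂S.μ, ∀ J ∈ G.hyps,
      (x ∈ Steady S B1 (E.comp G.M₀ J) ↔ x ∈ Steady S B0 (E.comp G.M₀ J)) := by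
    filter_upwards [(eventually_all_finset G.hyps).2 fun J hJ => E.comp_poly (G := G) hn hJ]
      with x hx J hJ
    refine ⟨fun h => steady_of_sub hc (hx J hJ) fun z => ?_, fun h z => ?_⟩
    · rw [← hB10]; exact h z
    · rw [hB10, Nat.cast_mul, mul_comm (c : ℤ), mul_smul]
      exact h _
  have hdata₁ : ∀ᵐ x ∂S.μ, (x ∈ E.bad G₁ →
      (∀ H ∈ G.hyps, ∃ J ∈ G.hyps, J ≠ H ∧ x ∉ Steady S B1 (E.comp G.M₀ J)) ∧
      ∀ f ∈ F, ∀ H ∈ G.hyps, x ∉ Steady S B1 (E.comp G.M₀ H) →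
        (∃ g ∈ F, g ≠ f ∧ toRat (f - g) ∈ H ∧ S.T (f - g) x ∉ Steady S B1 (E.comp G.M₀ H)) ∧
        ∀ g ∈ F, g ≠ f → (∃ J ∈ G.hyps, toRat (f - g) ∈ J ∧
          S.T (f - g) x ∉ Steady S B1 (E.comp G.M₀ J)) → toRat (f - g) ∈ H) :=
    E.ae_bad_facts hn₁
  have hdata : ∀ᵐ x ∂S.μ, ∀ r ∈ Finset.Icc 1 R, ∀ (hr : 0 < r) (hrc : Nat.Coprime r F.card)
      (hrd : r ∣ c),
      (x ∈ (E.dilate hr hrc).bad (G.dilate hr hc hrd) →
        (∀ H ∈ G.hyps, ∃ J ∈ G.hyps, J ≠ H ∧ x ∉ Steady S B1 (E.comp G.M₀ J)) ∧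
        ∀ f ∈ dilTile r F, ∀ H ∈ G.hyps, x ∉ Steady S B1 (E.comp G.M₀ H) →
          (∃ g ∈ dilTile r F, g ≠ f ∧ toRat (f - g) ∈ H ∧
            S.T (f - g) x ∉ Steady S B1 (E.comp G.M₀ H)) ∧
          ∀ g ∈ dilTile r F, g ≠ f → (∃ J ∈ G.hyps, toRat (f - g) ∈ J ∧
            S.T (f - g) x ∉ Steady S B1 (E.comp G.M₀ J)) → toRat (f - g) ∈ H) ∧
      ∀ f ∈ dilTile r F, ∀ H ∈ G.hyps, ∀ z : Grid d,
        E.comp G.M₀ H (S.T ((B1 : ℤ) • z) x) +
            ∑ g ∈ ((dilTile r F).erase f).filter (fun g => toRat (f - g) ∈ H),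
              E.comp G.M₀ H (S.T (f - g) (S.T ((B1 : ℤ) • z) x)) =
          E.comp G.M₀ H x +
            ∑ g ∈ ((dilTile r F).erase f).filter (fun g => toRat (f - g) ∈ H),
              E.comp G.M₀ H (S.T (f - g) x) := by
    refine (eventually_all_finset _).2 fun r _ => ?_
    by_cases h : 0 < r ∧ Nat.Coprime r F.card ∧ r ∣ c
    swap
    · exact ae_of_all _ fun x a b e => absurd ⟨a, b, e⟩ h
    obtain ⟨hr, hrc, hrd⟩ := h
    have hnr : (E.dilate hr hrc).Killed (G.dilate hr hc hrd) := fun M hM => hn M hM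
    filter_upwards [(E.dilate hr hrc).ae_bad_facts hnr,
      (eventually_all_finset (dilTile r F)).2 fun f hf => (eventually_all_finset _).2 fun H hH =>
        (E.dilate hr hrc).decoupling (G := G.dilate hr hc hrd) (dvd_refl _) hnr hf hH]
      with x h1 h2 _ _ _
    exact ⟨h1, h2⟩
  filter_upwards [ae_all_shift ((hdata₁.and hdata).and hequiv)] with x hx H₀ hH₀
  by_contra hns
  set ns : Submodule ℚ (Fin d → ℚ) → Grid d → Prop :=
    fun H a => S.T a x ∉ Steady S B1 (E.comp G.M₀ H) with hnsdef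
  have h0 : ns H₀ 0 := by
    simp only [hnsdef]
    rw [(hx 0).2 H₀ hH₀, S.T_zero]
    exact hns
  have hbad : S.T 0 x ∈ E.bad G₁ := ⟨H₀, hH₀, h0⟩
  obtain ⟨htwo, hpart⟩ := (hx 0).1.1 hbad
  obtain ⟨J₀, hJ₀, hJH₀, hJ₀ns⟩ := htwo H₀ hH₀
  obtain ⟨f₀, hf₀⟩ := Finset.card_pos.1 (show 0 < F.card by omega)
  obtain ⟨⟨g₀, hg₀, hg₀f, hg₀J, hg₀ns⟩, -⟩ := hpart f₀ hf₀ J₀ hJ₀ hJ₀ns
  set w₀ := f₀ - g₀ with hw₀
  have hw₀0 : w₀ ≠ 0 := sub_ne_zero.2 (Ne.symm hg₀f)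
  obtain ⟨v, hv, hline⟩ := exists_primitive hw₀0
  obtain ⟨k₀, hk₀⟩ := (hline w₀).1 ⟨1, by rw [one_smul]⟩
  have hall0 : ∀ J ∈ G.hyps, ns J 0 → toRat v ∈ J := fun J hJ hJns =>
    mem_of_multiple hw₀0 hk₀ ((hpart f₀ hf₀ J hJ hJns).2 g₀ hg₀ hg₀f ⟨J₀, hJ₀, hg₀J, hg₀ns⟩)
  have hvH₀ : toRat v ∈ H₀ := hall0 H₀ hH₀ h0
  have hprim : ∀ z : Grid d, toRat z ∈ Submodule.span ℚ {toRat v} → ∃ k : ℤ, z = k • v := by
    intro z hz
    obtain ⟨a, ha⟩ := Submodule.mem_span_singleton.1 hz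
    obtain ⟨a₀, ha₀⟩ := (hline v).2 ⟨1, (one_smul _ _).symm⟩
    exact (hline z).1 ⟨a * a₀, by rw [← ha, ha₀, smul_smul]⟩
  obtain ⟨z₀, hz₀⟩ : ∃ z : Grid d, ¬IsRat (E.comp G.M₀ H₀ (S.T ((B1 : ℤ) • z) (S.T 0 x)) -
      E.comp G.M₀ H₀ (S.T 0 x)) := by
    simpa [Steady, hnsdef] using h0
  obtain ⟨l, hl, hlrat⟩ := exists_rat_functional hz₀
  set u : Grid d → ℝ := fun a =>
    if ∀ J ∈ G.hyps, ns J a → toRat v ∈ J then
      (l (E.comp G.M₀ H₀ (S.T ((B1 : ℤ) • z₀) (S.T a x)) - E.comp G.M₀ H₀ (S.T a x)) : ℝ)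
    else 0 with hu
  -- periodicity
  have hper : ∀ a : Grid d, u (a + (B0 : ℤ) • v) = u a := by
    intro a
    have hns' : ∀ J ∈ G.hyps, (ns J (a + (B0 : ℤ) • v) ↔ ns J a) := fun J hJ => by
      simp only [hnsdef]
      rw [(hx _).2 J hJ, (hx a).2 J hJ, add_comm, S.T_add, steady_shift]
    have hh : ∀ y, E.comp G.M₀ H₀ (S.T ((B0 : ℤ) • v) y) = E.comp G.M₀ H₀ y := fun y => by
      refine invariant_avg _ _ _ (mem_gam.2 ⟨(G.K : ℤ) • v, ?_, ?_⟩) y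
      · rw [toRat_zsmul]; exact H₀.smul_mem _ hvH₀
      · rw [smul_smul, hB0, Nat.cast_mul]
    have hlab : (∀ J ∈ G.hyps, ns J (a + (B0 : ℤ) • v) → toRat v ∈ J) ↔
        ∀ J ∈ G.hyps, ns J a → toRat v ∈ J :=
      forall₂_congr fun J hJ => by rw [hns' J hJ]
    simp only [hu, hlab]
    rw [add_comm a, S.T_add, T_comm ((B1 : ℤ) • z₀) ((B0 : ℤ) • v), hh, hh]
  have hzero := hF.periodic_eq_zero hn2 hv (u := fun k : ℤ => u (k • v)) (m := B0)
    (Nat.mul_pos G.M₀_pos G.K_pos) (fun k => by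
      show u ((k + (B0 : ℤ)) • v) = u (k • v)
      rw [add_smul]; exact hper _)
    (fun r hr hrR hrc f hf y => by
      have hrd : r ∣ c := Nat.dvd_factorial hr hrR
      have hsum := sum_dilated_line (F := F) hv hprim hr f (fun g => u (y • v + r • f - g))
      have h := (E.dilate hr hrc).line_sum (G := G.dilate hr hc hrd) hd
        (fun a => ((hx a).1.2 r (Finset.mem_Icc.2 ⟨hr, hrR⟩) hr hrc hrd)) hH₀ hv hprim hvH₀ hlrat
        z₀ (u := u) (fun a => rfl) (Finset.mem_image_of_mem _ hf) (y • v + r • f)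
      rw [h] at hsum
      refine Eq.trans (finsum_congr fun k => finsum_congr fun _ => congrArg u ?_) hsum.symm
      rw [sub_smul]
      abel) 0
  simp only [zero_smul, hu] at hzero
  rw [if_pos hall0] at hzero
  exact hl (by exact_mod_cast hzero)

end Marked

end Vale.Agent.P043
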