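import Vale.Agent.P043.Main
import Vale.Agent.P043.SliceRigid
import Vale.Agent.P043.SliceKill

/-!
Periodic tilings for root free tiles of `ℤ^3`.
-/

noncomputable section

namespace Vale.Agent.P043

open scoped BigOperators

/-- A root free tile of `ℤ^3` tiles periodically. -/
theorem exists_periodic_of_rootFree {F : Finset (Grid 3)} (hF : RootFree F)
    (hA : ∃ A, Tiles F A) : ∃ A, Tiles F A ∧ IsPeriodic A := by
  classical
  obtain ⟨A, hA⟩ := hA
  obtain ⟨f, ⟨hf, -⟩, -⟩ := hA 0
  by_cases hn : 2 ≤ F.card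
  swap
  · have h1 : F.card ≤ 1 := by omega
    refine ⟨Set.univ, fun z => ⟨f, ⟨hf, trivial⟩, fun g hg => Finset.card_le_one.1 h1 g hg.1 f hf⟩,
      1, one_pos, fun a z => by simp⟩
  obtain ⟨S, E, hE⟩ := exists_marked hA
  obtain ⟨G, hG⟩ := exists_killed_geometry E hF hn
  obtain ⟨x, B, hB, h⟩ := E.exists_cosetwise G hG (E.ae_steady_of_rootFree le_rfl hF hn hG)
  exact periodic_of_cosetwise G hE hB h

end Vale.Agent.P043
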