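import Vale.Agent.P043.SliceMain

/-!
Tiles with a slice shorter than the least prime factor of their size are root free.
-/

noncomputable section

namespace Vale.Agent.P043

open scoped BigOperators

variable {d : ℕ}

lemma exists_power_sum_ne_zero {s : Finset ℤ} (hs : s.Nonempty) (z : ℤ → ℂ)
    (hz : ∀ k ∈ s, z k ≠ 0) : ∃ r : ℕ, 0 < r ∧ r ≤ s.card ∧ ∑ k ∈ s, z k ^ r ≠ 0 := by
  classical
  by_contra! h
  obtain ⟨a, ha⟩ := hs
  set T := (s.image z).erase (z a) with hT
  set P : Polynomial ℂ := Polynomial.X * ∏ w ∈ T, (Polynomial.X - Polynomial.C w) with hP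
  have hdeg : P.natDegree ≤ s.card := by
    refine Polynomial.natDegree_mul_le.trans ?_
    rw [Polynomial.natDegree_X, Polynomial.natDegree_prod _ _ fun w _ =>
      Polynomial.X_sub_C_ne_zero w]
    simp only [Polynomial.natDegree_X_sub_C, Finset.sum_const, smul_eq_mul, mul_one]
    have h1 : T.card + 1 = (s.image z).card := by
      rw [hT, Finset.card_erase_add_one (Finset.mem_image_of_mem _ ha)]
    have h2 : (s.image z).card ≤ s.card := Finset.card_image_le
    omega
  have hzero : ∑ k ∈ s, P.eval (z k) = 0 := by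
    simp only [Polynomial.eval_eq_sum_range' (Nat.lt_succ_of_le hdeg)]
    rw [Finset.sum_comm]
    refine Finset.sum_eq_zero fun i hi => ?_
    rw [← Finset.mul_sum]
    rcases Nat.eq_zero_or_pos i with rfl | hi0
    · simp [hP]
    · rw [h i hi0 (Nat.lt_succ_iff.1 (Finset.mem_range.1 hi)), mul_zero]
  have heval : ∀ k ∈ s, P.eval (z k) = if z k = z a then P.eval (z a) else 0 := by
    intro k hk
    split_ifs with he
    · rw [he]
    · simp only [hP, Polynomial.eval_mul, Polynomial.eval_prod]
      rw [Finset.prod_eq_zero (i := z k) (Finset.mem_erase.2 ⟨he, Finset.mem_image_of_mem _ hk⟩)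
        (by simp), mul_zero]
  rw [Finset.sum_congr rfl heval, ← Finset.sum_filter, Finset.sum_const, nsmul_eq_mul] at hzero
  refine (mul_ne_zero ?_ ?_) hzero
  · exact_mod_cast (Finset.card_pos.2 ⟨a, Finset.mem_filter.2 ⟨ha, rfl⟩⟩ : 0 < (s.filter fun k => z k = z a).card).ne'
  · simp only [hP, Polynomial.eval_mul, Polynomial.eval_prod, Polynomial.eval_X,
      Polynomial.eval_sub, Polynomial.eval_C]
    exact mul_ne_zero (hz a ha) (Finset.prod_ne_zero_iff.2 fun w hw =>
      sub_ne_zero.2 fun h => (Finset.mem_erase.1 hw).1 h.symm)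

/-- A short slice in every direction gives root freeness. -/
theorem rootFree_of_small_slices {F : Finset (Grid d)}
    (h : ∀ v : Grid d, v ≠ 0 → ∃ f ∈ F, (slice F v f).ncard < F.card.minFac) : RootFree F := by
  classical
  intro v hv ζ n hn hζ
  obtain ⟨f, hf, hlt⟩ := h v hv
  have hfin := slice_finite (F := F) hv f
  rw [Set.ncard_eq_toFinset_card _ hfin] at hlt
  have hne : hfin.toFinset.Nonempty := ⟨0, hfin.mem_toFinset.2 (by simpa [slice] using hf)⟩
  have hζ0 : ζ ≠ 0 := fun h0 => by simp [h0, hn.ne'] at hζ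
  obtain ⟨r, hr0, hr, hsum⟩ :=
    exists_power_sum_ne_zero hne (fun k => ζ ^ k) fun k _ => zpow_ne_zero _ hζ0
  refine ⟨r, ?_, f, hf, ?_⟩
  · refine Nat.coprime_of_dvd fun p hp hpr hpc => ?_
    have h1 := Nat.minFac_le_of_dvd hp.two_le hpc
    have h2 := Nat.le_of_dvd hr0 hpr
    omega
  · rw [finsum_mem_eq_finite_toFinset_sum _ hfin]
    simpa only [mul_comm (r : ℤ), zpow_mul, zpow_natCast] using hsum

end Vale.Agent.P043
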