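import Vale.Agent.P043.Levels

/-!
Rational behaviour along the cosets of `B ℤ^d` in a system, and the pencils as such functions.
-/

open MeasureTheory Filter
open scoped Topology BigOperators

noncomputable section

namespace Vale.Agent.P043

variable {d : ℕ} {X : Type} [MeasurableSpace X] {S : Sys d X}

lemma measurableSet_isRat : MeasurableSet {r : ℝ | IsRat r} := by
  have e : {r : ℝ | IsRat r} = Set.range fun q : ℚ => (q : ℝ) := by
    ext r
    simp [IsRat, eq_comm]
  rw [e]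
  exact (Set.countable_range _).measurableSet

lemma measurableSet_isInt : MeasurableSet {r : ℝ | IsInt r} := by
  have e : {r : ℝ | IsInt r} = Set.range fun n : ℤ => (n : ℝ) := by
    ext r
    simp [IsInt, eq_comm]
  rw [e]
  exact (Set.countable_range _).measurableSet

lemma IsInt.eq_zero_or_one {r : ℝ} (h : IsInt r) (h0 : 0 ≤ r) (h1 : r ≤ 1) : r = 0 ∨ r = 1 := by
  obtain ⟨n, rfl⟩ := h
  norm_cast at h0 h1
  rcases (show n = 0 ∨ n = 1 by omega) with rfl | rfl <;> simp

lemma IsRat.sum {ι : Type*} (s : Finset ι) {f : ι → ℝ} (h : ∀ i ∈ s, IsRat (f i)) :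
    IsRat (∑ i ∈ s, f i) :=
  Finset.sum_induction f IsRat (fun _ _ => IsRat.add) IsRat.zero h

/-! ### Steady points -/

/-- The points from which `φ` has rational differences along `B ℤ^d`. -/
def Steady (S : Sys d X) (B : ℕ) (φ : X → ℝ) : Set X :=
  {x | ∀ z : Grid d, IsRat (φ (S.T ((B : ℤ) • z) x) - φ x)}

lemma steady_shift {B : ℕ} {φ : X → ℝ} {x : X} (a : Grid d) :
    S.T ((B : ℤ) • a) x ∈ Steady S B φ ↔ x ∈ Steady S B φ := by
  have h1 : ∀ (a : Grid d) (y : X), y ∈ Steady S B φ → S.T ((B : ℤ) • a) y ∈ Steady S B φ := by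
    intro a y hy z
    have := (hy (z + a)).sub (hy a)
    rwa [sub_sub_sub_cancel_right, smul_add, S.T_add] at this
  refine ⟨fun h => ?_, h1 a x⟩
  have := h1 (-a) _ h
  rwa [← S.T_add, ← smul_add, neg_add_cancel, smul_zero, S.T_zero] at this

lemma measurableSet_steady (B : ℕ) {φ : X → ℝ} (hφ : Measurable φ) :
    MeasurableSet (Steady S B φ) := by
  have e : Steady S B φ =
      ⋂ z : Grid d, (fun x => φ (S.T ((B : ℤ) • z) x) - φ x) ⁻¹' {r : ℝ | IsRat r} := by
    ext x
    simp [Steady]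
  rw [e]
  exact MeasurableSet.iInter fun z => ((hφ.comp (measurable_T _)).sub hφ) measurableSet_isRat

/-- Integral periods `P B` along the coset of a steady point. -/
def Settled (S : Sys d X) (B P : ℕ) (φ : X → ℝ) : Set X :=
  {x | x ∈ Steady S B φ → ∀ w z : Grid d,
    IsInt (φ (S.T ((B : ℤ) • w + ((P * B : ℕ) : ℤ) • z) x) - φ (S.T ((B : ℤ) • w) x))}

lemma settled_shift {B P : ℕ} {φ : X → ℝ} {x : X} (a : Grid d) :
    S.T ((B : ℤ) • a) x ∈ Settled S B P φ ↔ x ∈ Settled S B P φ := by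
  have h1 : ∀ (a : Grid d) (y : X), y ∈ Settled S B P φ →
      S.T ((B : ℤ) • a) y ∈ Settled S B P φ := by
    intro a y hy hs w z
    have := hy ((steady_shift a).1 hs) (w + a) z
    rw [← S.T_add, ← S.T_add, ← smul_add, add_right_comm, ← smul_add]
    exact this
  refine ⟨fun h => ?_, h1 a x⟩
  have := h1 (-a) _ h
  rwa [← S.T_add, ← smul_add, neg_add_cancel, smul_zero, S.T_zero] at this

lemma measurableSet_settled (B P : ℕ) {φ : X → ℝ} (hφ : Measurable φ) :
    MeasurableSet (Settled S B P φ) := by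
  have e : Settled S B P φ = (Steady S B φ)ᶜ ∪ ⋂ (w : Grid d) (z : Grid d),
      (fun x => φ (S.T ((B : ℤ) • w + ((P * B : ℕ) : ℤ) • z) x) - φ (S.T ((B : ℤ) • w) x)) ⁻¹'
        {r : ℝ | IsInt r} := by
    ext x
    simp [Settled, imp_iff_not_or]
  rw [e]
  exact (measurableSet_steady B hφ).compl.union (MeasurableSet.iInter fun w =>
    MeasurableSet.iInter fun z =>
      ((hφ.comp (measurable_T _)).sub (hφ.comp (measurable_T _))) measurableSet_isInt)

lemma Settled.dvd {B P P' : ℕ} {φ : X → ℝ} {x : X} (h : x ∈ Settled S B P φ) (hP : P ∣ P') :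
    x ∈ Settled S B P' φ := by
  obtain ⟨c, rfl⟩ := hP
  intro hs w z
  have := h hs w ((c : ℤ) • z)
  rwa [smul_smul, ← Nat.cast_mul, mul_right_comm] at this

lemma exists_settled {B D : ℕ} {φ : X → ℝ} {x : X} (hp : PolyMod B D (orb S φ x)) :
    ∃ P : ℕ, 0 < P ∧ x ∈ Settled S B P φ := by
  by_cases hs : x ∈ Steady S B φ
  swap
  · exact ⟨1, one_pos, fun h => absurd h hs⟩
  have hr : RatDiff B (orb S φ x) 0 := fun z => by simpa [orb, S.T_zero] using hs z
  obtain ⟨N, hN, hden⟩ := hp.exists_den d 0 hr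
  refine ⟨N * D.factorial, Nat.mul_pos hN (Nat.factorial_pos _), fun _ w z => ?_⟩
  refine hp.periodic (N := N) (t := (B : ℤ) • w) (fun y => ?_) z
  have h := (hden (y + w) fun i hi => absurd i.isLt (by omega)).sub
    (hden w fun i hi => absurd i.isLt (by omega))
  rw [← mul_sub, sub_sub_sub_cancel_right, zero_add, zero_add, smul_add, add_comm] at h
  exact h

lemma steady_of_sub {B D L : ℕ} (hL : 0 < L) {φ : X → ℝ} {x : X}
    (hp : PolyMod B D (orb S φ x))
    (h : ∀ z : Grid d, IsRat (φ (S.T (((L * B : ℕ) : ℤ) • z) x) - φ x)) : x ∈ Steady S B φ := by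
  intro z
  have := hp.ratDiff_of_sub hL (t := 0) (fun z => by simpa [orb, S.T_zero] using h z) z
  simpa [orb, S.T_zero] using this

/-! ### Polynomial functions -/

lemma PolyMod.dvd {M M' D : ℕ} {φ : Grid d → ℝ} (h : PolyMod M D φ) (hM : M ∣ M') :
    PolyMod M' D φ := by
  obtain ⟨c, rfl⟩ := hM
  intro z t
  rw [Nat.cast_mul, mul_smul]
  exact h _ t

lemma polyMod_sum {ι : Type*} {M D : ℕ} (s : Finset ι) {φ : ι → Grid d → ℝ}
    (h : ∀ i ∈ s, PolyMod M D (φ i)) : PolyMod M D fun t => ∑ i ∈ s, φ i t := by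
  intro z t
  have e : (fwdDiff ((M : ℤ) • z))^[D] (fun t => ∑ i ∈ s, φ i t) t =
      ∑ i ∈ s, (fwdDiff ((M : ℤ) • z))^[D] (φ i) t := by
    simp only [fwdDiff_iter_eq_sum_shift, Finset.smul_sum]
    exact Finset.sum_comm
  rw [e]
  exact IsInt.sum _ fun i hi => h i hi z t

/-- Almost every orbit sees a function that is polynomial modulo `ℤ`. -/
def Poly (S : Sys d X) (B D : ℕ) (φ : X → ℝ) : Prop :=
  ∀ᵐ x ∂S.μ, PolyMod B D (orb S φ x)

lemma Poly.dvd {B B' D : ℕ} {φ : X → ℝ} (h : Poly S B D φ) (hB : B ∣ B') : Poly S B' D φ :=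
  h.mono fun _ hx => hx.dvd hB

lemma Poly.comp {B D : ℕ} {φ : X → ℝ} (h : Poly S B D φ) (v : Grid d) :
    Poly S B D fun x => φ (S.T v x) := by
  filter_upwards [ae_all_shift h] with x hx
  have e : orb S (fun x => φ (S.T v x)) x = orb S φ (S.T v x) := funext fun t => by
    show φ (S.T v (S.T t x)) = φ (S.T t (S.T v x))
    rw [T_comm]
  rw [e]
  exact hx v

lemma Poly.zero {B D : ℕ} : Poly S B D fun _ => 0 := ae_of_all _ fun x z t => by
  rw [fwdDiff_iter_eq_sum_shift]
  simp [orb, IsInt.zero]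

lemma Poly.sum {B D : ℕ} {ι : Type*} (s : Finset ι) {φ : ι → X → ℝ}
    (h : ∀ i ∈ s, Poly S B D (φ i)) : Poly S B D fun x => ∑ i ∈ s, φ i x := by
  filter_upwards [(eventually_all_finset s).2 h] with x hx
  exact polyMod_sum s (φ := fun i => orb S (φ i) x) hx

lemma Poly.add_per {B D : ℕ} (hD : 0 < D) {φ ψ : X → ℝ} (h : Poly S B D φ)
    (hp : Per S B fun x => ψ x - φ x) : Poly S B D ψ := by
  filter_upwards [h, ae_all_shift hp] with x hx hp z t
  obtain ⟨n, rfl⟩ := Nat.exists_eq_add_of_le hD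
  have e : fwdDiff ((B : ℤ) • z) (orb S ψ x) = fwdDiff ((B : ℤ) • z) (orb S φ x) := by
    funext u
    have := hp u z
    rw [← S.T_add, add_comm] at this
    simp only [fwdDiff, orb]
    linarith
  rw [add_comm, Function.iterate_succ_apply, e, ← Function.iterate_succ_apply]
  have := hx z t
  rwa [add_comm 1 n] at this

/-! ### Sets invariant up to a null set -/

/-- Almost invariance under `B ℤ^d`. -/
def AInv (S : Sys d X) (B : ℕ) (W : Set X) : Prop :=
  ∀ᵐ x ∂S.μ, ∀ z : Grid d, S.T ((B : ℤ) • z) x ∈ W ↔ x ∈ W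

lemma AInv.dvd {B B' : ℕ} {W : Set X} (h : AInv S B W) (hB : B ∣ B') : AInv S B' W := by
  obtain ⟨c, rfl⟩ := hB
  filter_upwards [h] with x hx z
  rw [Nat.cast_mul, mul_smul]
  exact hx _

/-- A function vanishing on an almost invariant set has vanishing averages there. -/
lemma zero_on {B : ℕ} {Γ : AddSubgroup (Grid d)} (hΓ : Γ ≤ gam B ⊤) {f : X → ℝ} {W : Set X}
    (hW : MeasurableSet W) (hinv : AInv S B W) (hf : Integrable f S.μ)
    (h0 : ∀ᵐ x ∂S.μ, x ∈ W → f x = 0) : ∀ᵐ x ∂S.μ, x ∈ W → S.avg Γ f x = 0 := by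
  set Z : Set X := {x | ∀ γ ∈ Γ, S.T γ x ∈ W ↔ x ∈ W} with hZ
  have hZae : ∀ᵐ x ∂S.μ, x ∈ Z := hinv.mono fun x hx γ hγ => by
    obtain ⟨y, -, rfl⟩ := mem_gam.1 (hΓ hγ)
    exact hx y
  have hZinv : ∀ γ ∈ Γ, ∀ x, S.T γ x ∈ W ∩ Z ↔ x ∈ W ∩ Z := by
    have h1 : ∀ γ ∈ Γ, ∀ x ∈ W ∩ Z, S.T γ x ∈ W ∩ Z := fun γ hγ x hx => by
      refine ⟨(hx.2 γ hγ).2 hx.1, fun δ hδ => ?_⟩
      rw [← S.T_add, hx.2 _ (Γ.add_mem hδ hγ), hx.2 γ hγ]
    refine fun γ hγ x => ⟨fun h => ?_, h1 γ hγ x⟩
    have := h1 _ (Γ.neg_mem hγ) _ h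
    rwa [← S.T_add, neg_add_cancel, S.T_zero] at this
  have hZm : MeasurableSet Z := by
    have e : Z = ⋂ (γ : Grid d) (_ : γ ∈ Γ),
        ((S.T γ ⁻¹' W ∩ W) ∪ ((S.T γ ⁻¹' W)ᶜ ∩ Wᶜ)) := by
      ext x
      simp [hZ, iff_iff_and_or_not_and_not]
    rw [e]
    exact MeasurableSet.biInter (Set.to_countable _) fun γ _ =>
      (((measurable_T γ) hW).inter hW).union (((measurable_T γ) hW).compl.inter hW.compl)
  filter_upwards [avg_eq_zero_on (hW.inter hZm) hZinv hf (h0.mono fun x hx h => hx h.1), hZae]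
    with x h hz hw
  exact h ⟨hw, hz⟩

/-! ### Pencils -/

namespace Marked

variable {F : Finset (Grid d)} (E : Marked S F) (G : Geometry F)

lemma measurable_comp' (M : ℕ) (H : Submodule ℚ (Fin d → ℚ)) : Measurable (E.comp M H) :=
  measurable_avg _ _

lemma measurable_pencil (M : ℕ) (f g : Grid d) : Measurable (E.pencil G M f g) := by
  refine Finset.measurable_sum _ fun H _ => ?_
  split_ifs
  · exact (E.measurable_comp' M H).comp (measurable_T _)
  · exact measurable_const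

lemma measurable_pencil₂ (M : ℕ) (f g g' : Grid d) : Measurable (E.pencil₂ G M f g g') := by
  refine Finset.measurable_sum _ fun H _ => ?_
  split_ifs
  · exact (E.measurable_comp' M H).comp (measurable_T _)
  · exact measurable_const

variable {G}

lemma comp_poly (hn : E.Killed G) {H : Submodule ℚ (Fin d → ℚ)} (hH : H ∈ G.hyps) :
    Poly S (G.M₀ * G.K) G.hyps.card (E.comp G.M₀ H) := E.comp_polyMod (dvd_refl _) hn hH

lemma pencil_poly (hn : E.Killed G) (f g : Grid d) :
    Poly S (G.M₀ * G.K) G.hyps.card (E.pencil G G.M₀ f g) := by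
  refine Poly.sum _ fun H hH => ?_
  split_ifs
  · exact (E.comp_poly hn hH).comp _
  · exact Poly.zero

lemma pencil₂_poly (hn : E.Killed G) (f g g' : Grid d) :
    Poly S (G.M₀ * G.K) G.hyps.card (E.pencil₂ G G.M₀ f g g') := by
  refine Poly.sum _ fun H hH => ?_
  split_ifs
  · exact (E.comp_poly hn hH).comp _
  · exact Poly.zero

/-- `ψ` differs from the pencil of the base level by a periodic function. -/
theorem psi_pencil₀ {M : ℕ} (hM : G.M₀ ∣ M) (hn : E.Killed G) {f g : Grid d} (hf : f ∈ F)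
    (hg : g ∈ F) : Per S (M * G.K) fun x => E.psi M f g x - E.pencil G G.M₀ f g x := by
  classical
  have h : Per S (M * G.K) fun x => E.pencil G M f g x - E.pencil G G.M₀ f g x := by
    simp only [pencil, ← Finset.sum_sub_distrib]
    refine Per.sum _ fun H hH => ?_
    split_ifs
    · exact (E.comp_transfer (dvd_refl _) hM hn hH).comp (f - g)
    · simpa using Per.const (S := S) (B := M * G.K) 0
  exact ((E.psi_pencil hM hn hf hg).add h).congr (ae_of_all _ fun x => by ring)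

/-- The mean of `ψ` differs from the double pencil of the base level by a periodic function. -/
theorem mean₂_pencil₀ {M : ℕ} (hM : G.M₀ ∣ M) (hn : E.Killed G) {f g g' : Grid d} (hf : f ∈ F)
    (hg : g ∈ F) (hg' : g' ∈ F) :
    Per S (M * G.K) fun x => E.mean₂ M f g g' x - E.pencil₂ G G.M₀ f g g' x := by
  classical
  have h : Per S (M * G.K) fun x => E.pencil₂ G M f g g' x - E.pencil₂ G G.M₀ f g g' x := by
    simp only [pencil₂, ← Finset.sum_sub_distrib]
    refine Per.sum _ fun H hH => ?_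
    split_ifs
    · exact (E.comp_transfer (dvd_refl _) hM hn hH).comp (f - g)
    · simpa using Per.const (S := S) (B := M * G.K) 0
  exact ((E.mean₂_pencil hM hn hf hg hg').add h).congr (ae_of_all _ fun x => by ring)

end Marked

end Vale.Agent.P043
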